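import Mathlib
import Crest.Prelude.Def_HF

/-!
# Row 282: basic API for hereditarily finite sets `HF A` (chunks R282-HF1, HF2, HF3)
-/

noncomputable section
open Classical

namespace Crest.Agent.CPTL
open Crest.LogicCS.HFSet

variable {A : Type}

/-! ## HF1: members, extensionality, induction -/

theorem toList_equiv {l₁ l₂ : Lists A} (h : Lists.Equiv l₁ l₂) (y : HF A) :
    (∃ a ∈ l₁.toList, mk a = y) → ∃ a ∈ l₂.toList, mk a = y := by
  cases h with
  | refl => exact id
  | antisymm h1 h2 =>
    rintro ⟨a, ha, rfl⟩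
    obtain ⟨a', ha', he⟩ := Lists'.mem_of_subset' h1 ha
    exact ⟨a', ha', Quotient.sound (Lists.Equiv.symm he)⟩

theorem mem_members_mk (l : Lists A) (y : HF A) :
    y ∈ members (mk l) ↔ ∃ a ∈ l.toList, mk a = y := by
  have h : Lists.Equiv (Quotient.out (mk l)) l := Quotient.mk_out l
  unfold members
  rw [List.mem_toFinset, List.mem_map]
  exact ⟨toList_equiv h y, toList_equiv h.symm y⟩

theorem mk_out (x : HF A) : mk (Quotient.out x) = x := Quotient.out_eq x

theorem out_mk (l : Lists A) : Lists.Equiv (Quotient.out (mk l)) l := Quotient.mk_out l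

theorem members_ofFinset (s : Finset (HF A)) : members (ofFinset s) = s := by
  ext y
  unfold ofFinset
  rw [mem_members_mk, Lists.to_ofList]
  constructor
  · rintro ⟨a, ha, rfl⟩
    obtain ⟨z, hz, rfl⟩ := List.mem_map.1 ha
    rw [mk_out]
    exact Finset.mem_toList.1 hz
  · intro hy
    exact ⟨Quotient.out y, List.mem_map.2 ⟨y, Finset.mem_toList.2 hy, rfl⟩, mk_out y⟩

theorem members_atom (a : A) : members (atom a : HF A) = ∅ := by
  ext y
  unfold atom
  rw [mem_members_mk]
  constructor
  · rintro ⟨b, hb, _⟩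
    cases hb
  · intro h
    exact absurd h (Finset.notMem_empty y)

theorem atom_inj {a b : A} (h : (atom a : HF A) = atom b) : a = b := by
  have h1 : Lists.Equiv (Lists.atom a) (Lists.atom b) := Quotient.exact h
  have h2 := Lists.equiv_atom.1 h1
  cases h2
  rfl

theorem atom_ne_ofFinset (a : A) (s : Finset (HF A)) : (atom a : HF A) ≠ ofFinset s := by
  intro h
  have h1 : Lists.Equiv (Lists.atom a) (Lists.ofList (s.toList.map Quotient.out)) := Quotient.exact h
  have h2 := Lists.equiv_atom.1 h1
  have h3 : (Lists.atom a).1 = (Lists.ofList (s.toList.map Quotient.out)).1 := by rw [h2]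
  exact Bool.false_ne_true h3

theorem hf_cases (x : HF A) : (∃ a, x = atom a) ∨ x = ofFinset (members x) := by
  obtain ⟨l, rfl⟩ : ∃ l : Lists A, mk l = x := ⟨Quotient.out x, mk_out x⟩
  rcases l with ⟨b, l⟩
  cases b with
  | false =>
    cases l with
    | atom a => exact Or.inl ⟨a, rfl⟩
  | true =>
    right
    refine Quotient.sound ?_
    refine Lists.Equiv.antisymm_iff.2 ⟨Lists'.subset_def.2 ?_, Lists'.subset_def.2 ?_⟩
    · intro a ha
      refine ⟨Quotient.out (mk a), ?_, (out_mk a).symm⟩
      rw [Lists'.to_ofList]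
      exact List.mem_map.2 ⟨mk a, Finset.mem_toList.2 ((mem_members_mk _ _).2 ⟨a, ha, rfl⟩), rfl⟩
    · intro a ha
      rw [Lists'.to_ofList] at ha
      obtain ⟨y, hy, rfl⟩ := List.mem_map.1 ha
      obtain ⟨a', ha', rfl⟩ := (mem_members_mk _ _).1 (Finset.mem_toList.1 hy)
      exact ⟨a', ha', out_mk a'⟩

/-- membership is well founded -/
theorem mem_wf : WellFounded (fun u v : HF A => u ∈ members v) := by
  have key := Lists.inductionMut (α := A)
    (fun l => Acc (fun u v : HF A => u ∈ members v) (mk l))
    (fun l => ∀ a ∈ l.toList, Acc (fun u v : HF A => u ∈ members v) (mk a))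
    (fun a => Acc.intro _ fun y hy => by
      have hy' : y ∈ members (atom a : HF A) := hy
      rw [members_atom] at hy'
      exact absurd hy' (Finset.notMem_empty y))
    (fun l hl => Acc.intro _ fun y hy => by
      obtain ⟨a, ha, rfl⟩ := (mem_members_mk _ _).1 hy
      exact hl a ha)
    (fun a ha => by cases ha)
    (fun a l ha hl b hb => by
      rw [Lists'.toList_cons] at hb
      rcases List.mem_cons.1 hb with rfl | hb
      · exact ha
      · exact hl b hb)
  refine ⟨fun x => ?_⟩
  rw [← mk_out x]
  exact key.1 _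

theorem ofFinset_inj {s t : Finset (HF A)} (h : ofFinset s = ofFinset t) : s = t := by
  rw [← members_ofFinset s, h, members_ofFinset]

theorem hf_induction {P : HF A → Prop} (h0 : ∀ a, P (atom a))
    (h1 : ∀ s : Finset (HF A), (∀ y ∈ s, P y) → P (ofFinset s)) : ∀ x, P x := by
  intro x
  induction x using mem_wf.induction with
  | _ x ih =>
    rcases hf_cases x with ⟨a, rfl⟩ | hx
    · exact h0 a
    · rw [hx]; exact h1 _ ih

theorem not_isAtom_ofFinset (s : Finset (HF A)) : ¬ IsAtom (ofFinset s) := by
  rintro ⟨a, ha⟩; exact atom_ne_ofFinset a s ha.symm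

/-! ## HF2: renaming -/

/-- renaming on trees -/
def HF2_rt (f : A → A) (l : Lists A) : Lists A := ⟨l.1, renameTree f l.2⟩

theorem HF2_toList (f : A → A) : ∀ {b : Bool} (l : Lists' A b),
    (renameTree f l).toList = l.toList.map (HF2_rt f) := by
  intro b l
  induction l with
  | atom a => rfl
  | nil => rfl
  | cons' a l _ ih =>
      simp only [renameTree, Lists'.toList, ih]
      rfl

theorem HF2_equiv (f : A → A) : ∀ l : Lists A, ∀ l' : Lists A, Lists.Equiv l l' →
    Lists.Equiv (HF2_rt f l) (HF2_rt f l') := by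
  suffices PProd (∀ l : Lists A, ∀ l' : Lists A, Lists.Equiv l l' →
      Lists.Equiv (HF2_rt f l) (HF2_rt f l')) (∀ (l : Lists' A true), ∀ a ∈ l.toList,
      ∀ l' : Lists A, Lists.Equiv a l' → Lists.Equiv (HF2_rt f a) (HF2_rt f l')) by exact this.1
  apply Lists.inductionMut
  · intro a l' h
    rw [← Lists.equiv_atom.1 h]
  · intro l ih l' h
    obtain - | ⟨h1, h2⟩ := h
    · exact Lists.Equiv.refl _
    · rename_i l2
      have h1' : l ⊆ l2 := h1
      have h2' : l2 ⊆ l := h2
      change Lists.Equiv (Lists.of' (renameTree f l)) (Lists.of' (renameTree f l2))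
      apply Lists.Equiv.antisymm_iff.2
      constructor
      · apply Lists'.subset_def.2
        intro a ha
        rw [HF2_toList] at ha
        obtain ⟨a0, ha0, rfl⟩ := List.mem_map.1 ha
        obtain ⟨a2, ha2, he⟩ := Lists'.mem_of_subset' h1' ha0
        refine ⟨HF2_rt f a2, ?_, ih a0 ha0 a2 he⟩
        rw [HF2_toList]
        exact List.mem_map.2 ⟨a2, ha2, rfl⟩
      · apply Lists'.subset_def.2
        intro a ha
        rw [HF2_toList] at ha
        obtain ⟨a2, ha2, rfl⟩ := List.mem_map.1 ha
        obtain ⟨a0, ha0, he⟩ := Lists'.mem_of_subset' h2' ha2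
        refine ⟨HF2_rt f a0, ?_, (ih a0 ha0 a2 he.symm).symm⟩
        rw [HF2_toList]
        exact List.mem_map.2 ⟨a0, ha0, rfl⟩
  · rintro _ ⟨⟩
  · intro a l h1 h2 c hc
    rw [Lists'.toList_cons] at hc
    rcases List.mem_cons.1 hc with rfl | hc
    · exact h1
    · exact h2 c hc

theorem HF2_rename_mk (f : A → A) (l : Lists A) : rename f (mk l) = mk (HF2_rt f l) := by
  unfold rename
  apply Quotient.sound
  have h : Lists.Equiv (Quotient.out (mk l)) l := Quotient.mk_out (s := Lists.instSetoidLists) l
  exact HF2_equiv f _ _ h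

theorem HF2_mk_ofList {L1 L2 : List (Lists A)} (h1 : ∀ a ∈ L1, ∃ b ∈ L2, mk a = mk b)
    (h2 : ∀ b ∈ L2, ∃ a ∈ L1, mk a = mk b) : mk (Lists.ofList L1) = mk (Lists.ofList L2) := by
  apply Quotient.sound
  change Lists.Equiv (Lists.of' (Lists'.ofList L1)) (Lists.of' (Lists'.ofList L2))
  apply Lists.Equiv.antisymm_iff.2
  constructor
  · apply Lists'.subset_def.2
    intro a ha
    rw [Lists'.to_ofList] at ha
    obtain ⟨b, hb, he⟩ := h1 a ha
    exact ⟨b, by rw [Lists'.to_ofList]; exact hb, Quotient.exact he⟩
  · apply Lists'.subset_def.2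
    intro b hb
    rw [Lists'.to_ofList] at hb
    obtain ⟨a, ha, he⟩ := h2 b hb
    exact ⟨a, by rw [Lists'.to_ofList]; exact ha, Lists.Equiv.symm (Quotient.exact he)⟩

theorem HF2_rt_ofList (f : A → A) (L : List (Lists A)) :
    HF2_rt f (Lists.ofList L) = Lists.ofList (L.map (HF2_rt f)) := by
  unfold HF2_rt Lists.ofList Lists.of'
  congr 1
  have h := HF2_toList f (Lists'.ofList L)
  rw [Lists'.to_ofList] at h
  have h2 := Lists'.of_toList (renameTree f (Lists'.ofList L))
  rw [h] at h2
  exact h2.symm

theorem HF2_mk_out (x : HF A) : mk (Quotient.out x) = x := Quotient.out_eq x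

theorem rename_atom (f : A → A) (a : A) : rename f (atom a) = atom (f a) := by
  unfold atom
  rw [HF2_rename_mk]
  rfl

theorem rename_ofFinset (f : A → A) (s : Finset (HF A)) :
    rename f (ofFinset s) = ofFinset (s.image (rename f)) := by
  have key : ∀ x : HF A, mk (HF2_rt f (Quotient.out x)) = rename f x := fun x => rfl
  unfold ofFinset
  rw [HF2_rename_mk, HF2_rt_ofList]
  apply HF2_mk_ofList
  · intro a ha
    obtain ⟨z, hz, rfl⟩ := List.mem_map.1 ha
    obtain ⟨x, hx, rfl⟩ := List.mem_map.1 hz
    have hx' : x ∈ s := Finset.mem_toList.1 hx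
    refine ⟨Quotient.out (rename f x), ?_, ?_⟩
    · exact List.mem_map.2 ⟨rename f x, Finset.mem_toList.2 (Finset.mem_image_of_mem _ hx'), rfl⟩
    · exact (key x).trans (HF2_mk_out _).symm
  · intro b hb
    obtain ⟨y, hy, rfl⟩ := List.mem_map.1 hb
    obtain ⟨x, hx, rfl⟩ := Finset.mem_image.1 (Finset.mem_toList.1 hy)
    refine ⟨HF2_rt f (Quotient.out x), ?_, ?_⟩
    · exact List.mem_map.2 ⟨Quotient.out x, List.mem_map.2 ⟨x, Finset.mem_toList.2 hx, rfl⟩, rfl⟩
    · exact (key x).trans (HF2_mk_out _).symm

theorem rename_comp (f g : A → A) (x : HF A) : rename f (rename g x) = rename (f ∘ g) x := by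
  induction x using hf_induction with
  | h0 a => simp [rename_atom]
  | h1 s ih =>
    rw [rename_ofFinset, rename_ofFinset, rename_ofFinset, Finset.image_image]
    congr 1
    apply Finset.image_congr
    intro y hy
    exact ih y hy

theorem rename_id (x : HF A) : rename (fun a => a) x = x := by
  induction x using hf_induction with
  | h0 a => simp [rename_atom]
  | h1 s ih =>
    rw [rename_ofFinset]
    congr 1
    conv_rhs => rw [← Finset.image_id (s := s)]
    apply Finset.image_congr
    intro y hy
    exact ih y hy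

theorem rename_injective {f : A → A} (hf : Function.Injective f) :
    Function.Injective (rename f : HF A → HF A) := by
  intro x
  induction x using hf_induction with
  | h0 a =>
    intro y h
    rcases hf_cases y with ⟨b, rfl⟩ | hy
    · rw [rename_atom, rename_atom] at h
      rw [hf (atom_inj h)]
    · rw [hy, rename_atom, rename_ofFinset] at h
      exact absurd h (atom_ne_ofFinset _ _)
  | h1 s ih =>
    intro y h
    rcases hf_cases y with ⟨b, rfl⟩ | hy
    · rw [rename_atom, rename_ofFinset] at h
      exact absurd h.symm (atom_ne_ofFinset _ _)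
    · rw [hy] at h ⊢
      rw [rename_ofFinset, rename_ofFinset] at h
      have h' := ofFinset_inj h
      congr 1
      ext u
      constructor
      · intro hu
        have h3 : rename f u ∈ s.image (rename f) := Finset.mem_image_of_mem _ hu
        rw [h'] at h3
        obtain ⟨v, hv, hvu⟩ := Finset.mem_image.1 h3
        rw [ih u hu hvu.symm]
        exact hv
      · intro hu
        have h3 : rename f u ∈ (members y).image (rename f) := Finset.mem_image_of_mem _ hu
        rw [← h'] at h3
        obtain ⟨v, hv, hvu⟩ := Finset.mem_image.1 h3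
        rw [← ih v hv hvu]
        exact hv

theorem members_rename (f : A → A) (x : HF A) : members (rename f x) = (members x).image (rename f) := by
  rcases hf_cases x with ⟨a, rfl⟩ | hx
  · rw [rename_atom, members_atom, members_atom, Finset.image_empty]
  · conv_lhs => rw [hx]
    rw [rename_ofFinset, members_ofFinset]

/-! ## HF3: transitive closure -/

/-- the transitive closure (root not included) as a finset -/
def tc (x : HF A) : Finset (HF A) :=
  mem_wf.fix (C := fun _ => Finset (HF A))
    (fun x ih => (members x).attach.biUnion fun y => insert y.1 (ih y.1 y.2)) x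

theorem tc_eq (x : HF A) : tc x = (members x).biUnion fun y => insert y (tc y) := by
  unfold tc
  rw [WellFounded.fix_eq]
  ext z
  simp only [Finset.mem_biUnion, Finset.mem_attach, true_and, Subtype.exists]
  constructor
  · rintro ⟨y, hy, hz⟩; exact ⟨y, hy, hz⟩
  · rintro ⟨y, hy, hz⟩; exact ⟨y, hy, hz⟩

theorem mem_tc {x y : HF A} : y ∈ tc x ↔ ∃ z ∈ members x, y = z ∨ y ∈ tc z := by
  rw [tc_eq]; simp

theorem mem_tc_of_mem {x y : HF A} (h : y ∈ members x) : y ∈ tc x :=
  mem_tc.2 ⟨y, h, Or.inl rfl⟩

theorem tc_trans {x y z : HF A} (h : z ∈ tc y) (h' : y ∈ tc x) : z ∈ tc x := by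
  revert h'
  induction x using mem_wf.induction with
  | _ x ih =>
    intro h'
    obtain ⟨w, hw, h1⟩ := mem_tc.1 h'
    rcases h1 with rfl | h1
    · exact mem_tc.2 ⟨_, hw, Or.inr h⟩
    · exact mem_tc.2 ⟨w, hw, Or.inr (ih w hw h1)⟩

/-- last step decomposition -/
theorem mem_tc_last {x y : HF A} : y ∈ tc x ↔ y ∈ members x ∨ ∃ z ∈ tc x, y ∈ members z := by
  constructor
  · induction x using mem_wf.induction with
    | _ x ih =>
      intro h
      obtain ⟨w, hw, h1⟩ := mem_tc.1 h
      rcases h1 with rfl | h1
      · exact Or.inl hw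
      · rcases ih w hw h1 with h2 | ⟨z, hz, h2⟩
        · exact Or.inr ⟨w, mem_tc_of_mem hw, h2⟩
        · exact Or.inr ⟨z, tc_trans hz (mem_tc_of_mem hw), h2⟩
  · rintro (h | ⟨z, hz, h⟩)
    · exact mem_tc_of_mem h
    · exact tc_trans (mem_tc_of_mem h) hz

theorem transGen_iff_mem_tc (x y : HF A) :
    Relation.TransGen (fun u v : HF A => u ∈ v) y x ↔ y ∈ tc x := by
  constructor
  · intro h
    induction h with
    | single h => exact mem_tc_of_mem h
    | tail _ h ih => exact mem_tc.2 ⟨_, h, Or.inr ih⟩
  · induction x using mem_wf.induction with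
    | _ x ih =>
      intro h
      obtain ⟨w, hw, h1⟩ := mem_tc.1 h
      rcases h1 with rfl | h1
      · exact Relation.TransGen.single hw
      · exact (ih w hw h1).tail hw

theorem tcSize_eq (x : HF A) : tcSize x = (tc x).card := by
  unfold tcSize
  rw [Nat.card_congr (Equiv.subtypeEquivRight fun y => transGen_iff_mem_tc x y),
    Nat.card_eq_fintype_card, Fintype.card_coe]

theorem tc_rename (f : A → A) (x : HF A) : tc (rename f x) = (tc x).image (rename f) := by
  induction x using mem_wf.induction with
  | _ x ih =>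
    rw [tc_eq (rename f x), members_rename, tc_eq x, Finset.image_biUnion, Finset.biUnion_image]
    refine Finset.biUnion_congr rfl fun y hy => ?_
    rw [ih y hy, Finset.image_insert]

theorem tcSize_rename {f : A → A} (hf : Function.Injective f) (x : HF A) :
    tcSize (rename f x) = tcSize x := by
  rw [tcSize_eq, tcSize_eq, tc_rename, Finset.card_image_of_injective _ (rename_injective hf)]

theorem members_subset_tc (x : HF A) : members x ⊆ tc x := fun _ h => mem_tc_of_mem h

theorem tc_ofFinset_mem {s : Finset (HF A)} {y : HF A} :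
    y ∈ tc (ofFinset s) ↔ ∃ z ∈ s, y = z ∨ y ∈ tc z := by
  rw [mem_tc, members_ofFinset]

theorem card_members_le_tcSize (x : HF A) : (members x).card ≤ tcSize x := by
  rw [tcSize_eq]; exact Finset.card_le_card (members_subset_tc x)

theorem tcSize_le_of_mem {x y : HF A} (h : y ∈ members x) : tcSize y ≤ tcSize x := by
  rw [tcSize_eq, tcSize_eq]
  exact Finset.card_le_card fun z hz => tc_trans hz (mem_tc_of_mem h)

theorem tcSize_pair_le (x y : HF A) : tcSize (ofFinset {x, y}) ≤ tcSize x + tcSize y + 2 := by
  rw [tcSize_eq, tcSize_eq, tcSize_eq]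
  have hsub : tc (ofFinset {x, y}) ⊆ insert x (insert y (tc x ∪ tc y)) := by
    intro z hz
    rw [tc_ofFinset_mem] at hz
    obtain ⟨w, hw, hz⟩ := hz
    simp only [Finset.mem_insert, Finset.mem_singleton] at hw
    simp only [Finset.mem_insert, Finset.mem_union]
    rcases hw with rfl | rfl <;> rcases hz with rfl | hz <;> simp [*]
  refine (Finset.card_le_card hsub).trans ?_
  refine (Finset.card_insert_le _ _).trans ?_
  have h1 := Finset.card_insert_le y (tc x ∪ tc y)
  have h2 := Finset.card_union_le (tc x) (tc y)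
  omega

theorem tcSize_union_le (x : HF A) : tcSize (ofFinset ((members x).biUnion members)) ≤ tcSize x := by
  rw [tcSize_eq, tcSize_eq]
  apply Finset.card_le_card
  intro z hz
  rw [tc_ofFinset_mem] at hz
  obtain ⟨w, hw, hz⟩ := hz
  simp only [Finset.mem_biUnion] at hw
  obtain ⟨u, hu, hw⟩ := hw
  have hw' : w ∈ tc x := tc_trans (mem_tc_of_mem hw) (mem_tc_of_mem hu)
  rcases hz with rfl | hz
  · exact hw'
  · exact tc_trans hz hw'

theorem tcSize_image_le (s : Finset (HF A)) (f : HF A → HF A) (Q : ℕ)
    (h : ∀ u ∈ s, tcSize (f u) ≤ Q) : tcSize (ofFinset (s.image f)) ≤ s.card * (Q + 1) := by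
  rw [tcSize_eq]
  have hsub : tc (ofFinset (s.image f)) ⊆ s.biUnion fun u => insert (f u) (tc (f u)) := by
    intro z hz
    rw [tc_ofFinset_mem] at hz
    obtain ⟨w, hw, hz⟩ := hz
    simp only [Finset.mem_image] at hw
    obtain ⟨u, hu, rfl⟩ := hw
    simp only [Finset.mem_biUnion, Finset.mem_insert]
    exact ⟨u, hu, hz⟩
  refine (Finset.card_le_card hsub).trans ?_
  refine Finset.card_biUnion_le_card_mul _ _ _ ?_
  intro u hu
  refine (Finset.card_insert_le _ _).trans ?_
  have := h u hu
  rw [tcSize_eq] at this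
  omega

theorem mem_members_ordinal (n : ℕ) (y : HF A) :
    y ∈ members (ordinal n : HF A) ↔ ∃ m < n, y = ordinal m := by
  induction n with
  | zero =>
    show y ∈ members (ofFinset ∅ : HF A) ↔ _
    rw [members_ofFinset]; simp
  | succ n ih =>
    show y ∈ members (ofFinset (insert (ordinal n) (members (ordinal n))) : HF A) ↔ _
    rw [members_ofFinset, Finset.mem_insert, ih]
    constructor
    · rintro (rfl | ⟨m, hm, rfl⟩)
      · exact ⟨n, by omega, rfl⟩
      · exact ⟨m, by omega, rfl⟩
    · rintro ⟨m, hm, rfl⟩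
      rcases Nat.lt_succ_iff_lt_or_eq.1 hm with h | h
      · exact Or.inr ⟨m, h, rfl⟩
      · subst h; exact Or.inl rfl

theorem not_mem_tc_self (x : HF A) : x ∉ tc x := by
  -- well-foundedness
  have hT : ∀ x y : HF A, y ∈ tc x → Relation.TransGen (fun u v : HF A => u ∈ members v) y x := by
    intro x
    induction x using mem_wf.induction with
    | _ x ih =>
      intro y hy
      rw [mem_tc] at hy
      obtain ⟨z, hz, rfl | hy⟩ := hy
      · exact Relation.TransGen.single hz
      · exact (ih z hz y hy).tail hz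
  intro hx
  have hwf := mem_wf (A := A)
  have := hT x x hx
  exact (hwf.transGen.asymmetric _ _ this) this

theorem tc_ordinal (n : ℕ) : tc (ordinal n : HF A) = members (ordinal n) := by
  apply Finset.Subset.antisymm _ (members_subset_tc _)
  intro y hy
  rw [mem_tc] at hy
  obtain ⟨z, hz, rfl | hy⟩ := hy
  · exact hz
  · revert hy
    rw [mem_members_ordinal] at hz
    obtain ⟨m, hm, rfl⟩ := hz
    intro hy
    have key : ∀ m : ℕ, ∀ y ∈ tc (ordinal m : HF A), ∃ k < m, y = ordinal k := by
      intro m
      induction m using Nat.strong_induction_on with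
      | _ m ih =>
        intro y hy
        rw [mem_tc] at hy
        obtain ⟨z, hz, rfl | hy⟩ := hy
        · exact (mem_members_ordinal _ _).1 hz
        · obtain ⟨k, hk, rfl⟩ := (mem_members_ordinal _ _).1 hz
          obtain ⟨j, hj, rfl⟩ := ih k hk y hy
          exact ⟨j, hj.trans hk, rfl⟩
    obtain ⟨k, hk, rfl⟩ := key m y hy
    exact (mem_members_ordinal _ _).2 ⟨k, hk.trans hm, rfl⟩

theorem ordinal_injective : Function.Injective (ordinal : ℕ → HF A) := by
  have key : ∀ a b : ℕ, a < b → (ordinal a : HF A) ≠ ordinal b := by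
    intro a b h hab
    have h1 : (ordinal a : HF A) ∈ tc (ordinal b) :=
      mem_tc_of_mem ((mem_members_ordinal b _).2 ⟨a, h, rfl⟩)
    rw [hab] at h1
    exact not_mem_tc_self _ h1
  intro a b hab
  rcases lt_trichotomy a b with h | h | h
  · exact absurd hab (key a b h)
  · exact h
  · exact absurd hab.symm (key b a h)

theorem tcSize_ordinal (n : ℕ) : tcSize (ordinal n : HF A) = n := by
  rw [tcSize_eq, tc_ordinal]
  have : members (ordinal n : HF A) = (Finset.range n).image ordinal := by
    ext y
    rw [mem_members_ordinal, Finset.mem_image]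
    constructor
    · rintro ⟨m, hm, rfl⟩; exact ⟨m, Finset.mem_range.2 hm, rfl⟩
    · rintro ⟨m, hm, rfl⟩; exact ⟨m, Finset.mem_range.1 hm, rfl⟩
  rw [this, Finset.card_image_of_injective _ ordinal_injective, Finset.card_range]

theorem rename_ordinal (f : A → A) (n : ℕ) : rename f (ordinal n : HF A) = ordinal n := by
  induction n with
  | zero =>
    show rename f (ofFinset ∅) = ofFinset ∅
    rw [rename_ofFinset, Finset.image_empty]
  | succ n ih =>
    show rename f (ofFinset (insert (ordinal n) (members (ordinal n)))) =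
      ofFinset (insert (ordinal n) (members (ordinal n)))
    rw [rename_ofFinset, Finset.image_insert, ih, ← members_rename, ih]

end Crest.Agent.CPTL
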