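import Mathlib
import Crest.Prelude.Def_HF
import Crest.Agent.CPT.HF

/-!
# Row 282: systems of symmetries with small supports, and the transport of HF objects
(chunks R282-SUP, L2, L4, L1, L3, MEM, CARD, TC)
-/

noncomputable section
open Classical

namespace Crest.Agent.CPTL
open Crest.LogicCS.HFSet

/-- The abstract data of the proof. `V` sites, `W` defect positions, `B` the (perfect) local group,
`C` the group of chains. -/
structure Sys (A V W B C : Type) [Fintype V] [Fintype W] [Group B] [Fintype B] [AddCommGroup C]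
    [Fintype C] where
  act : (V → B) → A → A
  act_one : ∀ a, act 1 a = a
  act_mul : ∀ g h a, act (g * h) a = act g (act h a)
  tau : C → A → A
  tau_zero : ∀ a, tau 0 a = a
  tau_add : ∀ f g a, tau (f + g) a = tau f (tau g a)
  comm : ∀ g f a, act g (tau f a) = tau f (act g a)
  bd : C →+ (W → ZMod 3)
  safe : Finset V → Set W
  Ch : Finset V → AddSubgroup C
  M : ℕ
  safe_anti : ∀ {S S' : Finset V}, S ⊆ S' → safe S' ⊆ safe S
  Ch_anti : ∀ {S S' : Finset V}, S ⊆ S' → Ch S' ≤ Ch S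
  safe_ne : ∀ S : Finset V, S.card < M → (safe S).Nonempty
  path : ∀ (S : Finset V) (w w' : W), w ∈ safe S → w' ∈ safe S →
    ∃ g ∈ Ch S, bd g = Pi.single w' 1 - Pi.single w 1
  cyc : ∀ (S : Finset V) (g : C), g ∈ Ch S → bd g = 0 →
    ∃ z : V → B, (∀ v ∈ S, z v = 1) ∧ ∀ a, tau g a = act z a
  fixA : ∀ (S : Finset V) (a : A) (g : C), (∀ z : V → B, (∀ v ∈ S, z v = 1) → act z a = a) →
    g ∈ Ch S → tau g a = a
  perfect : commutator B = ⊤

variable {A V W B C : Type} [Fintype V] [Fintype W] [Group B] [Fintype B] [AddCommGroup C]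
    [Fintype C]

namespace Sys

variable (𝒮 : Sys A V W B C)

/-- action of `V → B` on objects -/
def ga (z : V → B) (x : HF A) : HF A := rename (𝒮.act z) x

/-- action of chains on objects -/
def ta (f : C) (x : HF A) : HF A := rename (𝒮.tau f) x

theorem act_inj (z : V → B) : Function.Injective (𝒮.act z) := by
  intro a b h
  have := congrArg (𝒮.act z⁻¹) h
  rwa [← 𝒮.act_mul, ← 𝒮.act_mul, inv_mul_cancel, 𝒮.act_one, 𝒮.act_one] at this

theorem tau_inj (f : C) : Function.Injective (𝒮.tau f) := by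
  intro a b h
  have := congrArg (𝒮.tau (-f)) h
  rwa [← 𝒮.tau_add, ← 𝒮.tau_add, neg_add_cancel, 𝒮.tau_zero, 𝒮.tau_zero] at this

theorem ga_one (x : HF A) : 𝒮.ga 1 x = x := by
  unfold ga
  rw [show 𝒮.act 1 = fun a => a from funext 𝒮.act_one]
  exact rename_id x

theorem ga_mul (g h : V → B) (x : HF A) : 𝒮.ga (g * h) x = 𝒮.ga g (𝒮.ga h x) := by
  unfold ga
  rw [rename_comp]
  congr 1
  funext a
  exact 𝒮.act_mul g h a

theorem ta_zero (x : HF A) : 𝒮.ta 0 x = x := by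
  unfold ta
  rw [show 𝒮.tau 0 = fun a => a from funext 𝒮.tau_zero]
  exact rename_id x

theorem ta_add (f g : C) (x : HF A) : 𝒮.ta (f + g) x = 𝒮.ta f (𝒮.ta g x) := by
  unfold ta
  rw [rename_comp]
  congr 1
  funext a
  exact 𝒮.tau_add f g a

theorem ga_ta (z : V → B) (f : C) (x : HF A) : 𝒮.ga z (𝒮.ta f x) = 𝒮.ta f (𝒮.ga z x) := by
  unfold ta ga
  rw [rename_comp, rename_comp]
  congr 1
  funext a
  exact 𝒮.comm z f a

theorem ga_inj (z : V → B) : Function.Injective (𝒮.ga z) := rename_injective (𝒮.act_inj z)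

theorem ta_inj (f : C) : Function.Injective (𝒮.ta f) := rename_injective (𝒮.tau_inj f)

theorem ga_atom (z : V → B) (a : A) : 𝒮.ga z (atom a) = atom (𝒮.act z a) := rename_atom _ _

theorem ta_atom (f : C) (a : A) : 𝒮.ta f (atom a) = atom (𝒮.tau f a) := rename_atom _ _

theorem ga_ofFinset (z : V → B) (s : Finset (HF A)) :
    𝒮.ga z (ofFinset s) = ofFinset (s.image (𝒮.ga z)) := rename_ofFinset _ _

theorem ta_ofFinset (f : C) (s : Finset (HF A)) :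
    𝒮.ta f (ofFinset s) = ofFinset (s.image (𝒮.ta f)) := rename_ofFinset _ _

theorem members_ga (z : V → B) (x : HF A) : members (𝒮.ga z x) = (members x).image (𝒮.ga z) :=
  members_rename _ _

theorem members_ta (f : C) (x : HF A) : members (𝒮.ta f x) = (members x).image (𝒮.ta f) :=
  members_rename _ _

/-! ## supports -/

/-- the support: the set of sites whose local group moves `x` -/
def supp (x : HF A) : Finset V :=
  Finset.univ.filter fun v => ∃ g : B, 𝒮.ga (Pi.mulSingle v g) x ≠ x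

/-- (R282-SUP) elements trivial on the support fix `x`. Induct on a finset `F` of sites
containing all `v` with `z v ≠ 1`: `z = mulSingle v (z v) * update z v 1`. -/
theorem fix_of_supp (x : HF A) (z : V → B) (h : ∀ v ∈ 𝒮.supp x, z v = 1) : 𝒮.ga z x = x := by
  have key : ∀ (F : Finset V) (z : V → B), (∀ v, v ∉ F → z v = 1) →
      (∀ v ∈ 𝒮.supp x, z v = 1) → 𝒮.ga z x = x := by
    intro F
    induction F using Finset.induction_on with
    | empty =>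
      intro z hz _
      have : z = 1 := funext fun v => hz v (Finset.notMem_empty v)
      rw [this]
      exact 𝒮.ga_one x
    | insert v F _ ih =>
      intro z hz hs
      have hdec : z = Pi.mulSingle v (z v) * Function.update z v 1 := by
        funext u
        by_cases hu : u = v
        · subst hu
          simp
        · rw [Pi.mul_apply, Pi.mulSingle_eq_of_ne hu, Function.update_of_ne hu, one_mul]
      have h1 : 𝒮.ga (Function.update z v 1) x = x := by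
        refine ih _ (fun u hu => ?_) (fun u hu => ?_)
        · by_cases huv : u = v
          · subst huv
            simp
          · rw [Function.update_of_ne huv]
            exact hz u (by simp [huv, hu])
        · by_cases huv : u = v
          · subst huv
            simp
          · rw [Function.update_of_ne huv]
            exact hs u hu
      have h2 : 𝒮.ga (Pi.mulSingle v (z v)) x = x := by
        by_cases hv : v ∈ 𝒮.supp x
        · rw [hs v hv, Pi.mulSingle_one]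
          exact 𝒮.ga_one x
        · by_contra hne
          exact hv (by
            unfold supp
            rw [Finset.mem_filter]
            exact ⟨Finset.mem_univ _, z v, hne⟩)
      rw [hdec, 𝒮.ga_mul, h1, h2]
  exact key Finset.univ z (fun v hv => absurd (Finset.mem_univ v) hv) h

/-- (R282-SUP) if `x` is fixed by all `z` trivial on `S` then `supp x ⊆ S` -/
theorem supp_subset_of_fix (x : HF A) (S : Finset V)
    (h : ∀ z : V → B, (∀ v ∈ S, z v = 1) → 𝒮.ga z x = x) : 𝒮.supp x ⊆ S := by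
  intro v hv
  unfold supp at hv
  rw [Finset.mem_filter] at hv
  obtain ⟨-, g, hg⟩ := hv
  by_contra hvS
  refine hg (h _ fun u hu => ?_)
  have huv : u ≠ v := fun e => hvS (e ▸ hu)
  exact Pi.mulSingle_eq_of_ne (M := fun _ => B) huv g

/-- (R282-SUP) the support is invariant (distinct sites commute; use
`mulSingle v g * z = z * mulSingle v ((z v)⁻¹ * g * z v)`) -/
theorem supp_ga (z : V → B) (x : HF A) : 𝒮.supp (𝒮.ga z x) = 𝒮.supp x := by
  have hc : ∀ (v : V) (g : B),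
      Pi.mulSingle v g * z = z * Pi.mulSingle v ((z v)⁻¹ * g * z v) := by
    intro v g
    funext u
    by_cases hu : u = v
    · subst hu
      simp [mul_assoc]
    · rw [Pi.mul_apply, Pi.mul_apply, Pi.mulSingle_eq_of_ne hu, Pi.mulSingle_eq_of_ne hu, one_mul,
        mul_one]
  unfold supp
  ext v
  rw [Finset.mem_filter, Finset.mem_filter]
  refine and_congr_right fun _ => ?_
  constructor
  · rintro ⟨g, hg⟩
    refine ⟨(z v)⁻¹ * g * z v, fun he => hg ?_⟩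
    rw [← 𝒮.ga_mul, hc, 𝒮.ga_mul, he]
  · rintro ⟨g, hg⟩
    refine ⟨z v * g * (z v)⁻¹, fun he => hg ?_⟩
    rw [← 𝒮.ga_mul, hc, 𝒮.ga_mul] at he
    have h1 := 𝒮.ga_inj z he
    have h2 : (z v)⁻¹ * (z v * g * (z v)⁻¹) * z v = g := by group
    rwa [h2] at h1

/-- (R282-SUP) -/
theorem supp_ta (f : C) (x : HF A) : 𝒮.supp (𝒮.ta f x) = 𝒮.supp x := by
  unfold supp
  ext v
  rw [Finset.mem_filter, Finset.mem_filter]
  refine and_congr_right fun _ => exists_congr fun g => ?_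
  rw [𝒮.ga_ta]
  exact (𝒮.ta_inj f).ne_iff

/-- (R282-SUP) support of a set all of whose members come in orbits: a general bound -/
theorem supp_ofFinset_subset (s : Finset (HF A)) (S : Finset V)
    (h : ∀ z : V → B, (∀ v ∈ S, z v = 1) → ∀ y ∈ s, 𝒮.ga z y ∈ s) : 𝒮.supp (ofFinset s) ⊆ S := by
  refine 𝒮.supp_subset_of_fix _ _ fun z hz => ?_
  rw [𝒮.ga_ofFinset]
  congr 1
  refine Finset.eq_of_subset_of_card_le ?_ ?_
  · intro u hu
    obtain ⟨y, hy, rfl⟩ := Finset.mem_image.1 hu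
    exact h z hz y hy
  · rw [Finset.card_image_of_injective _ (𝒮.ga_inj z)]

/-- hereditarily small supports -/
def HS (k : ℕ) (x : HF A) : Prop := ∀ y, (y = x ∨ y ∈ tc x) → (𝒮.supp y).card ≤ k

theorem HS.self {k : ℕ} {x : HF A} (h : 𝒮.HS k x) : (𝒮.supp x).card ≤ k := h x (Or.inl rfl)

theorem HS.mem {k : ℕ} {x y : HF A} (h : 𝒮.HS k x) (hy : y ∈ members x) : 𝒮.HS k y := by
  intro u hu
  rcases hu with rfl | hu
  · exact h _ (Or.inr (mem_tc_of_mem hy))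
  · exact h _ (Or.inr (mem_tc.2 ⟨y, hy, Or.inr hu⟩))

theorem HS.ga {k : ℕ} {x : HF A} (h : 𝒮.HS k x) (z : V → B) : 𝒮.HS k (𝒮.ga z x) := by
  intro y hy
  rcases hy with rfl | hy
  · rw [supp_ga]; exact h _ (Or.inl rfl)
  · rw [Sys.ga, tc_rename, Finset.mem_image] at hy
    obtain ⟨u, hu, rfl⟩ := hy
    have := 𝒮.supp_ga z u
    rw [Sys.ga] at this
    rw [this]
    exact h _ (Or.inr hu)

theorem HS.ta {k : ℕ} {x : HF A} (h : 𝒮.HS k x) (f : C) : 𝒮.HS k (𝒮.ta f x) := by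
  intro y hy
  rcases hy with rfl | hy
  · rw [supp_ta]; exact h _ (Or.inl rfl)
  · rw [Sys.ta, tc_rename, Finset.mem_image] at hy
    obtain ⟨u, hu, rfl⟩ := hy
    have := 𝒮.supp_ta f u
    rw [Sys.ta] at this
    rw [this]
    exact h _ (Or.inr hu)

/-! ## the transport -/

/-- the condition `w' ∈ safe S`, `g ∈ Ch S'`, `bd g = δ_{w'} - δ_w` -/
def Mv (S S' : Finset V) (w w' : W) (g : C) : Prop :=
  w' ∈ 𝒮.safe S ∧ g ∈ 𝒮.Ch S' ∧ 𝒮.bd g = Pi.single w' 1 - Pi.single w 1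

/-- transport of an object when the defect at `w` is created -/
def tr (x : HF A) : W → HF A :=
  mem_wf.fix (C := fun _ => W → HF A)
    (fun x ih w => if IsAtom x then x else
      ofFinset ((members x).attach.biUnion fun y =>
        ((Finset.univ : Finset (W × C)).filter fun q =>
            𝒮.Mv (𝒮.supp x ∪ 𝒮.supp y.1) (𝒮.supp x) w q.1 q.2).image
          fun q => 𝒮.ta (-q.2) (ih y.1 y.2 q.1))) x

theorem tr_atom (a : A) (w : W) : 𝒮.tr (atom a) w = atom a := by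
  rw [tr, WellFounded.fix_eq, if_pos ⟨a, rfl⟩]

theorem tr_ofFinset (s : Finset (HF A)) (w : W) : 𝒮.tr (ofFinset s) w =
    ofFinset (s.biUnion fun y =>
        ((Finset.univ : Finset (W × C)).filter fun q =>
            𝒮.Mv (𝒮.supp (ofFinset s) ∪ 𝒮.supp y) (𝒮.supp (ofFinset s)) w q.1 q.2).image
          fun q => 𝒮.ta (-q.2) (𝒮.tr y q.1)) := by
  rw [tr, WellFounded.fix_eq, if_neg (not_isAtom_ofFinset s)]
  congr 1
  ext u
  simp only [Finset.mem_biUnion, Finset.mem_attach, true_and, Subtype.exists, members_ofFinset]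
  constructor
  · rintro ⟨y, hy, h⟩
    exact ⟨y, hy, h⟩
  · rintro ⟨y, hy, h⟩
    exact ⟨y, hy, h⟩

theorem mem_tr {x u : HF A} {w : W} : u ∈ members (𝒮.tr x w) ↔
    ∃ y ∈ members x, ∃ w' g, 𝒮.Mv (𝒮.supp x ∪ 𝒮.supp y) (𝒮.supp x) w w' g ∧
      u = 𝒮.ta (-g) (𝒮.tr y w') := by
  rcases hf_cases x with ⟨a, rfl⟩ | hx
  · simp [tr_atom, members_atom]
  · rw [hx, tr_ofFinset, members_ofFinset, members_ofFinset]
    simp only [Finset.mem_biUnion, Finset.mem_image, Finset.mem_filter, Finset.mem_univ, true_and,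
      Prod.exists]
    constructor
    · rintro ⟨y, hy, w', g, h1, h2⟩
      exact ⟨y, hy, w', g, h1, h2.symm⟩
    · rintro ⟨y, hy, w', g, h1, h2⟩
      exact ⟨y, hy, w', g, h1, h2.symm⟩

/-- a transport of a set is a set -/
theorem tr_set (s : Finset (HF A)) (w : W) : 𝒮.tr (ofFinset s) w =
    ofFinset (members (𝒮.tr (ofFinset s) w)) := by
  rw [tr_ofFinset, members_ofFinset]

/-- the Mv relation of the reverse / composite path -/
theorem bd_comp {g h : C} {w w' w'' : W} (hg : 𝒮.bd g = Pi.single w' 1 - Pi.single w 1)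
    (hh : 𝒮.bd h = Pi.single w'' 1 - Pi.single w' 1) :
    𝒮.bd (g + h) = Pi.single w'' 1 - Pi.single w 1 := by
  rw [map_add, hg, hh]; abel

theorem bd_diff {g k : C} {w w' : W} (hg : 𝒮.bd g = Pi.single w' 1 - Pi.single w 1)
    (hk : 𝒮.bd k = Pi.single w' 1 - Pi.single w 1) : 𝒮.bd (g - k) = 0 := by
  rw [map_sub, hg, hk]; abel

/-- (R282-L2) moving the defect. No induction: for atoms use `fixA` (with `S = supp (atom a)` and
`fix_of_supp`); for sets the members `ta (-h') (tr y w'')` correspond by `h = h' - g`. -/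
theorem tr_move (x : HF A) (w w' : W) (g : C) (hg : g ∈ 𝒮.Ch (𝒮.supp x))
    (hb : 𝒮.bd g = Pi.single w' 1 - Pi.single w 1) : 𝒮.tr x w' = 𝒮.ta g (𝒮.tr x w) := by
  rcases hf_cases x with ⟨a, rfl⟩ | hx
  · rw [tr_atom, tr_atom, ta_atom]
    have h := 𝒮.fixA (𝒮.supp (atom a)) a g (fun z hz => by
      have := 𝒮.fix_of_supp (atom a) z hz
      rw [ga_atom] at this
      exact atom_inj this) hg
    rw [h]
  · have key : ∀ u, u ∈ members (𝒮.tr x w') ↔ u ∈ members (𝒮.ta g (𝒮.tr x w)) := by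
      intro u
      rw [members_ta, Finset.mem_image, mem_tr]
      constructor
      · rintro ⟨y, hy, w'', h, ⟨m1, m2, m3⟩, rfl⟩
        refine ⟨𝒮.ta (-(g + h)) (𝒮.tr y w''), ?_, ?_⟩
        · rw [mem_tr]
          exact ⟨y, hy, w'', g + h, ⟨m1, AddSubgroup.add_mem _ hg m2, 𝒮.bd_comp hb m3⟩, rfl⟩
        · rw [← ta_add]; congr 1; abel
      · rintro ⟨u', hu', rfl⟩
        rw [mem_tr] at hu'
        obtain ⟨y, hy, w'', h, ⟨m1, m2, m3⟩, rfl⟩ := hu'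
        refine ⟨y, hy, w'', h - g, ⟨m1, AddSubgroup.sub_mem _ m2 hg, ?_⟩, ?_⟩
        · rw [map_sub, m3, hb]; abel
        · rw [← ta_add]; congr 1; abel
    have e1 : 𝒮.tr x w' = ofFinset (members (𝒮.tr x w')) := by
      rw [hx]; exact 𝒮.tr_set _ _
    have e2 : 𝒮.ta g (𝒮.tr x w) = ofFinset (members (𝒮.ta g (𝒮.tr x w))) := by
      have : 𝒮.tr x w = ofFinset (members (𝒮.tr x w)) := by
        rw [hx]; exact 𝒮.tr_set _ _
      rw [this, ta_ofFinset, members_ofFinset]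
    rw [e1, e2, Finset.ext key]

/-- (R282-L4) equivariance; induction on `x`, `supp_ga`, `ga_ta`. -/
theorem tr_ga (x : HF A) (z : V → B) (w : W) : 𝒮.tr (𝒮.ga z x) w = 𝒮.ga z (𝒮.tr x w) := by
  induction x using mem_wf.induction generalizing w with
  | _ x ih =>
    rcases hf_cases x with ⟨a, rfl⟩ | hx
    · rw [ga_atom, tr_atom, tr_atom, ga_atom]
    · have key : ∀ u, u ∈ members (𝒮.tr (𝒮.ga z x) w) ↔ u ∈ members (𝒮.ga z (𝒮.tr x w)) := by
        intro u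
        rw [members_ga, Finset.mem_image, mem_tr, members_ga]
        constructor
        · rintro ⟨y', hy', w', g, hm, rfl⟩
          rw [Finset.mem_image] at hy'
          obtain ⟨y, hy, rfl⟩ := hy'
          rw [supp_ga, supp_ga] at hm
          refine ⟨𝒮.ta (-g) (𝒮.tr y w'), ?_, ?_⟩
          · rw [mem_tr]; exact ⟨y, hy, w', g, hm, rfl⟩
          · rw [ih y hy w', ga_ta]
        · rintro ⟨u', hu', rfl⟩
          rw [mem_tr] at hu'
          obtain ⟨y, hy, w', g, hm, rfl⟩ := hu'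
          refine ⟨𝒮.ga z y, Finset.mem_image_of_mem _ hy, w', g, ?_, ?_⟩
          · rw [supp_ga, supp_ga]; exact hm
          · rw [ih y hy w', ga_ta]
      have e1 : 𝒮.tr (𝒮.ga z x) w = ofFinset (members (𝒮.tr (𝒮.ga z x) w)) := by
        rw [hx, ga_ofFinset]; exact 𝒮.tr_set _ _
      have e2 : 𝒮.ga z (𝒮.tr x w) = ofFinset (members (𝒮.ga z (𝒮.tr x w))) := by
        have : 𝒮.tr x w = ofFinset (members (𝒮.tr x w)) := by
          rw [hx]; exact 𝒮.tr_set _ _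
        rw [this, ga_ofFinset, members_ofFinset]
      rw [e1, e2, Finset.ext key]

/-- a cycle in `Ch S` acts on an object as an element `z` trivial on `S` -/
theorem cyc_obj (S : Finset V) (g : C) (hg : g ∈ 𝒮.Ch S) (hb : 𝒮.bd g = 0) :
    ∃ z : V → B, (∀ v ∈ S, z v = 1) ∧ ∀ x, 𝒮.ta g x = 𝒮.ga z x := by
  obtain ⟨z, hz, h⟩ := 𝒮.cyc S g hg hb
  refine ⟨z, hz, fun x => ?_⟩
  unfold ta ga
  rw [show 𝒮.tau g = 𝒮.act z from funext h]

/-- (R282-L1) in the definition of the members of `tr x w`, `supp x` may be replaced by any small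
`S ⊇ supp x` with `w ∈ safe S`.
`⊇`: antitone. `⊆`: given `y ∈ x`, `w' ∈ safe (supp x ∪ supp y)`, `g ∈ Ch (supp x)`; choose
`w'' ∈ safe (S ∪ supp y)` (`safe_ne`, cardinality), `h ∈ Ch (supp x ∪ supp y)` from `w'` to `w''`
(`path`), `k ∈ Ch S` from `w` to `w''`. `tr y w'' = ta h (tr y w')` by `tr_move`. The chain
`m = g + h - k ∈ Ch (supp x)` has `bd m = 0`, so `ta m = ga z` with `z` trivial on `supp x`;
then `ta (-g) (tr y w') = ta (-k) (ta (-m) (tr y w'')) = ta (-k) (tr (ga z⁻¹ y) w'')` and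
`ga z⁻¹ y ∈ members x` since `ga z x = x`, `supp (ga z⁻¹ y) = supp y`. -/
theorem mem_tr_local {κ : ℕ} (hM : 4 * κ < 𝒮.M) {x u : HF A} {w : W} {S : Finset V}
    (hx : 𝒮.HS κ x) (hS : 𝒮.supp x ⊆ S) (hc : S.card ≤ 2 * κ) (hw : w ∈ 𝒮.safe S) :
    u ∈ members (𝒮.tr x w) ↔
    ∃ y ∈ members x, ∃ w' g, 𝒮.Mv (S ∪ 𝒮.supp y) S w w' g ∧ u = 𝒮.ta (-g) (𝒮.tr y w') := by
  rw [mem_tr]
  constructor
  · rintro ⟨y, hy, w', g, ⟨h1, h2, h3⟩, rfl⟩
    have hyc : (𝒮.supp y).card ≤ κ := (hx.mem 𝒮 hy).self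
    have hcard : (S ∪ 𝒮.supp y).card < 𝒮.M := by
      have := Finset.card_union_le S (𝒮.supp y)
      omega
    obtain ⟨w'', hw''⟩ := 𝒮.safe_ne (S ∪ 𝒮.supp y) hcard
    have hsub : 𝒮.supp x ∪ 𝒮.supp y ⊆ S ∪ 𝒮.supp y := Finset.union_subset_union_left hS
    obtain ⟨h, hh, hhb⟩ := 𝒮.path _ _ _ h1 (𝒮.safe_anti hsub hw'')
    obtain ⟨k, hk, hkb⟩ := 𝒮.path _ _ _ hw (𝒮.safe_anti Finset.subset_union_left hw'')
    have hmove := 𝒮.tr_move y w' w'' h (𝒮.Ch_anti Finset.subset_union_right hh) hhb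
    have hm : g + h - k ∈ 𝒮.Ch (𝒮.supp x) :=
      AddSubgroup.sub_mem _ (AddSubgroup.add_mem _ h2 (𝒮.Ch_anti Finset.subset_union_left hh))
        (𝒮.Ch_anti hS hk)
    have hmb : 𝒮.bd (g + h - k) = 0 := 𝒮.bd_diff (𝒮.bd_comp h3 hhb) hkb
    obtain ⟨z, hz, hzt⟩ := 𝒮.cyc_obj _ _ hm hmb
    have hinv : ∀ X : HF A, 𝒮.ta (-(g + h - k)) X = 𝒮.ga z⁻¹ X := by
      intro X
      apply 𝒮.ga_inj z
      rw [← hzt, ← ta_add, ← ga_mul, add_neg_cancel, mul_inv_cancel, ta_zero, ga_one]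
    have hfix : 𝒮.ga z⁻¹ x = x := by
      apply 𝒮.fix_of_supp
      intro v hv
      rw [Pi.inv_apply, hz v hv, inv_one]
    refine ⟨𝒮.ga z⁻¹ y, ?_, w'', k, ⟨?_, hk, hkb⟩, ?_⟩
    · have := 𝒮.members_ga z⁻¹ x
      rw [hfix] at this
      rw [this]
      exact Finset.mem_image_of_mem _ hy
    · rw [supp_ga]; exact hw''
    · rw [tr_ga, ← hinv, hmove, ← ta_add, ← ta_add]
      congr 1
      abel
  · rintro ⟨y, hy, w', g, ⟨h1, h2, h3⟩, rfl⟩
    exact ⟨y, hy, w', g, ⟨𝒮.safe_anti (Finset.union_subset_union_left hS) h1, 𝒮.Ch_anti hS h2, h3⟩, rfl⟩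

/-- (R282-L1b) adjusting: an element `ta (-g) (tr y w')` with `w' ∈ safe (S ∪ supp y)` can be
written with any other `w'' ∈ safe (S ∪ supp y)`, same `y`. (`h ∈ Ch (S ∪ supp y)` from `w'` to
`w''`, `tr_move`.) -/
theorem adjust {y : HF A} {S : Finset V} {w w' w'' : W} {g : C}
    (h : 𝒮.Mv (S ∪ 𝒮.supp y) S w w' g) (hw : w'' ∈ 𝒮.safe (S ∪ 𝒮.supp y)) :
    ∃ g', 𝒮.Mv (S ∪ 𝒮.supp y) S w w'' g' ∧ 𝒮.ta (-g) (𝒮.tr y w') = 𝒮.ta (-g') (𝒮.tr y w'') := by
  obtain ⟨h1, h2, h3⟩ := h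
  obtain ⟨k, hk, hb⟩ := 𝒮.path _ _ _ h1 hw
  refine ⟨g + k, ⟨hw, AddSubgroup.add_mem _ h2 (𝒮.Ch_anti Finset.subset_union_left hk),
    𝒮.bd_comp h3 hb⟩, ?_⟩
  rw [𝒮.tr_move y w' w'' k (𝒮.Ch_anti Finset.subset_union_right hk) hb, ← ta_add]
  congr 1
  abel

/-- elements trivial on `S ⊇ supp x` permute the members of `x` -/
theorem ga_mem_of_supp {x y : HF A} {S : Finset V} (hS : 𝒮.supp x ⊆ S) (z : V → B)
    (hz : ∀ v ∈ S, z v = 1) (hy : y ∈ members x) : 𝒮.ga z y ∈ members x := by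
  have h := 𝒮.fix_of_supp x z (fun v hv => hz v (hS hv))
  rw [← h, members_ga]
  exact Finset.mem_image_of_mem _ hy

/-- the one-step comparison used for injectivity -/
theorem tr_key {κ : ℕ} (hM : 4 * κ < 𝒮.M) {x x' : HF A} {w : W}
    (hx : 𝒮.HS κ x) (hx' : 𝒮.HS κ x') (hw : w ∈ 𝒮.safe (𝒮.supp x ∪ 𝒮.supp x'))
    (h : 𝒮.tr x w = 𝒮.tr x' w) {y : HF A} (hy : y ∈ members x) :
    ∃ y' ∈ members x', ∃ w₃, w₃ ∈ 𝒮.safe (𝒮.supp y ∪ 𝒮.supp y') ∧ 𝒮.tr y w₃ = 𝒮.tr y' w₃ := by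
  have hcx : (𝒮.supp x).card ≤ κ := HS.self 𝒮 hx
  have hcx' : (𝒮.supp x').card ≤ κ := HS.self 𝒮 hx'
  have hcy : (𝒮.supp y).card ≤ κ := HS.self 𝒮 (HS.mem 𝒮 hx hy)
  set S := 𝒮.supp x ∪ 𝒮.supp x' with hSdef
  have hSx : 𝒮.supp x ⊆ S := Finset.subset_union_left
  have hSx' : 𝒮.supp x' ⊆ S := Finset.subset_union_right
  have hcS : S.card ≤ 2 * κ := by
    have : S.card ≤ _ := Finset.card_union_le (𝒮.supp x) (𝒮.supp x')
    omega
  have hcSy : (S ∪ 𝒮.supp y).card ≤ 3 * κ := by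
    have := Finset.card_union_le S (𝒮.supp y)
    omega
  obtain ⟨w', hw'⟩ := 𝒮.safe_ne (S ∪ 𝒮.supp y) (by omega)
  obtain ⟨g, hg, hbg⟩ := 𝒮.path S w w' hw (𝒮.safe_anti Finset.subset_union_left hw')
  have hmv : 𝒮.Mv (S ∪ 𝒮.supp y) S w w' g := ⟨hw', hg, hbg⟩
  have hmem : 𝒮.ta (-g) (𝒮.tr y w') ∈ members (𝒮.tr x w) :=
    (𝒮.mem_tr_local hM hx hSx hcS hw).2 ⟨y, hy, w', g, hmv, rfl⟩
  rw [h] at hmem
  obtain ⟨y₂, hy₂, w₂, g₂, hmv₂, heq⟩ := (𝒮.mem_tr_local hM hx' hSx' hcS hw).1 hmem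
  have hcy₂ : (𝒮.supp y₂).card ≤ κ := HS.self 𝒮 (HS.mem 𝒮 hx' hy₂)
  obtain ⟨w₃, hw₃⟩ := 𝒮.safe_ne (S ∪ 𝒮.supp y ∪ 𝒮.supp y₂) (by
    have := Finset.card_union_le (S ∪ 𝒮.supp y) (𝒮.supp y₂)
    omega)
  have h3y : w₃ ∈ 𝒮.safe (S ∪ 𝒮.supp y) := 𝒮.safe_anti Finset.subset_union_left hw₃
  have h3y₂ : w₃ ∈ 𝒮.safe (S ∪ 𝒮.supp y₂) := by
    apply 𝒮.safe_anti _ hw₃
    intro v hv
    simp only [Finset.mem_union] at hv ⊢
    tauto
  obtain ⟨g', ⟨_, hg', hbg'⟩, e1⟩ := 𝒮.adjust hmv h3y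
  obtain ⟨g₂', ⟨_, hg₂', hbg₂'⟩, e2⟩ := 𝒮.adjust hmv₂ h3y₂
  rw [e1, e2] at heq
  obtain ⟨z, hz, hzt⟩ := 𝒮.cyc_obj S (g' - g₂') (AddSubgroup.sub_mem _ hg' hg₂')
    (𝒮.bd_diff hbg' hbg₂')
  have hfin : 𝒮.tr y w₃ = 𝒮.ta (g' - g₂') (𝒮.tr y₂ w₃) := by
    have := congrArg (𝒮.ta g') heq
    rw [← ta_add, ← ta_add, add_neg_cancel, ta_zero] at this
    rw [this, sub_eq_add_neg]
  refine ⟨𝒮.ga z y₂, 𝒮.ga_mem_of_supp hSx' z hz hy₂, w₃, ?_, ?_⟩
  · rw [supp_ga]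
    apply 𝒮.safe_anti _ hw₃
    intro v hv
    simp only [Finset.mem_union] at hv ⊢
    tauto
  · rw [tr_ga, ← hzt]
    exact hfin

/-- (R282-L3) injectivity. Induction on `x` (all `x'`). Both sets: `y ∈ x`; take
`w' ∈ safe (S ∪ supp y)` with `S = supp x ∪ supp x'`, `g ∈ Ch S` from `w` to `w'`; the element
`ta (-g) (tr y w')` of `tr x w = tr x' w` equals `ta (-g₂) (tr y₂ w₂)`, `y₂ ∈ x'` (mem_tr_local
for `x'` and `S`). Move both to a common `w₃ ∈ safe (S ∪ supp y ∪ supp y₂)` (paths in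
`Ch (S ∪ supp y)`, `Ch (S ∪ supp y₂)`, `tr_move`); the difference is a cycle of `Ch S`, acts as
`z` trivial on `S` (`cyc_obj`), so `tr y w₃ = tr (ga z y₂) w₃`, hence `y = ga z y₂ ∈ x'` by the
induction hypothesis and `fix_of_supp`. Symmetric. -/
theorem tr_inj {κ : ℕ} (hM : 4 * κ < 𝒮.M) {x x' : HF A} {w : W}
    (hx : 𝒮.HS κ x) (hx' : 𝒮.HS κ x') (hw : w ∈ 𝒮.safe (𝒮.supp x ∪ 𝒮.supp x'))
    (h : 𝒮.tr x w = 𝒮.tr x' w) : x = x' := by
  induction x using mem_wf.induction generalizing x' w with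
  | _ x ih =>
    rcases hf_cases x with ⟨a, rfl⟩ | hxs
    · rcases hf_cases x' with ⟨a', rfl⟩ | hxs'
      · rw [tr_atom, tr_atom] at h
        exact h
      · rw [hxs', tr_atom, tr_set] at h
        exact absurd h (atom_ne_ofFinset _ _)
    · rcases hf_cases x' with ⟨a', rfl⟩ | hxs'
      · rw [hxs, tr_atom, tr_set] at h
        exact absurd h.symm (atom_ne_ofFinset _ _)
      · rw [hxs, hxs']
        congr 1
        apply Finset.Subset.antisymm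
        · intro y hy
          obtain ⟨y', hy', w₃, hw₃, he⟩ := 𝒮.tr_key hM hx hx' hw h hy
          rw [ih y hy (HS.mem 𝒮 hx hy) (HS.mem 𝒮 hx' hy') hw₃ he]
          exact hy'
        · intro y' hy'
          obtain ⟨y, hy, w₃, hw₃, he⟩ := 𝒮.tr_key hM hx' hx (by rwa [Finset.union_comm]) h.symm hy'
          rw [← ih y hy (HS.mem 𝒮 hx hy) (HS.mem 𝒮 hx' hy') (by rwa [Finset.union_comm]) he.symm]
          exact hy

/-- (R282-MEM) -/
theorem tr_mem {κ : ℕ} (hM : 4 * κ < 𝒮.M) {x y : HF A} {w : W}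
    (hx : 𝒮.HS κ x) (hy : 𝒮.HS κ y) (hw : w ∈ 𝒮.safe (𝒮.supp x ∪ 𝒮.supp y)) :
    𝒮.tr y w ∈ members (𝒮.tr x w) ↔ y ∈ members x := by
  constructor
  · intro h
    have hc : (𝒮.supp x ∪ 𝒮.supp y).card ≤ 2 * κ := by
      have h1 := Finset.card_union_le (𝒮.supp x) (𝒮.supp y)
      have h2 := HS.self 𝒮 hx
      have h3 := HS.self 𝒮 hy
      omega
    obtain ⟨y', hy', w', g, ⟨hw', hg, hb⟩, e⟩ :=
      (𝒮.mem_tr_local hM hx (Finset.subset_union_left (s₂ := 𝒮.supp y)) hc hw).1 h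
    have h1 : 𝒮.tr y w' = 𝒮.ta g (𝒮.tr y w) :=
      𝒮.tr_move y w w' g (𝒮.Ch_anti Finset.subset_union_right hg) hb
    have h2 : 𝒮.tr y w' = 𝒮.tr y' w' := by
      rw [h1, e, ← ta_add, add_neg_cancel, ta_zero]
    have h3 : w' ∈ 𝒮.safe (𝒮.supp y ∪ 𝒮.supp y') :=
      𝒮.safe_anti (Finset.union_subset_union_left Finset.subset_union_right) hw'
    have h4 : y = y' := 𝒮.tr_inj hM hy (HS.mem 𝒮 hx hy') h3 h2
    rw [h4]
    exact hy'
  · intro h
    rw [mem_tr]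
    refine ⟨y, h, w, 0, ⟨hw, AddSubgroup.zero_mem _, ?_⟩, ?_⟩
    · rw [map_zero, sub_self]
    · rw [neg_zero, ta_zero]

/-- (R282-CARD) `|tr x w| = |x|`: for each finset `T ⊆ V` that is the support of some member choose
`w_T ∈ safe (supp x ∪ T)` and `g_T ∈ Ch (supp x)` from `w` to `w_T`; the map
`y ↦ ta (-g_{supp y}) (tr y w_{supp y})` is a bijection from `members x` to `members (tr x w)`. -/
theorem tr_card {κ : ℕ} (hM : 4 * κ < 𝒮.M) {x : HF A} {w : W}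
    (hx : 𝒮.HS κ x) (hw : w ∈ 𝒮.safe (𝒮.supp x)) :
    (members (𝒮.tr x w)).card = (members x).card := by
  have hex : ∀ T : Finset V, ∃ q : W × C, T.card ≤ κ →
      𝒮.Mv (𝒮.supp x ∪ T) (𝒮.supp x) w q.1 q.2 := by
    intro T
    by_cases hT : T.card ≤ κ
    · have h1 : (𝒮.supp x ∪ T).card < 𝒮.M := by
        have := Finset.card_union_le (𝒮.supp x) T
        have := hx.self
        omega
      obtain ⟨w', hw'⟩ := 𝒮.safe_ne _ h1
      obtain ⟨g, hg, hb⟩ := 𝒮.path _ _ _ hw (𝒮.safe_anti Finset.subset_union_left hw')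
      exact ⟨(w', g), fun _ => ⟨hw', hg, hb⟩⟩
    · exact ⟨(w, 0), fun h => absurd h hT⟩
  choose q hq using hex
  have hsz : ∀ y ∈ members x, (𝒮.supp y).card ≤ κ := fun y hy => (HS.mem 𝒮 hx hy).self
  set F : HF A → HF A := fun y => 𝒮.ta (-(q (𝒮.supp y)).2) (𝒮.tr y (q (𝒮.supp y)).1) with hF
  have himg : members (𝒮.tr x w) = (members x).image F := by
    ext u
    rw [mem_tr, Finset.mem_image]
    constructor
    · rintro ⟨y, hy, w', g, hmv, rfl⟩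
      have hqy := hq (𝒮.supp y) (hsz y hy)
      obtain ⟨g', hmv', he⟩ := 𝒮.adjust hmv hqy.1
      rw [he]
      obtain ⟨z, hz, hzt⟩ := 𝒮.cyc_obj (𝒮.supp x) ((q (𝒮.supp y)).2 - g')
        (AddSubgroup.sub_mem _ hqy.2.1 hmv'.2.1) (𝒮.bd_diff hqy.2.2 hmv'.2.2)
      refine ⟨𝒮.ga z y, ?_, ?_⟩
      · have h1 := 𝒮.members_ga z x
        rw [𝒮.fix_of_supp x z hz] at h1
        rw [h1]
        exact Finset.mem_image_of_mem _ hy
      · simp only [hF]
        rw [𝒮.supp_ga, 𝒮.tr_ga, ← hzt, ← ta_add]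
        congr 1
        abel
    · rintro ⟨y, hy, rfl⟩
      exact ⟨y, hy, _, _, hq (𝒮.supp y) (hsz y hy), rfl⟩
  rw [himg]
  apply Finset.card_image_of_injOn
  intro y hy y' hy' he
  have hy : y ∈ members x := hy
  have hy' : y' ∈ members x := hy'
  have hqy := hq (𝒮.supp y) (hsz y hy)
  have hqy' := hq (𝒮.supp y') (hsz y' hy')
  simp only [hF] at he
  have hc3 : ((𝒮.supp x ∪ 𝒮.supp y) ∪ 𝒮.supp y').card < 𝒮.M := by
    have h1 := Finset.card_union_le (𝒮.supp x ∪ 𝒮.supp y) (𝒮.supp y')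
    have h2 := Finset.card_union_le (𝒮.supp x) (𝒮.supp y)
    have h3 := hx.self
    have h4 := hsz y hy
    have h5 := hsz y' hy'
    omega
  obtain ⟨w₃, hw₃⟩ := 𝒮.safe_ne _ hc3
  obtain ⟨h, hh, hhb⟩ := 𝒮.path (𝒮.supp x ∪ 𝒮.supp y) _ w₃ hqy.1
    (𝒮.safe_anti Finset.subset_union_left hw₃)
  obtain ⟨h', hh', hhb'⟩ := 𝒮.path (𝒮.supp x ∪ 𝒮.supp y') _ w₃ hqy'.1
    (𝒮.safe_anti (by
      intro v hv
      simp only [Finset.mem_union] at hv ⊢
      tauto) hw₃)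
  have e1 := 𝒮.tr_move y _ w₃ h (𝒮.Ch_anti Finset.subset_union_right hh) hhb
  have e2 := 𝒮.tr_move y' _ w₃ h' (𝒮.Ch_anti Finset.subset_union_right hh') hhb'
  have hmem : (q (𝒮.supp y)).2 + h - ((q (𝒮.supp y')).2 + h') ∈ 𝒮.Ch (𝒮.supp x) :=
    AddSubgroup.sub_mem _
      (AddSubgroup.add_mem _ hqy.2.1 (𝒮.Ch_anti Finset.subset_union_left hh))
      (AddSubgroup.add_mem _ hqy'.2.1 (𝒮.Ch_anti Finset.subset_union_left hh'))
  have hbd : 𝒮.bd ((q (𝒮.supp y)).2 + h - ((q (𝒮.supp y')).2 + h')) = 0 :=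
    𝒮.bd_diff (𝒮.bd_comp hqy.2.2 hhb) (𝒮.bd_comp hqy'.2.2 hhb')
  obtain ⟨z, hz, hzt⟩ := 𝒮.cyc_obj _ _ hmem hbd
  have e3 : 𝒮.tr y w₃ = 𝒮.tr (𝒮.ga z y') w₃ := by
    rw [𝒮.tr_ga, ← hzt, e1, e2, ← ta_add]
    have h6 : 𝒮.tr y (q (𝒮.supp y)).1 =
        𝒮.ta (q (𝒮.supp y)).2 (𝒮.ta (-(q (𝒮.supp y')).2) (𝒮.tr y' (q (𝒮.supp y')).1)) := by
      rw [← he, ← ta_add, add_neg_cancel, ta_zero]
    rw [h6, ← ta_add, ← ta_add]
    congr 1
    abel
  have hsub : w₃ ∈ 𝒮.safe (𝒮.supp y ∪ 𝒮.supp (𝒮.ga z y')) := by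
    rw [𝒮.supp_ga]
    refine 𝒮.safe_anti ?_ hw₃
    intro v hv
    simp only [Finset.mem_union] at hv ⊢
    tauto
  have e4 : y = 𝒮.ga z y' :=
    𝒮.tr_inj hM (HS.mem 𝒮 hx hy) (HS.ga 𝒮 (HS.mem 𝒮 hx hy') z) hsub e3
  have e5 : 𝒮.supp y = 𝒮.supp y' := by rw [e4, 𝒮.supp_ga]
  rw [← e5] at he
  have e6 := 𝒮.ta_inj _ he
  refine 𝒮.tr_inj hM (HS.mem 𝒮 hx hy) (HS.mem 𝒮 hx hy') ?_ e6
  refine 𝒮.safe_anti ?_ hqy.1
  rw [← e5, Finset.union_self]
  exact Finset.subset_union_right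

theorem tc_ta (f : C) (x : HF A) : tc (𝒮.ta f x) = (tc x).image (𝒮.ta f) := tc_rename _ _

theorem tc_ga (z : V → B) (x : HF A) : tc (𝒮.ga z x) = (tc x).image (𝒮.ga z) := tc_rename _ _

/-- the transitive closure of a transport -/
theorem mem_tc_tr {κ : ℕ} (hM : 4 * κ < 𝒮.M) (x : HF A) : 𝒮.HS κ x →
    ∀ w ∈ 𝒮.safe (𝒮.supp x), ∀ u, u ∈ tc (𝒮.tr x w) ↔
      ∃ y ∈ tc x, ∃ w' g, 𝒮.Mv (𝒮.supp x ∪ 𝒮.supp y) (𝒮.supp x) w w' g ∧
        u = 𝒮.ta (-g) (𝒮.tr y w') := by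
  induction x using mem_wf.induction with
  | _ x ih =>
    intro hx w hw u
    have hcx : (𝒮.supp x).card ≤ κ := hx.self
    have hcard : ∀ y z, y ∈ members x → z ∈ tc y →
        (𝒮.safe (𝒮.supp x ∪ 𝒮.supp y ∪ 𝒮.supp z)).Nonempty := by
      intro y z hy hz
      apply 𝒮.safe_ne
      have h1 : (𝒮.supp y).card ≤ κ := hx y (Or.inr (mem_tc_of_mem hy))
      have h2 : (𝒮.supp z).card ≤ κ := hx z (Or.inr (mem_tc.2 ⟨y, hy, Or.inr hz⟩))
      have h3 := Finset.card_union_le (𝒮.supp x ∪ 𝒮.supp y) (𝒮.supp z)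
      have h4 := Finset.card_union_le (𝒮.supp x) (𝒮.supp y)
      omega
    constructor
    · intro hu
      obtain ⟨v, hv, huv⟩ := mem_tc.1 hu
      obtain ⟨y, hy, w', g, ⟨hw', hg, hbg⟩, rfl⟩ := 𝒮.mem_tr.1 hv
      rcases huv with rfl | huv
      · exact ⟨y, mem_tc_of_mem hy, w', g, ⟨hw', hg, hbg⟩, rfl⟩
      · rw [𝒮.tc_ta, Finset.mem_image] at huv
        obtain ⟨v', hv', rfl⟩ := huv
        have hw'y : w' ∈ 𝒮.safe (𝒮.supp y) := 𝒮.safe_anti Finset.subset_union_right hw'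
        obtain ⟨z, hz, w'', h, ⟨hw'', hh, hbh⟩, rfl⟩ :=
          (ih y hy (hx.mem 𝒮 hy) w' hw'y v').1 hv'
        obtain ⟨w₃, hw₃⟩ := hcard y z hy hz
        have hs1 : 𝒮.supp y ∪ 𝒮.supp z ⊆ 𝒮.supp x ∪ 𝒮.supp y ∪ 𝒮.supp z := by
          rw [Finset.union_assoc]; exact Finset.subset_union_right
        obtain ⟨k, hk, hbk⟩ := 𝒮.path (𝒮.supp y ∪ 𝒮.supp z) w'' w₃ hw''
          (𝒮.safe_anti hs1 hw₃)
        obtain ⟨m, hm, hbm⟩ := 𝒮.path (𝒮.supp x ∪ 𝒮.supp y) w' w₃ hw'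
          (𝒮.safe_anti Finset.subset_union_left hw₃)
        have htz : 𝒮.tr z w₃ = 𝒮.ta k (𝒮.tr z w'') :=
          𝒮.tr_move z w'' w₃ k (𝒮.Ch_anti Finset.subset_union_right hk) hbk
        -- the cycle
        have hcC : -(h + k - m) ∈ 𝒮.Ch (𝒮.supp y) :=
          AddSubgroup.neg_mem _ (AddSubgroup.sub_mem _ (AddSubgroup.add_mem _ hh
            (𝒮.Ch_anti Finset.subset_union_left hk)) (𝒮.Ch_anti Finset.subset_union_right hm))
        have hcb : 𝒮.bd (-(h + k - m)) = 0 := by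
          rw [map_neg, 𝒮.bd_diff (𝒮.bd_comp hbh hbk) hbm, neg_zero]
        obtain ⟨ζ, hζ, hζa⟩ := 𝒮.cyc_obj _ _ hcC hcb
        refine ⟨𝒮.ga ζ z, ?_, w₃, g + m, ⟨?_, ?_, 𝒮.bd_comp hbg hbm⟩, ?_⟩
        · have hy' : 𝒮.ga ζ y = y := 𝒮.fix_of_supp y ζ hζ
          have : 𝒮.ga ζ z ∈ tc y := by
            rw [← hy', 𝒮.tc_ga]
            exact Finset.mem_image_of_mem _ hz
          exact mem_tc.2 ⟨y, hy, Or.inr this⟩
        · rw [supp_ga]
          refine 𝒮.safe_anti ?_ hw₃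
          exact Finset.union_subset_union_left Finset.subset_union_left
        · exact AddSubgroup.add_mem _ hg (𝒮.Ch_anti Finset.subset_union_left hm)
        · rw [𝒮.tr_ga, ← hζa, htz]
          show 𝒮.ta (-g) (𝒮.ta (-h) (𝒮.tr z w'')) = _
          rw [← ta_add, ← ta_add, ← ta_add]
          congr 1
          abel
    · rintro ⟨z, hz, w', g, ⟨hw', hg, hbg⟩, rfl⟩
      obtain ⟨y, hy, hzy⟩ := mem_tc.1 hz
      rcases hzy with rfl | hzy
      · exact mem_tc_of_mem (𝒮.mem_tr.2 ⟨z, hy, w', g, ⟨hw', hg, hbg⟩, rfl⟩)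
      · obtain ⟨w₃, hw₃⟩ := hcard y z hy hzy
        have hs1 : 𝒮.supp x ∪ 𝒮.supp z ⊆ 𝒮.supp x ∪ 𝒮.supp y ∪ 𝒮.supp z :=
          Finset.union_subset_union_left Finset.subset_union_left
        have hs2 : 𝒮.supp y ∪ 𝒮.supp z ⊆ 𝒮.supp x ∪ 𝒮.supp y ∪ 𝒮.supp z := by
          rw [Finset.union_assoc]; exact Finset.subset_union_right
        obtain ⟨k, hk, hbk⟩ := 𝒮.path (𝒮.supp x ∪ 𝒮.supp z) w' w₃ hw' (𝒮.safe_anti hs1 hw₃)
        have htz : 𝒮.tr z w₃ = 𝒮.ta k (𝒮.tr z w') :=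
          𝒮.tr_move z w' w₃ k (𝒮.Ch_anti Finset.subset_union_right hk) hbk
        have hw₃xy : w₃ ∈ 𝒮.safe (𝒮.supp x ∪ 𝒮.supp y) :=
          𝒮.safe_anti Finset.subset_union_left hw₃
        have hg' : g + k ∈ 𝒮.Ch (𝒮.supp x) :=
          AddSubgroup.add_mem _ hg (𝒮.Ch_anti Finset.subset_union_left hk)
        have hv : 𝒮.ta (-(g + k)) (𝒮.tr y w₃) ∈ members (𝒮.tr x w) :=
          𝒮.mem_tr.2 ⟨y, hy, w₃, g + k, ⟨hw₃xy, hg', 𝒮.bd_comp hbg hbk⟩, rfl⟩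
        refine mem_tc.2 ⟨_, hv, Or.inr ?_⟩
        rw [𝒮.tc_ta]
        have hz3 : 𝒮.tr z w₃ ∈ tc (𝒮.tr y w₃) := by
          refine (ih y hy (hx.mem 𝒮 hy) w₃ (𝒮.safe_anti Finset.subset_union_right hw₃xy) _).2
            ⟨z, hzy, w₃, 0, ⟨𝒮.safe_anti hs2 hw₃, AddSubgroup.zero_mem _, ?_⟩, ?_⟩
          · rw [map_zero, sub_self]
          · rw [neg_zero, ta_zero]
        have := Finset.mem_image_of_mem (𝒮.ta (-(g + k))) hz3
        rw [htz, ← ta_add] at this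
        have e : -(g + k) + k = -g := by abel
        rw [e] at this
        exact this

/-- (R282-TC) `tc (tr x w) = { ta (-g) (tr y w') : y ∈ tc x, w' ∈ safe (supp x ∪ supp y),
g ∈ Ch (supp x) } = members (tr (ofFinset (tc x)) w)`, so the cardinalities agree by `tr_card`
(note `supp (ofFinset (tc x)) ⊆ supp x`, and `HS κ (ofFinset (tc x))`). -/
theorem tr_tcSize {κ : ℕ} (hM : 4 * κ < 𝒮.M) {x : HF A} {w : W}
    (hx : 𝒮.HS κ x) (hw : w ∈ 𝒮.safe (𝒮.supp x)) : tcSize (𝒮.tr x w) = tcSize x := by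
  have hcx : (𝒮.supp x).card ≤ κ := hx.self
  have hsX : 𝒮.supp (ofFinset (tc x)) ⊆ 𝒮.supp x := by
    apply 𝒮.supp_ofFinset_subset
    intro z hz y hy
    have hx' : 𝒮.ga z x = x := 𝒮.fix_of_supp x z hz
    rw [← hx', 𝒮.tc_ga]
    exact Finset.mem_image_of_mem _ hy
  have hX : 𝒮.HS κ (ofFinset (tc x)) := by
    intro y hy
    rcases hy with rfl | hy
    · exact le_trans (Finset.card_le_card hsX) hcx
    · obtain ⟨z, hz, hyz⟩ := mem_tc.1 hy
      rw [members_ofFinset] at hz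
      rcases hyz with rfl | hyz
      · exact hx _ (Or.inr hz)
      · exact hx _ (Or.inr (tc_trans hyz hz))
  have hmem : members (𝒮.tr (ofFinset (tc x)) w) = tc (𝒮.tr x w) := by
    ext u
    rw [𝒮.mem_tr_local hM hX hsX (by omega) hw, 𝒮.mem_tc_tr hM x hx w hw u, members_ofFinset]
  rw [tcSize_eq, tcSize_eq, ← hmem, 𝒮.tr_card hM hX (𝒮.safe_anti hsX hw), members_ofFinset]

end Sys

end Crest.Agent.CPTL
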