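import Mathlib
import Crest.Prelude.Def_HF
import Crest.Prelude.Def_CPT
import Crest.Agent.CPT.HF
import Crest.Agent.CPT.Sys

/-!
# Row 282: the transport commutes with the operations of the choiceless language
-/

noncomputable section
open Classical

namespace Crest.Agent.CPTL
open Crest.LogicCS.HFSet

variable {A V W B C : Type} [Fintype V] [Fintype W] [Group B] [Fintype B] [AddCommGroup C]
    [Fintype C]

namespace Sys

variable (𝒮 : Sys A V W B C)

theorem tr_back {y : HF A} {S : Finset V} {w w' : W} {g : C} (hy : 𝒮.supp y ⊆ S)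
    (hg : g ∈ 𝒮.Ch S) (hb : 𝒮.bd g = Pi.single w' 1 - Pi.single w 1) :
    𝒮.ta (-g) (𝒮.tr y w') = 𝒮.tr y w := by
  rw [𝒮.tr_move y w w' g (𝒮.Ch_anti hy hg) hb, ← ta_add, neg_add_cancel, ta_zero]

theorem mv_refl {S S' : Finset V} {w : W} (hw : w ∈ 𝒮.safe S) : 𝒮.Mv S S' w w 0 :=
  ⟨hw, AddSubgroup.zero_mem _, by simp⟩

/-- two sets with the same members -/
theorem eq_of_members {s : Finset (HF A)} (w : W) (t : Finset (HF A))
    (h : ∀ u, u ∈ members (𝒮.tr (ofFinset s) w) ↔ u ∈ t) : 𝒮.tr (ofFinset s) w = ofFinset t := by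
  rw [tr_set]
  congr 1
  ext u
  exact h u

theorem tr_pair {κ : ℕ} (hM : 4 * κ < 𝒮.M) {x y : HF A} {S : Finset V} {w : W}
    (hp : 𝒮.HS κ (ofFinset {x, y})) (hx : 𝒮.supp x ⊆ S) (hy : 𝒮.supp y ⊆ S)
    (hc : S.card ≤ 2 * κ) (hw : w ∈ 𝒮.safe S) :
    𝒮.tr (ofFinset {x, y}) w = ofFinset {𝒮.tr x w, 𝒮.tr y w} := by
  have hps : 𝒮.supp (ofFinset {x, y}) ⊆ S := by
    apply 𝒮.supp_ofFinset_subset
    intro z hz u hu
    have h1 : 𝒮.ga z x = x := 𝒮.fix_of_supp x z fun v hv => hz v (hx hv)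
    have h2 : 𝒮.ga z y = y := 𝒮.fix_of_supp y z fun v hv => hz v (hy hv)
    simp only [Finset.mem_insert, Finset.mem_singleton] at hu ⊢
    rcases hu with rfl | rfl
    · left; exact h1
    · right; exact h2
  refine 𝒮.eq_of_members w _ fun u => ?_
  rw [𝒮.mem_tr_local hM hp hps hc hw]
  simp only [members_ofFinset, Finset.mem_insert, Finset.mem_singleton]
  constructor
  · rintro ⟨u', hu', w', g, ⟨h1, h2, h3⟩, rfl⟩
    rcases hu' with rfl | rfl
    · left; exact 𝒮.tr_back hx h2 h3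
    · right; exact 𝒮.tr_back hy h2 h3
  · rintro (rfl | rfl)
    · refine ⟨x, Or.inl rfl, w, 0, 𝒮.mv_refl ?_, by simp [ta_zero]⟩
      rwa [Finset.union_eq_left.2 hx]
    · refine ⟨y, Or.inr rfl, w, 0, 𝒮.mv_refl ?_, by simp [ta_zero]⟩
      rwa [Finset.union_eq_left.2 hy]

theorem tr_empty (w : W) : 𝒮.tr (ofFinset (∅ : Finset (HF A))) w = ofFinset ∅ := by
  rw [tr_ofFinset]; simp

theorem supp_union {x : HF A} : 𝒮.supp (ofFinset ((members x).biUnion members)) ⊆ 𝒮.supp x := by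
  apply 𝒮.supp_ofFinset_subset
  intro z hz u hu
  have h1 : 𝒮.ga z x = x := 𝒮.fix_of_supp x z hz
  rw [Finset.mem_biUnion] at hu ⊢
  obtain ⟨y, hy, hu⟩ := hu
  refine ⟨𝒮.ga z y, ?_, ?_⟩
  · have : 𝒮.ga z y ∈ members (𝒮.ga z x) := by
      rw [members_ga]; exact Finset.mem_image_of_mem _ hy
    rwa [h1] at this
  · rw [members_ga]; exact Finset.mem_image_of_mem _ hu

theorem tr_union {κ : ℕ} (hM : 4 * κ < 𝒮.M) {x : HF A} {S : Finset V} {w : W}
    (hx : 𝒮.HS κ x) (hu : 𝒮.HS κ (ofFinset ((members x).biUnion members)))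
    (hxS : 𝒮.supp x ⊆ S) (hc : S.card ≤ κ) (hw : w ∈ 𝒮.safe S) :
    𝒮.tr (ofFinset ((members x).biUnion members)) w =
      ofFinset ((members (𝒮.tr x w)).biUnion members) := by
  have hc2 : S.card ≤ 2 * κ := by omega
  refine 𝒮.eq_of_members w _ fun u => ?_
  rw [𝒮.mem_tr_local hM hu (𝒮.supp_union.trans hxS) hc2 hw]
  simp only [members_ofFinset, Finset.mem_biUnion]
  constructor
  · rintro ⟨a, ⟨y, hy, ha⟩, w', g, h, rfl⟩
    have hya := (hx.mem 𝒮 hy)
    have haa := (hya.mem 𝒮 ha)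
    have hcard : (S ∪ 𝒮.supp a ∪ 𝒮.supp y).card < 𝒮.M := by
      have h1 := Finset.card_union_le (S ∪ 𝒮.supp a) (𝒮.supp y)
      have h2 := Finset.card_union_le S (𝒮.supp a)
      have h3 := haa.self 𝒮
      have h4 := hya.self 𝒮
      omega
    obtain ⟨w'', hw''⟩ := 𝒮.safe_ne _ hcard
    have hwa : w'' ∈ 𝒮.safe (S ∪ 𝒮.supp a) := 𝒮.safe_anti Finset.subset_union_left hw''
    have hwy : w'' ∈ 𝒮.safe (S ∪ 𝒮.supp y) := by
      refine 𝒮.safe_anti ?_ hw''
      intro v hv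
      simp only [Finset.mem_union] at hv ⊢
      tauto
    obtain ⟨g', hg', he⟩ := 𝒮.adjust h hwa
    rw [he]
    refine ⟨𝒮.ta (-g') (𝒮.tr y w''), ?_, ?_⟩
    · rw [𝒮.mem_tr_local hM hx hxS hc2 hw]
      exact ⟨y, hy, w'', g', ⟨hwy, hg'.2.1, hg'.2.2⟩, rfl⟩
    · rw [members_ta]
      apply Finset.mem_image_of_mem
      rw [𝒮.tr_mem hM hya haa]
      · exact ha
      · refine 𝒮.safe_anti ?_ hw''
        intro v hv
        simp only [Finset.mem_union] at hv ⊢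
        tauto
  · rintro ⟨b, hb, hub⟩
    rw [𝒮.mem_tr_local hM hx hxS hc2 hw] at hb
    obtain ⟨y, hy, w', g, ⟨h1, h2, h3⟩, rfl⟩ := hb
    have hya := (hx.mem 𝒮 hy)
    rw [members_ta, Finset.mem_image] at hub
    obtain ⟨a', ha', rfl⟩ := hub
    have hcy : (S ∪ 𝒮.supp y).card ≤ 2 * κ := by
      have h2 := Finset.card_union_le S (𝒮.supp y)
      have h4 := hya.self 𝒮
      omega
    rw [𝒮.mem_tr_local hM hya (S := S ∪ 𝒮.supp y) Finset.subset_union_right hcy h1] at ha'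
    obtain ⟨a, ha, w'', k, ⟨h4, h5, h6⟩, rfl⟩ := ha'
    refine ⟨a, ⟨y, hy, ha⟩, w'', g + k, ⟨?_, ?_, 𝒮.bd_comp h3 h6⟩, ?_⟩
    · refine 𝒮.safe_anti ?_ h4
      intro v hv
      simp only [Finset.mem_union] at hv ⊢
      tauto
    · exact AddSubgroup.add_mem _ h2 (𝒮.Ch_anti Finset.subset_union_left h5)
    · rw [← ta_add]; congr 1; abel

/-- the `theOnly` operation -/
def only (x : HF A) : HF A := if h : ∃ y, members x = {y} then Classical.choose h else empty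

theorem only_of_eq {x y : HF A} (h : members x = {y}) : only x = y := by
  have hh : ∃ y, members x = {y} := ⟨y, h⟩
  rw [only, dif_pos hh]
  exact (Finset.singleton_injective (h.symm.trans (Classical.choose_spec hh))).symm

theorem tr_only {κ : ℕ} (hM : 4 * κ < 𝒮.M) {x : HF A} {S : Finset V} {w : W}
    (hx : 𝒮.HS κ x) (hxS : 𝒮.supp x ⊆ S) (hw : w ∈ 𝒮.safe S) :
    𝒮.tr (only x) w = only (𝒮.tr x w) := by
  have hwx : w ∈ 𝒮.safe (𝒮.supp x) := 𝒮.safe_anti hxS hw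
  have hcard := 𝒮.tr_card hM hx hwx
  by_cases h : ∃ y, members x = {y}
  · obtain ⟨y, hy⟩ := h
    have hym : y ∈ members x := by rw [hy]; simp
    have hys : 𝒮.supp y ⊆ 𝒮.supp x := by
      apply 𝒮.supp_subset_of_fix
      intro z hz
      have h1 : 𝒮.ga z x = x := 𝒮.fix_of_supp x z hz
      have h2 : 𝒮.ga z y ∈ members (𝒮.ga z x) := by
        rw [members_ga]; exact Finset.mem_image_of_mem _ hym
      rw [h1, hy, Finset.mem_singleton] at h2
      exact h2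
    rw [only_of_eq hy]
    have h3 : 𝒮.tr y w ∈ members (𝒮.tr x w) := by
      rw [𝒮.tr_mem hM hx (hx.mem 𝒮 hym)]
      · exact hym
      · rwa [Finset.union_eq_left.2 hys]
    rw [hy, Finset.card_singleton, Finset.card_eq_one] at hcard
    obtain ⟨u, hu⟩ := hcard
    rw [hu, Finset.mem_singleton] at h3
    rw [only_of_eq hu, h3]
  · have h' : ¬ ∃ y, members (𝒮.tr x w) = {y} := by
      rw [← Finset.card_eq_one, hcard, Finset.card_eq_one]
      exact h
    rw [only, dif_neg h, only, dif_neg h']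
    exact 𝒮.tr_empty w

theorem supp_ordinal (n : ℕ) : 𝒮.supp (ordinal n : HF A) = ∅ := by
  rw [← Finset.subset_empty]
  apply 𝒮.supp_subset_of_fix
  intro z _
  exact rename_ordinal _ n

theorem mem_ordinal {n : ℕ} {x : HF A} : x ∈ members (ordinal n : HF A) ↔ ∃ m < n, x = ordinal m := by
  induction n with
  | zero => simp [ordinal, empty, members_ofFinset]
  | succ n ih =>
    rw [ordinal, members_ofFinset, Finset.mem_insert, ih]
    constructor
    · rintro (rfl | ⟨m, hm, rfl⟩)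
      · exact ⟨n, Nat.lt_succ_self n, rfl⟩
      · exact ⟨m, by omega, rfl⟩
    · rintro ⟨m, hm, rfl⟩
      rcases Nat.lt_succ_iff_lt_or_eq.1 hm with h | rfl
      · exact Or.inr ⟨m, h, rfl⟩
      · exact Or.inl rfl

theorem tr_ordinal (n : ℕ) (w : W) (hw : w ∈ 𝒮.safe ∅) : 𝒮.tr (ordinal n : HF A) w = ordinal n := by
  induction n using Nat.strong_induction_on generalizing w with
  | _ n ih =>
    have hset : ∀ n, (ordinal n : HF A) = ofFinset (members (ordinal n)) := by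
      intro n
      cases n with
      | zero => simp [ordinal, empty, members_ofFinset]
      | succ n => rw [ordinal, members_ofFinset]
    conv_rhs => rw [hset n]
    have h1 : 𝒮.tr (ordinal n : HF A) w = ofFinset (members (𝒮.tr (ordinal n) w)) := by
      conv_lhs => rw [hset n]
      rw [tr_set, ← hset n]
    rw [h1]
    congr 1
    ext u
    rw [mem_tr]
    constructor
    · rintro ⟨y, hy, w', g, ⟨h1, h2, h3⟩, rfl⟩
      obtain ⟨m, hm, rfl⟩ := (mem_ordinal).1 hy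
      rw [ih m hm w' (𝒮.safe_anti (Finset.empty_subset _) h1)]
      rw [ta, rename_ordinal]
      exact hy
    · intro hu
      obtain ⟨m, hm, rfl⟩ := (mem_ordinal).1 hu
      refine ⟨ordinal m, hu, w, 0, 𝒮.mv_refl ?_, ?_⟩
      · rwa [supp_ordinal, supp_ordinal, Finset.union_empty]
      · rw [ih m hm w hw, neg_zero, ta_zero]

theorem tr_ord_card {κ : ℕ} (hM : 4 * κ < 𝒮.M) {x : HF A} {S : Finset V} {w : W}
    (hx : 𝒮.HS κ x) (hxS : 𝒮.supp x ⊆ S) (hw : w ∈ 𝒮.safe S) :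
    𝒮.tr (ordinal (members x).card : HF A) w = ordinal (members (𝒮.tr x w)).card := by
  rw [𝒮.tr_card hM hx (𝒮.safe_anti hxS hw), 𝒮.tr_ordinal _ _ (𝒮.safe_anti (Finset.empty_subset _) hw)]

theorem supp_atoms [Fintype A] : 𝒮.supp (ofFinset ((Finset.univ : Finset A).image atom)) ⊆ ∅ := by
  apply 𝒮.supp_ofFinset_subset
  intro z _ y hy
  rw [Finset.mem_image] at hy ⊢
  obtain ⟨a, _, rfl⟩ := hy
  exact ⟨𝒮.act z a, Finset.mem_univ _, (𝒮.ga_atom z a).symm⟩

theorem tr_atoms [Fintype A] {κ : ℕ} (hM : 4 * κ < 𝒮.M)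
    (hA : 𝒮.HS κ (ofFinset ((Finset.univ : Finset A).image atom))) {w : W} (hw : w ∈ 𝒮.safe ∅) :
    𝒮.tr (ofFinset ((Finset.univ : Finset A).image atom)) w =
      ofFinset ((Finset.univ : Finset A).image atom) := by
  have h0 : 𝒮.supp (ofFinset ((Finset.univ : Finset A).image atom)) = ∅ :=
    Finset.subset_empty.1 𝒮.supp_atoms
  have hsub : members (𝒮.tr (ofFinset ((Finset.univ : Finset A).image atom)) w) ⊆
      (Finset.univ : Finset A).image atom := by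
    intro u hu
    rw [mem_tr] at hu
    obtain ⟨y, hy, w', g, _, rfl⟩ := hu
    rw [members_ofFinset, Finset.mem_image] at hy
    obtain ⟨a, _, rfl⟩ := hy
    rw [tr_atom, ta_atom]
    exact Finset.mem_image_of_mem _ (Finset.mem_univ _)
  rw [tr_set]
  congr 1
  apply Finset.eq_of_subset_of_card_le hsub
  rw [𝒮.tr_card hM hA (by rwa [h0]), members_ofFinset]

theorem tr_compr {κ : ℕ} (hM : 4 * κ < 𝒮.M) {x : HF A} {S : Finset V} {w : W}
    (hx : 𝒮.HS κ x) (hxS : 𝒮.supp x ⊆ S) (hc : S.card ≤ 2 * κ) (hw : w ∈ 𝒮.safe S)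
    (G G' : HF A → Prop) (F F' : HF A → HF A)
    (hFs : ∀ u ∈ members x, G u → 𝒮.supp (F u) ⊆ S ∪ 𝒮.supp u)
    (hG : ∀ u ∈ members x, ∀ w' g, 𝒮.Mv (S ∪ 𝒮.supp u) S w w' g →
      (G' (𝒮.ta (-g) (𝒮.tr u w')) ↔ G u))
    (hF : ∀ u ∈ members x, G u → ∀ w' g, 𝒮.Mv (S ∪ 𝒮.supp u) S w w' g →
      F' (𝒮.ta (-g) (𝒮.tr u w')) = 𝒮.ta (-g) (𝒮.tr (F u) w'))
    (hR : 𝒮.HS κ (ofFinset (((members x).filter G).image F)))
    (hRs : 𝒮.supp (ofFinset (((members x).filter G).image F)) ⊆ S) :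
    𝒮.tr (ofFinset (((members x).filter G).image F)) w =
      ofFinset (((members (𝒮.tr x w)).filter G').image F') := by
  refine 𝒮.eq_of_members w _ fun u => ?_
  rw [𝒮.mem_tr_local hM hR hRs hc hw]
  simp only [members_ofFinset, Finset.mem_image, Finset.mem_filter]
  constructor
  · rintro ⟨z, ⟨y, ⟨hy, hGy⟩, rfl⟩, w', g, h, rfl⟩
    have hcard : (S ∪ 𝒮.supp y).card < 𝒮.M := by
      have h2 := Finset.card_union_le S (𝒮.supp y)
      have h3 := (hx.mem 𝒮 hy).self 𝒮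
      omega
    obtain ⟨w'', hw''⟩ := 𝒮.safe_ne _ hcard
    have hsub : S ∪ 𝒮.supp (F y) ⊆ S ∪ 𝒮.supp y :=
      Finset.union_subset Finset.subset_union_left (hFs y hy hGy)
    obtain ⟨g', hg', he⟩ := 𝒮.adjust h (𝒮.safe_anti hsub hw'')
    have hmv : 𝒮.Mv (S ∪ 𝒮.supp y) S w w'' g' := ⟨hw'', hg'.2.1, hg'.2.2⟩
    rw [he]
    refine ⟨𝒮.ta (-g') (𝒮.tr y w''), ⟨?_, (hG y hy _ _ hmv).2 hGy⟩, hF y hy hGy _ _ hmv⟩
    rw [𝒮.mem_tr_local hM hx hxS hc hw]
    exact ⟨y, hy, w'', g', hmv, rfl⟩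
  · rintro ⟨b, ⟨hb, hGb⟩, rfl⟩
    rw [𝒮.mem_tr_local hM hx hxS hc hw] at hb
    obtain ⟨y, hy, w', g, hmv, rfl⟩ := hb
    have hGy := (hG y hy _ _ hmv).1 hGb
    refine ⟨F y, ⟨y, ⟨hy, hGy⟩, rfl⟩, w', g, ?_, hF y hy hGy _ _ hmv⟩
    obtain ⟨h1, h2, h3⟩ := hmv
    refine ⟨𝒮.safe_anti ?_ h1, h2, h3⟩
    exact Finset.union_subset Finset.subset_union_left (hFs y hy hGy)

end Sys

end Crest.Agent.CPTL
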