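import Mathlib
import Crest.Prelude.Def_HF
import Crest.Prelude.Def_CPT
import Crest.Agent.CPT.HF
import Crest.Agent.CPT.Sys
import Crest.Agent.CPT.TrOps

/-!
# Row 282: total evaluation of plain terms, isomorphism invariance
-/

noncomputable section
open Classical

namespace Crest.Agent.CPTL
open Crest.LogicCS.HFSet Crest.LogicCS.CPT

variable {σ : Type}

/-- induction principle for plain terms and formulas -/
theorem plain_induction {mT : ∀ n, Term σ n → Prop} {mF : ∀ n, Formula σ n → Prop}
    (hvar : ∀ n i, mT n (.var i)) (hempty : ∀ n, mT n .empty) (hatoms : ∀ n, mT n .atoms)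
    (hpair : ∀ n s t, s.wscCount = 0 → t.wscCount = 0 → mT n s → mT n t → mT n (.pair s t))
    (hunion : ∀ n t, t.wscCount = 0 → mT n t → mT n (.union t))
    (honly : ∀ n t, t.wscCount = 0 → mT n t → mT n (.theOnly t))
    (hcard : ∀ n t, t.wscCount = 0 → mT n t → mT n (.card t))
    (hcompr : ∀ n r g b, r.wscCount = 0 → g.wscCount = 0 → b.wscCount = 0 → mT n r →
      mF (n+1) g → mT (n+1) b → mT n (.compr r g b))
    (hiter : ∀ n s, s.wscCount = 0 → mT (n+1) s → mT n (.iter s))
    (heq : ∀ n s t, s.wscCount = 0 → t.wscCount = 0 → mT n s → mT n t → mF n (.eq s t))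
    (hrel : ∀ n r s t, s.wscCount = 0 → t.wscCount = 0 → mT n s → mT n t → mF n (.rel r s t))
    (hnot : ∀ n φ, φ.wscCount = 0 → mF n φ → mF n (.not φ))
    (hand : ∀ n φ ψ, φ.wscCount = 0 → ψ.wscCount = 0 → mF n φ → mF n ψ → mF n (.and φ ψ))
    (hor : ∀ n φ ψ, φ.wscCount = 0 → ψ.wscCount = 0 → mF n φ → mF n ψ → mF n (.or φ ψ)) :
    (∀ n (t : Term σ n), t.wscCount = 0 → mT n t) ∧ (∀ n (φ : Formula σ n), φ.wscCount = 0 → mF n φ) := by
  have key := fun (n : ℕ) (t : Term σ n) => Term.rec (σ := σ)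
    (motive_1 := fun n t => t.wscCount = 0 → mT n t)
    (motive_2 := fun n φ => φ.wscCount = 0 → mF n φ)
    (fun i _ => hvar _ i) (fun _ => hempty _) (fun _ => hatoms _)
    (fun s t ihs iht h => by
      simp only [Term.wscCount, Nat.add_eq_zero_iff] at h
      exact hpair _ s t h.1 h.2 (ihs h.1) (iht h.2))
    (fun t ih h => by
      simp only [Term.wscCount] at h
      exact hunion _ t h (ih h))
    (fun t ih h => by
      simp only [Term.wscCount] at h
      exact honly _ t h (ih h))
    (fun t ih h => by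
      simp only [Term.wscCount] at h
      exact hcard _ t h (ih h))
    (fun r g b ihr ihg ihb h => by
      simp only [Term.wscCount, Nat.add_eq_zero_iff] at h
      exact hcompr _ r g b h.1.1 h.1.2 h.2 (ihr h.1.1) (ihg h.1.2) (ihb h.2))
    (fun s ih h => by
      simp only [Term.wscCount] at h
      exact hiter _ s h (ih h))
    (fun s t ihs iht h => by
      simp only [Formula.wscCount, Nat.add_eq_zero_iff] at h
      exact heq _ s t h.1 h.2 (ihs h.1) (iht h.2))
    (fun r s t ihs iht h => by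
      simp only [Formula.wscCount, Nat.add_eq_zero_iff] at h
      exact hrel _ r s t h.1 h.2 (ihs h.1) (iht h.2))
    (fun φ ih h => by
      simp only [Formula.wscCount] at h
      exact hnot _ φ h (ih h))
    (fun φ ψ ih1 ih2 h => by
      simp only [Formula.wscCount, Nat.add_eq_zero_iff] at h
      exact hand _ φ ψ h.1 h.2 (ih1 h.1) (ih2 h.2))
    (fun φ ψ ih1 ih2 h => by
      simp only [Formula.wscCount, Nat.add_eq_zero_iff] at h
      exact hor _ φ ψ h.1 h.2 (ih1 h.1) (ih2 h.2))
    (fun step choice wit out _ _ _ _ h => by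
      simp only [Formula.wscCount] at h; omega) t
  have key2 := fun (n : ℕ) (t : Formula σ n) => Formula.rec (σ := σ)
    (motive_1 := fun n t => t.wscCount = 0 → mT n t)
    (motive_2 := fun n φ => φ.wscCount = 0 → mF n φ)
    (fun i _ => hvar _ i) (fun _ => hempty _) (fun _ => hatoms _)
    (fun s t ihs iht h => by
      simp only [Term.wscCount, Nat.add_eq_zero_iff] at h
      exact hpair _ s t h.1 h.2 (ihs h.1) (iht h.2))
    (fun t ih h => by
      simp only [Term.wscCount] at h
      exact hunion _ t h (ih h))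
    (fun t ih h => by
      simp only [Term.wscCount] at h
      exact honly _ t h (ih h))
    (fun t ih h => by
      simp only [Term.wscCount] at h
      exact hcard _ t h (ih h))
    (fun r g b ihr ihg ihb h => by
      simp only [Term.wscCount, Nat.add_eq_zero_iff] at h
      exact hcompr _ r g b h.1.1 h.1.2 h.2 (ihr h.1.1) (ihg h.1.2) (ihb h.2))
    (fun s ih h => by
      simp only [Term.wscCount] at h
      exact hiter _ s h (ih h))
    (fun s t ihs iht h => by
      simp only [Formula.wscCount, Nat.add_eq_zero_iff] at h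
      exact heq _ s t h.1 h.2 (ihs h.1) (iht h.2))
    (fun r s t ihs iht h => by
      simp only [Formula.wscCount, Nat.add_eq_zero_iff] at h
      exact hrel _ r s t h.1 h.2 (ihs h.1) (iht h.2))
    (fun φ ih h => by
      simp only [Formula.wscCount] at h
      exact hnot _ φ h (ih h))
    (fun φ ψ ih1 ih2 h => by
      simp only [Formula.wscCount, Nat.add_eq_zero_iff] at h
      exact hand _ φ ψ h.1 h.2 (ih1 h.1) (ih2 h.2))
    (fun φ ψ ih1 ih2 h => by
      simp only [Formula.wscCount, Nat.add_eq_zero_iff] at h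
      exact hor _ φ ψ h.1 h.2 (ih1 h.1) (ih2 h.2))
    (fun step choice wit out _ _ _ _ h => by
      simp only [Formula.wscCount] at h; omega) t
  exact ⟨key, key2⟩

/-! ## total evaluation -/

section Total

variable {A : Type} [Fintype A] (R : σ → A → A → Bool) (p : ℕ)

/-- plain terms and formulas never fail -/
theorem plain_some : (∀ n (t : Term σ n), t.wscCount = 0 → ∀ e, ∃ x, t.eval R p e = some x) ∧
    (∀ n (φ : Formula σ n), φ.wscCount = 0 → ∀ e, ∃ x, φ.eval R p e = some x) := by
  refine plain_induction ?_ ?_ ?_ ?_ ?_ ?_ ?_ ?_ ?_ ?_ ?_ ?_ ?_ ?_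
  · intro n i e; exact ⟨_, rfl⟩
  · intro n e; exact ⟨_, rfl⟩
  · intro n e; exact ⟨_, rfl⟩
  · intro n s t _ _ ihs iht e
    obtain ⟨x, hx⟩ := ihs e
    obtain ⟨y, hy⟩ := iht e
    exact ⟨_, by rw [Term.eval, hx, hy]; rfl⟩
  · intro n t _ ih e
    obtain ⟨x, hx⟩ := ih e
    exact ⟨_, by rw [Term.eval, hx]; rfl⟩
  · intro n t _ ih e
    obtain ⟨x, hx⟩ := ih e
    exact ⟨_, by rw [Term.eval, hx]; rfl⟩
  · intro n t _ ih e
    obtain ⟨x, hx⟩ := ih e
    exact ⟨_, by rw [Term.eval, hx]; rfl⟩
  · intro n r g b _ _ _ ihr ihg ihb e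
    obtain ⟨x, hx⟩ := ihr e
    rw [Term.eval, hx, Option.bind_some, comprValue, if_neg]
    · exact ⟨_, rfl⟩
    · rintro ⟨u, _, hu | ⟨_, hu⟩⟩
      · obtain ⟨y, hy⟩ := ihg (Fin.cons u e)
        rw [hy] at hu; cases hu
      · obtain ⟨y, hy⟩ := ihb (Fin.cons u e)
        rw [hy] at hu; cases hu
  · intro n s _ ih e
    rw [Term.eval, iterValue]
    have : ∀ k x, ∃ y, iterFrom p (fun x => s.eval R p (Fin.cons x e)) k x = some y := by
      intro k
      induction k with
      | zero => intro x; exact ⟨_, rfl⟩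
      | succ k ihk =>
        intro x
        rw [iterFrom]
        split_ifs
        · obtain ⟨y, hy⟩ := ih (Fin.cons x e)
          rw [hy, Option.bind_some]
          split_ifs
          · exact ⟨_, rfl⟩
          · exact ihk y
        · exact ⟨_, rfl⟩
    exact this _ _
  · intro n s t _ _ ihs iht e
    obtain ⟨x, hx⟩ := ihs e
    obtain ⟨y, hy⟩ := iht e
    exact ⟨_, by rw [Formula.eval, hx, hy]; rfl⟩
  · intro n r s t _ _ ihs iht e
    obtain ⟨x, hx⟩ := ihs e
    obtain ⟨y, hy⟩ := iht e
    exact ⟨_, by rw [Formula.eval, hx, hy]; rfl⟩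
  · intro n φ _ ih e
    obtain ⟨x, hx⟩ := ih e
    exact ⟨_, by rw [Formula.eval, hx]; rfl⟩
  · intro n φ ψ _ _ ih1 ih2 e
    obtain ⟨x, hx⟩ := ih1 e
    obtain ⟨y, hy⟩ := ih2 e
    exact ⟨_, by rw [Formula.eval, hx, hy]; rfl⟩
  · intro n φ ψ _ _ ih1 ih2 e
    obtain ⟨x, hx⟩ := ih1 e
    obtain ⟨y, hy⟩ := ih2 e
    exact ⟨_, by rw [Formula.eval, hx, hy]; rfl⟩

/-- total value of a plain term -/
def ev {n : ℕ} (t : Term σ n) (e : Fin n → HF A) : HF A := (t.eval R p e).getD empty

/-- truth of a plain formula -/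
def evF {n : ℕ} (φ : Formula σ n) (e : Fin n → HF A) : Prop := φ.eval R p e = some true

theorem eval_eq_ev {n : ℕ} {t : Term σ n} (h : t.wscCount = 0) (e : Fin n → HF A) :
    t.eval R p e = some (ev R p t e) := by
  obtain ⟨x, hx⟩ := (plain_some R p).1 n t h e
  rw [ev, hx]; rfl

theorem eval_eq_evF {n : ℕ} {φ : Formula σ n} (h : φ.wscCount = 0) (e : Fin n → HF A) :
    φ.eval R p e = some (decide (evF R p φ e)) := by
  obtain ⟨x, hx⟩ := (plain_some R p).2 n φ h e
  rw [evF, hx]
  cases x <;> simp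

/-- total iteration -/
def itF (step : HF A → HF A) : ℕ → HF A → HF A
  | 0, _ => empty
  | k + 1, x => if tcSize x ≤ p then (if step x = x then x else itF step k (step x)) else empty

variable {R p}

theorem ev_var {n : ℕ} (i : Fin n) (e : Fin n → HF A) : ev R p (.var i) e = e i := rfl

theorem ev_empty {n : ℕ} (e : Fin n → HF A) : ev R p .empty e = empty := rfl

theorem ev_atoms {n : ℕ} (e : Fin n → HF A) :
    ev R p .atoms e = ofFinset ((Finset.univ : Finset A).image atom) := rfl

theorem ev_pair {n : ℕ} {s t : Term σ n} (hs : s.wscCount = 0) (ht : t.wscCount = 0)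
    (e : Fin n → HF A) : ev R p (.pair s t) e = ofFinset {ev R p s e, ev R p t e} := by
  conv_lhs => rw [ev, Term.eval, eval_eq_ev R p hs, eval_eq_ev R p ht]
  rfl

theorem ev_union {n : ℕ} {t : Term σ n} (ht : t.wscCount = 0)
    (e : Fin n → HF A) : ev R p (.union t) e = ofFinset ((members (ev R p t e)).biUnion members) := by
  conv_lhs => rw [ev, Term.eval, eval_eq_ev R p ht]
  rfl

theorem ev_theOnly {n : ℕ} {t : Term σ n} (ht : t.wscCount = 0)
    (e : Fin n → HF A) : ev R p (.theOnly t) e = Sys.only (ev R p t e) := by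
  conv_lhs => rw [ev, Term.eval, eval_eq_ev R p ht]
  rfl

theorem ev_card {n : ℕ} {t : Term σ n} (ht : t.wscCount = 0)
    (e : Fin n → HF A) : ev R p (.card t) e = ordinal (members (ev R p t e)).card := by
  conv_lhs => rw [ev, Term.eval, eval_eq_ev R p ht]
  rfl

theorem ev_compr {n : ℕ} {r : Term σ n} {g : Formula σ (n+1)} {b : Term σ (n+1)}
    (hr : r.wscCount = 0) (hg : g.wscCount = 0) (hb : b.wscCount = 0) (e : Fin n → HF A) :
    ev R p (.compr r g b) e = ofFinset (((members (ev R p r e)).filter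
      fun u => evF R p g (Fin.cons u e)).image fun u => ev R p b (Fin.cons u e)) := by
  conv_lhs => rw [ev, Term.eval, eval_eq_ev R p hr, Option.bind_some, comprValue]
  rw [if_neg]
  · rw [Option.getD_some]
    congr 1
    have h : ∀ (d1 d2 : DecidablePred (fun u => evF R p g (Fin.cons u e))),
        @Finset.filter _ (fun u => evF R p g (Fin.cons u e)) d1 (members (ev R p r e)) =
        @Finset.filter _ (fun u => evF R p g (Fin.cons u e)) d2 (members (ev R p r e)) := by
      intro d1 d2
      rw [Subsingleton.elim d1 d2]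
    exact congrArg (Finset.image _) (h _ _)
  · rintro ⟨u, _, hu | ⟨_, hu⟩⟩
    · rw [eval_eq_evF R p hg] at hu; cases hu
    · rw [eval_eq_ev R p hb] at hu; cases hu

theorem ev_iter {n : ℕ} {s : Term σ (n+1)} (hs : s.wscCount = 0) (e : Fin n → HF A) :
    ev R p (.iter s) e = itF p (fun x => ev R p s (Fin.cons x e)) (p + 1) empty := by
  have : ∀ k x, iterFrom p (fun x => s.eval R p (Fin.cons x e)) k x =
      some (itF p (fun x => ev R p s (Fin.cons x e)) k x) := by
    intro k
    induction k with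
    | zero => intro x; rfl
    | succ k ihk =>
      intro x
      rw [iterFrom, itF]
      split_ifs with h1 h2
      · rw [eval_eq_ev R p hs, Option.bind_some, if_pos h2]
      · rw [eval_eq_ev R p hs, Option.bind_some, if_neg h2, ihk]
      · rfl
  conv_lhs => rw [ev, Term.eval, iterValue, this]
  rfl

theorem evF_eq {n : ℕ} {s t : Term σ n} (hs : s.wscCount = 0) (ht : t.wscCount = 0)
    (e : Fin n → HF A) : evF R p (.eq s t) e ↔ ev R p s e = ev R p t e := by
  rw [evF, Formula.eval, eval_eq_ev R p hs, eval_eq_ev R p ht]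
  simp

theorem evF_rel {n : ℕ} {r : σ} {s t : Term σ n} (hs : s.wscCount = 0) (ht : t.wscCount = 0)
    (e : Fin n → HF A) : evF R p (.rel r s t) e ↔ RelHolds R r (ev R p s e) (ev R p t e) := by
  rw [evF, Formula.eval, eval_eq_ev R p hs, eval_eq_ev R p ht]
  simp

theorem evF_not {n : ℕ} {φ : Formula σ n} (h : φ.wscCount = 0)
    (e : Fin n → HF A) : evF R p (.not φ) e ↔ ¬ evF R p φ e := by
  rw [evF, Formula.eval, eval_eq_evF R p h]
  simp

theorem evF_and {n : ℕ} {φ ψ : Formula σ n} (h : φ.wscCount = 0) (h' : ψ.wscCount = 0)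
    (e : Fin n → HF A) : evF R p (.and φ ψ) e ↔ evF R p φ e ∧ evF R p ψ e := by
  rw [evF, Formula.eval, eval_eq_evF R p h, eval_eq_evF R p h']
  simp

theorem evF_or {n : ℕ} {φ ψ : Formula σ n} (h : φ.wscCount = 0) (h' : ψ.wscCount = 0)
    (e : Fin n → HF A) : evF R p (.or φ ψ) e ↔ evF R p φ e ∨ evF R p ψ e := by
  rw [evF, Formula.eval, eval_eq_evF R p h, eval_eq_evF R p h']
  simp

end Total

end Crest.Agent.CPTL
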