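import Mathlib

/-!
# Row 282: the index lemma (chunk R282-IDX)

PROOF. `G_S = {z : V → B | z v = 1 on S}`, `H = {z ∈ G_S | ρ z y = y}`. Orbit of `y` under `G_S` lies in
`T`, so `[G_S : H] ≤ T.card`. Fix a linear order on `V \ S` (or a list / Finset induction). For
`v ∉ S` let `G_{≤v}` (`G_{<v}`) be the `z ∈ G_S` trivial above `v` (at and above). The projection
`π_v : H ∩ G_{≤v} → B` has kernel `H ∩ G_{<v}`, so
`[G_{≤v} : H ∩ G_{≤v}] = [G_{<v} : H ∩ G_{<v}] * [B : π_v (H ∩ G_{≤v})]` and the product over all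
`v` of `[B : π_v (H ∩ G_{≤v})]` is `[G_S : H] ≤ T.card`; every factor `≠ 1` is `≥ 2`, so at most
`log₂ T.card` sites have `π_v (H ∩ G_{≤v}) ≠ B`. The same for the reverse order. At any other site
`v`: for all `a b : B` there are `h ∈ H` with `h v = a`, trivial above `v`, and `h' ∈ H` with
`h' v = b`, trivial below `v`; `⁅h, h'⁆ = mulSingle v ⁅a, b⁆ ∈ H`. As `B` is perfect
(`commutator B = ⊤`), `mulSingle v g ∈ H` for all `g`.

Alternative without indices: by induction on a finset `F` disjoint from `S` show: if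
`D ⊆ F` is the set of `v ∈ F` for which some `a : B` is NOT of the form `h v` with `h ∈ H`, `h`
supported on `{u ∈ F, u ≤ v}`, then `2 ^ D.card ≤` size of the orbit of `y` under the `z`
supported on `F` (add the sites in increasing order: if `v ∈ D` then the orbit of the new group is
strictly larger by a factor `≥ 2`: it is a union of at least two disjoint translates
`ρ (mulSingle v a)` of orbits of `G_{<v}`, which have equal size).
-/

open Classical

namespace Crest.Agent.CPTL

section index

variable {V B : Type} [Fintype V] [Group B]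
variable {X : Type} (ρ : (V → B) → X → X) (y : X) (S : Finset V)

/-- `v` is bad for the enumeration `f`: some value `a` at `v` is not taken by the elements of the stabiliser of
`y` supported on the sites up to `v` outside `S`. -/
def IdxBad (f : V → ℕ) (v : V) : Prop :=
  ∃ a : B, ∀ h : V → B, (∀ u, (u ∈ S ∨ f v < f u) → h u = 1) → h v = a → ρ h y ≠ y

/-- the orbit of `y` under the elements supported on `{u ∉ S, f u < n}` -/
def idxOrb (f : V → ℕ) (n : ℕ) : Set X :=
  {x | ∃ z : V → B, (∀ u, (u ∈ S ∨ n ≤ f u) → z u = 1) ∧ ρ z y = x}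

theorem idx_pow_le (h1 : ∀ x, ρ 1 x = x) (hm : ∀ g h x, ρ (g * h) x = ρ g (ρ h x))
    (T : Finset X) (hT : ∀ z : V → B, (∀ v ∈ S, z v = 1) → ρ z y ∈ T)
    (f : V → ℕ) (hf : Function.Injective f) (n : ℕ) :
    2 ^ (Finset.univ.filter fun v => v ∉ S ∧ f v < n ∧ IdxBad ρ y S f v).card ≤
      (idxOrb ρ y S f n).ncard := by
  have hinv : ∀ (g : V → B) (x : X), ρ g⁻¹ (ρ g x) = x := by
    intro g x
    rw [← hm, inv_mul_cancel, h1]
  have hinj : ∀ g : V → B, Function.Injective (ρ g) := by
    intro g x x' h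
    rw [← hinv g x, h, hinv]
  have hfin : ∀ n, (idxOrb ρ y S f n).Finite := by
    intro n
    refine T.finite_toSet.subset ?_
    rintro x ⟨z, hz, rfl⟩
    exact hT z fun v hv => hz v (Or.inl hv)
  induction n with
  | zero =>
    have h0 : (Finset.univ.filter fun v => v ∉ S ∧ f v < 0 ∧ IdxBad ρ y S f v) = ∅ := by
      ext v; simp
    rw [h0, Finset.card_empty, pow_zero]
    have : (idxOrb ρ y S f 0).Nonempty := ⟨y, 1, fun _ _ => rfl, h1 y⟩
    exact (Set.ncard_pos (hfin 0)).2 this
  | succ n ih =>
    have hmono : idxOrb ρ y S f n ⊆ idxOrb ρ y S f (n + 1) := by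
      rintro x ⟨z, hz, rfl⟩
      exact ⟨z, fun u hu => hz u (hu.imp id fun h => by omega), rfl⟩
    by_cases hv : ∃ v, v ∉ S ∧ f v = n ∧ IdxBad ρ y S f v
    · obtain ⟨v, hvS, hvn, hbad⟩ := hv
      have hsub : (Finset.univ.filter fun v => v ∉ S ∧ f v < n + 1 ∧ IdxBad ρ y S f v) ⊆
          insert v (Finset.univ.filter fun v => v ∉ S ∧ f v < n ∧ IdxBad ρ y S f v) := by
        intro u hu
        rw [Finset.mem_filter] at hu
        rw [Finset.mem_insert, Finset.mem_filter]
        rcases Nat.lt_succ_iff_lt_or_eq.1 hu.2.2.1 with h | h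
        · exact Or.inr ⟨hu.1, hu.2.1, h, hu.2.2.2⟩
        · exact Or.inl (hf (h.trans hvn.symm))
      have hcard := (Finset.card_le_card hsub).trans (Finset.card_insert_le _ _)
      obtain ⟨a, ha⟩ := hbad
      have hdis : Disjoint (idxOrb ρ y S f n) (ρ (Pi.mulSingle v a) '' idxOrb ρ y S f n) := by
        rw [Set.disjoint_left]
        rintro x ⟨z, hz, hzx⟩ ⟨x', ⟨z', hz', hzx'⟩, hx⟩
        refine ha (z⁻¹ * Pi.mulSingle v a * z') ?_ ?_ ?_
        · intro u hu
          have huv : u ≠ v := by
            rintro rfl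
            rcases hu with h | h
            · exact hvS h
            · exact lt_irrefl _ h
          have hu' : u ∈ S ∨ n ≤ f u := hu.imp id fun h => by omega
          simp [hz u hu', hz' u hu', huv]
        · have hzv := hz v (Or.inr hvn.symm.le)
          have hzv' := hz' v (Or.inr hvn.symm.le)
          simp [hzv, hzv']
        · rw [hm, hm, hzx', hx, ← hzx, hinv]
      have himg : ρ (Pi.mulSingle v a) '' idxOrb ρ y S f n ⊆ idxOrb ρ y S f (n + 1) := by
        rintro x ⟨x', ⟨z', hz', rfl⟩, rfl⟩
        refine ⟨Pi.mulSingle v a * z', ?_, hm _ _ _⟩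
        intro u hu
        have huv : u ≠ v := by
          rintro rfl
          rcases hu with h | h
          · exact hvS h
          · omega
        have hu' : u ∈ S ∨ n ≤ f u := hu.imp id fun h => by omega
        simp [hz' u hu', huv]
      have hle := Set.ncard_le_ncard (Set.union_subset hmono himg) (hfin (n + 1))
      rw [Set.ncard_union_eq hdis (hfin n) ((hfin n).image _),
        Set.ncard_image_of_injective _ (hinj _)] at hle
      calc 2 ^ (Finset.univ.filter fun v => v ∉ S ∧ f v < n + 1 ∧ IdxBad ρ y S f v).card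
          ≤ 2 ^ ((Finset.univ.filter fun v => v ∉ S ∧ f v < n ∧ IdxBad ρ y S f v).card + 1) :=
            Nat.pow_le_pow_right (by norm_num) hcard
        _ = 2 ^ (Finset.univ.filter fun v => v ∉ S ∧ f v < n ∧ IdxBad ρ y S f v).card * 2 := by
            rw [pow_succ]
        _ ≤ (idxOrb ρ y S f n).ncard * 2 := Nat.mul_le_mul_right _ ih
        _ ≤ (idxOrb ρ y S f (n + 1)).ncard := by omega
    · have heq : (Finset.univ.filter fun v => v ∉ S ∧ f v < n + 1 ∧ IdxBad ρ y S f v) =
          (Finset.univ.filter fun v => v ∉ S ∧ f v < n ∧ IdxBad ρ y S f v) := by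
        ext u
        rw [Finset.mem_filter, Finset.mem_filter]
        constructor
        · rintro ⟨h0, h2, h3, h4⟩
          refine ⟨h0, h2, ?_, h4⟩
          rcases Nat.lt_succ_iff_lt_or_eq.1 h3 with h | h
          · exact h
          · exact absurd ⟨u, h2, h, h4⟩ hv
        · rintro ⟨h0, h2, h3, h4⟩
          exact ⟨h0, h2, by omega, h4⟩
      rw [heq]
      exact ih.trans (Set.ncard_le_ncard hmono (hfin (n + 1)))

theorem idx_card_le (h1 : ∀ x, ρ 1 x = x) (hm : ∀ g h x, ρ (g * h) x = ρ g (ρ h x))
    (T : Finset X) (hT : ∀ z : V → B, (∀ v ∈ S, z v = 1) → ρ z y ∈ T)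
    (f : V → ℕ) (hf : Function.Injective f) :
    (Finset.univ.filter fun v => v ∉ S ∧ IdxBad ρ y S f v).card ≤ Nat.log 2 T.card := by
  obtain ⟨n, hn⟩ : ∃ n, ∀ v, f v < n := by
    refine ⟨(Finset.univ.sup f) + 1, fun v => ?_⟩
    have := Finset.le_sup (f := f) (Finset.mem_univ v)
    omega
  have h := idx_pow_le ρ y S h1 hm T hT f hf n
  have heq : (Finset.univ.filter fun v => v ∉ S ∧ f v < n ∧ IdxBad ρ y S f v) =
      (Finset.univ.filter fun v => v ∉ S ∧ IdxBad ρ y S f v) := by
    ext u
    simp [hn u]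
  rw [heq] at h
  have hle : (idxOrb ρ y S f n).ncard ≤ T.card := by
    rw [← Set.ncard_coe_finset T]
    refine Set.ncard_le_ncard ?_ T.finite_toSet
    rintro x ⟨z, hz, rfl⟩
    exact hT z fun v hv => hz v (Or.inl hv)
  refine Nat.le_log_of_pow_le (by norm_num) (h.trans hle)

end index

theorem index_lemma {V B : Type} [Fintype V] [Group B] [Fintype B] (hB : commutator B = ⊤)
    {X : Type} (ρ : (V → B) → X → X) (h1 : ∀ x, ρ 1 x = x)
    (hm : ∀ g h x, ρ (g * h) x = ρ g (ρ h x)) (y : X) (S : Finset V) (T : Finset X)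
    (hT : ∀ z : V → B, (∀ v ∈ S, z v = 1) → ρ z y ∈ T) :
    (Finset.univ.filter fun v => v ∉ S ∧ ∃ g : B, ρ (Pi.mulSingle v g) y ≠ y).card
      ≤ 2 * Nat.log 2 T.card := by
  have hinv : ∀ (g : V → B), ρ g y = y → ρ g⁻¹ y = y := by
    intro g hg
    conv_lhs => rw [← hg]
    rw [← hm, inv_mul_cancel, h1]
  obtain ⟨f, g, hf, hg, hfg⟩ : ∃ f g : V → ℕ, Function.Injective f ∧ Function.Injective g ∧
      ∀ u v, g u ≤ g v ↔ f v ≤ f u := by
    refine ⟨fun v => (Fintype.equivFin V v).val, fun v => (Fin.rev (Fintype.equivFin V v)).val,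
      ?_, ?_, ?_⟩
    · exact Fin.val_injective.comp (Fintype.equivFin V).injective
    · exact Fin.val_injective.comp (Fin.rev_injective.comp (Fintype.equivFin V).injective)
    · intro u v
      have := (Fintype.equivFin V u).2
      have := (Fintype.equivFin V v).2
      simp only [Fin.val_rev]
      omega
  have hsub : (Finset.univ.filter fun v => v ∉ S ∧ ∃ g : B, ρ (Pi.mulSingle v g) y ≠ y) ⊆
      (Finset.univ.filter fun v => v ∉ S ∧ IdxBad ρ y S f v) ∪
      (Finset.univ.filter fun v => v ∉ S ∧ IdxBad ρ y S g v) := by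
    intro v hv
    rw [Finset.mem_filter] at hv
    obtain ⟨-, hvS, b, hb⟩ := hv
    rw [Finset.mem_union, Finset.mem_filter, Finset.mem_filter]
    by_contra hcon
    push Not at hcon
    have hbf : ¬ IdxBad ρ y S f v := hcon.1 (Finset.mem_univ v) hvS
    have hbg : ¬ IdxBad ρ y S g v := hcon.2 (Finset.mem_univ v) hvS
    unfold IdxBad at hbf hbg
    push Not at hbf hbg
    -- the stabiliser at the site `v`
    let H : Subgroup B :=
      { carrier := {a | ρ (Pi.mulSingle v a) y = y}
        mul_mem' := by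
          intro a a' ha ha'
          simp only [Set.mem_ofPred_eq] at ha ha' ⊢
          rw [Pi.mulSingle_mul, hm, ha', ha]
        one_mem' := by
          simp only [Set.mem_ofPred_eq]
          rw [Pi.mulSingle_one, h1]
        inv_mem' := by
          intro a ha
          simp only [Set.mem_ofPred_eq] at ha ⊢
          rw [Pi.mulSingle_inv]
          exact hinv _ ha }
    have hcomm : commutator B ≤ H := by
      rw [commutator_def, Subgroup.commutator_le]
      intro a _ a' _
      obtain ⟨h, hh, hha, hhy⟩ := hbf a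
      obtain ⟨h', hh', hha', hhy'⟩ := hbg a'
      change ρ (Pi.mulSingle v (a * a' * a⁻¹ * a'⁻¹)) y = y
      have heq : (Pi.mulSingle v (a * a' * a⁻¹ * a'⁻¹) : V → B) = h * h' * h⁻¹ * h'⁻¹ := by
        funext u
        by_cases huv : u = v
        · subst huv
          simp [hha, hha']
        · rw [Pi.mulSingle_eq_of_ne huv]
          rcases lt_trichotomy (f u) (f v) with hlt | heq | hgt
          · have : h' u = 1 := by
              refine hh' u (Or.inr ?_)
              by_contra hn
              rw [not_lt, hfg] at hn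
              omega
            simp [this]
          · exact absurd (hf heq) huv
          · have : h u = 1 := hh u (Or.inr hgt)
            simp [this]
      rw [heq, hm, hm, hm, hinv _ hhy', hinv _ hhy, hhy', hhy]
    have : b ∈ H := hcomm (by rw [hB]; trivial)
    exact hb this
  have hf' := idx_card_le ρ y S h1 hm T hT f hf
  have hg' := idx_card_le ρ y S h1 hm T hT g hg
  have := (Finset.card_le_card hsub).trans (Finset.card_union_le _ _)
  omega

end Crest.Agent.CPTL
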