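import Mathlib
import Crest.Prelude.Def_HF
import Crest.Prelude.Def_CPT
import Crest.Agent.CPT.HF
import Crest.Agent.CPT.Sys
import Crest.Agent.CPT.TrOps
import Crest.Agent.CPT.EvalIso

/-!
# Row 282: isomorphism invariance of the evaluation of plain terms
-/

noncomputable section
open Classical

namespace Crest.Agent.CPTL
open Crest.LogicCS.HFSet Crest.LogicCS.CPT

variable {σ : Type} {A : Type} [Fintype A]

theorem only_rename {f : A → A} (hf : Function.Injective f) (x : HF A) :
    Sys.only (rename f x) = rename f (Sys.only x) := by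
  have hi := rename_injective hf
  by_cases h : ∃ y, members x = {y}
  · obtain ⟨y, hy⟩ := h
    rw [Sys.only_of_eq hy, Sys.only_of_eq (y := rename f y)]
    rw [members_rename, hy, Finset.image_singleton]
  · have h' : ¬ ∃ y, members (rename f x) = {y} := by
      rw [← Finset.card_eq_one, members_rename, Finset.card_image_of_injective _ hi,
        Finset.card_eq_one]
      exact h
    rw [Sys.only, dif_neg h', Sys.only, dif_neg h]
    rw [Crest.LogicCS.HFSet.empty, rename_ofFinset, Finset.image_empty]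

theorem itF_rename {f : A → A} (hf : Function.Injective f) (p : ℕ) (s s' : HF A → HF A)
    (h : ∀ x, s' (rename f x) = rename f (s x)) (k : ℕ) (x : HF A) :
    itF p s' k (rename f x) = rename f (itF p s k x) := by
  induction k generalizing x with
  | zero => rw [itF, itF, Crest.LogicCS.HFSet.empty, rename_ofFinset, Finset.image_empty]
  | succ k ih =>
    rw [itF, itF, tcSize_rename hf, h]
    simp only [(rename_injective hf).eq_iff]
    split_ifs
    · rfl
    · exact ih _
    · rw [Crest.LogicCS.HFSet.empty, rename_ofFinset, Finset.image_empty]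

theorem cons_rename {n : ℕ} (f : A → A) (u : HF A) (e : Fin n → HF A) :
    (Fin.cons (rename f u) (fun i => rename f (e i)) : Fin (n+1) → HF A) =
      fun i => rename f ((Fin.cons u e : Fin (n+1) → HF A) i) := by
  funext i
  refine Fin.cases ?_ ?_ i
  · simp
  · intro j; simp

variable (p : ℕ) (R R' : σ → A → A → Bool) (π : A → A)

theorem ev_rename (hπ : Function.Bijective π) (hR : ∀ r a b, R' r (π a) (π b) = R r a b) :
    (∀ n (t : Term σ n), t.wscCount = 0 →
      ∀ e, ev R' p t (fun i => rename π (e i)) = rename π (ev R p t e)) ∧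
    (∀ n (φ : Formula σ n), φ.wscCount = 0 →
      ∀ e, evF R' p φ (fun i => rename π (e i)) ↔ evF R p φ e) := by
  have hi := rename_injective hπ.injective
  refine plain_induction ?_ ?_ ?_ ?_ ?_ ?_ ?_ ?_ ?_ ?_ ?_ ?_ ?_ ?_
  · intro n i e; rfl
  · intro n e
    rw [ev_empty, ev_empty, Crest.LogicCS.HFSet.empty, rename_ofFinset, Finset.image_empty]
  · intro n e
    rw [ev_atoms, ev_atoms, rename_ofFinset]
    congr 1
    ext u
    simp only [Finset.mem_image, Finset.mem_univ, true_and, exists_exists_eq_and, rename_atom]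
    constructor
    · rintro ⟨a, rfl⟩
      obtain ⟨b, rfl⟩ := hπ.surjective a
      exact ⟨b, rfl⟩
    · rintro ⟨a, rfl⟩
      exact ⟨π a, rfl⟩
  · intro n s t hs ht ihs iht e
    rw [ev_pair hs ht, ev_pair hs ht, ihs, iht, rename_ofFinset, Finset.image_insert,
      Finset.image_singleton]
  · intro n t ht ih e
    rw [ev_union ht, ev_union ht, ih, rename_ofFinset, members_rename]
    congr 1
    ext u
    simp only [Finset.mem_biUnion, Finset.mem_image]
    constructor
    · rintro ⟨_, ⟨y, hy, rfl⟩, hu⟩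
      rw [members_rename, Finset.mem_image] at hu
      obtain ⟨a, ha, rfl⟩ := hu
      exact ⟨a, ⟨y, hy, ha⟩, rfl⟩
    · rintro ⟨a, ⟨y, hy, ha⟩, rfl⟩
      exact ⟨_, ⟨y, hy, rfl⟩, by rw [members_rename]; exact Finset.mem_image_of_mem _ ha⟩
  · intro n t ht ih e
    rw [ev_theOnly ht, ev_theOnly ht, ih, only_rename hπ.injective]
  · intro n t ht ih e
    rw [ev_card ht, ev_card ht, ih, rename_ordinal, members_rename,
      Finset.card_image_of_injective _ hi]
  · intro n r g b hr hg hb ihr ihg ihb e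
    rw [ev_compr hr hg hb, ev_compr hr hg hb, ihr, rename_ofFinset, members_rename]
    congr 1
    ext u
    simp only [Finset.mem_image, Finset.mem_filter]
    constructor
    · rintro ⟨_, ⟨⟨y, hy, rfl⟩, hgy⟩, rfl⟩
      rw [cons_rename, ihg] at hgy
      exact ⟨_, ⟨y, ⟨hy, hgy⟩, rfl⟩, by rw [cons_rename, ihb]⟩
    · rintro ⟨_, ⟨y, ⟨hy, hgy⟩, rfl⟩, rfl⟩
      refine ⟨_, ⟨⟨y, hy, rfl⟩, ?_⟩, ?_⟩
      · rw [cons_rename, ihg]; exact hgy
      · rw [cons_rename, ihb]
  · intro n s hs ih e
    rw [ev_iter hs, ev_iter hs]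
    have h0 : (Crest.LogicCS.HFSet.empty : HF A) = rename π Crest.LogicCS.HFSet.empty := by
      rw [Crest.LogicCS.HFSet.empty, rename_ofFinset, Finset.image_empty]
    conv_lhs => rw [h0]
    apply itF_rename hπ.injective
    intro x
    rw [cons_rename, ih]
  · intro n s t hs ht ihs iht e
    rw [evF_eq hs ht, evF_eq hs ht, ihs, iht, hi.eq_iff]
  · intro n r s t hs ht ihs iht e
    rw [evF_rel hs ht, evF_rel hs ht, ihs, iht]
    constructor
    · rintro ⟨a, b, ha, hb, hab⟩
      obtain ⟨a, rfl⟩ := hπ.surjective a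
      obtain ⟨b, rfl⟩ := hπ.surjective b
      rw [← rename_atom] at ha hb
      exact ⟨a, b, hi ha, hi hb, by rwa [hR] at hab⟩
    · rintro ⟨a, b, ha, hb, hab⟩
      exact ⟨π a, π b, by rw [ha, rename_atom], by rw [hb, rename_atom], by rwa [hR]⟩
  · intro n φ hφ ih e
    rw [evF_not hφ, evF_not hφ, ih]
  · intro n φ ψ h1 h2 ih1 ih2 e
    rw [evF_and h1 h2, evF_and h1 h2, ih1, ih2]
  · intro n φ ψ h1 h2 ih1 ih2 e
    rw [evF_or h1 h2, evF_or h1 h2, ih1, ih2]

end Crest.Agent.CPTL
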