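import Mathlib
import Crest.Prelude.Def_HF
import Crest.Prelude.Def_CPT
import Crest.Agent.CPT.HF
import Crest.Agent.CPT.Sys
import Crest.Agent.CPT.TrOps
import Crest.Agent.CPT.EvalIso
import Crest.Agent.CPT.Iso
import Crest.Agent.CPT.Index

/-!
# Row 282: polynomial bounds on `tcSize` of values of plain terms, hereditary smallness
-/

noncomputable section
open Classical

namespace Crest.Agent.CPTL
open Crest.LogicCS.HFSet Crest.LogicCS.CPT

variable {σ : Type}

theorem pow_le_pow_of_le' {x a b : ℕ} (hx : 2 ≤ x) (h : a ≤ b) : x ^ a ≤ x ^ b :=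
  Nat.pow_le_pow_right (by omega) h

theorem pow_add_two_le {x : ℕ} (hx : 2 ≤ x) (a : ℕ) : x ^ a + 2 ≤ x ^ (a + 2) := by
  have h1 : 1 ≤ x ^ a := Nat.one_le_pow _ _ (by omega)
  have h2 : x ^ (a + 2) = x ^ a * (x * x) := by ring
  have h3 : 4 ≤ x * x := by nlinarith
  rw [h2]; nlinarith

theorem tcSize_atom {A : Type} (a : A) : tcSize (atom a : HF A) = 0 := by
  rw [tcSize_eq, tc_eq, members_atom]; simp

theorem tcSize_empty {A : Type} : tcSize (Crest.LogicCS.HFSet.empty : HF A) = 0 := by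
  rw [tcSize_eq, tc_eq, Crest.LogicCS.HFSet.empty, members_ofFinset]; simp

theorem itF_tcSize {A : Type} (p : ℕ) (s : HF A → HF A) (k : ℕ) (x : HF A) :
    tcSize (itF p s k x) ≤ p := by
  induction k generalizing x with
  | zero => rw [itF, tcSize_empty]; exact Nat.zero_le _
  | succ k ih =>
    rw [itF]
    split_ifs with h1 h2
    · exact h1
    · exact ih _
    · rw [tcSize_empty]; exact Nat.zero_le _

/-- the bound property for a term -/
def BD {n : ℕ} (t : Term σ n) (c : ℕ) : Prop :=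
  ∀ (A : Type) [Fintype A] (R : σ → A → A → Bool) (p P : ℕ) (e : Fin n → HF A),
    p ≤ P → Fintype.card A ≤ P → (∀ i, tcSize (e i) ≤ P) → tcSize (ev R p t e) ≤ (P + 2) ^ c

theorem BD.mono {n : ℕ} {t : Term σ n} {c c' : ℕ} (h : BD t c) (hc : c ≤ c') : BD t c' :=
  fun A _ R p P e h1 h2 h3 => (h A R p P e h1 h2 h3).trans (pow_le_pow_of_le' (by omega) hc)

theorem exists_BD : (∀ n (t : Term σ n), t.wscCount = 0 → ∃ c, BD t c) ∧
    (∀ n (φ : Formula σ n), φ.wscCount = 0 → True) := by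
  refine plain_induction ?_ ?_ ?_ ?_ ?_ ?_ ?_ ?_ ?_ ?_ ?_ ?_ ?_ ?_
  · intro n i
    refine ⟨1, fun A _ R p P e h1 h2 h3 => ?_⟩
    rw [ev_var, pow_one]; exact (h3 i).trans (by omega)
  · intro n
    refine ⟨0, fun A _ R p P e h1 h2 h3 => ?_⟩
    rw [ev_empty, tcSize_empty]; exact Nat.zero_le _
  · intro n
    refine ⟨1, fun A _ R p P e h1 h2 h3 => ?_⟩
    rw [ev_atoms, pow_one]
    have key := tcSize_image_le ((Finset.univ : Finset A).image atom) id 0 (by
      intro u hu
      rw [Finset.mem_image] at hu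
      obtain ⟨a, _, rfl⟩ := hu
      rw [id, tcSize_atom])
    rw [Finset.image_id] at key
    have h4 : ((Finset.univ : Finset A).image (atom : A → HF A)).card ≤ Fintype.card A :=
      Finset.card_image_le
    omega
  · intro n s t hs ht ⟨c1, h1⟩ ⟨c2, h2⟩
    refine ⟨c1 + c2 + 2, fun A _ R p P e hp hA he => ?_⟩
    rw [ev_pair hs ht]
    have e1 := h1 A R p P e hp hA he
    have e2 := h2 A R p P e hp hA he
    have e3 := pow_le_pow_of_le' (x := P + 2) (a := c1) (b := c1 + c2) (by omega) (by omega)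
    have e4 := pow_le_pow_of_le' (x := P + 2) (a := c2) (b := c1 + c2) (by omega) (by omega)
    have h1 : 1 ≤ (P + 2) ^ (c1 + c2) := Nat.one_le_pow _ _ (by omega)
    have h2 : (P + 2) ^ (c1 + c2 + 2) = (P + 2) ^ (c1 + c2) * ((P + 2) * (P + 2)) := by ring
    have h3 : 4 ≤ (P + 2) * (P + 2) := by nlinarith
    have h4 := tcSize_pair_le (ev R p s e) (ev R p t e)
    rw [h2]; nlinarith
  · intro n t ht ⟨c, h⟩
    refine ⟨c, fun A _ R p P e hp hA he => ?_⟩
    rw [ev_union ht]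
    exact (tcSize_union_le _).trans (h A R p P e hp hA he)
  · intro n t ht ⟨c, h⟩
    refine ⟨c, fun A _ R p P e hp hA he => ?_⟩
    rw [ev_theOnly ht]
    by_cases hh : ∃ y, members (ev R p t e) = {y}
    · obtain ⟨y, hy⟩ := hh
      rw [Sys.only_of_eq hy]
      have : y ∈ members (ev R p t e) := by rw [hy]; simp
      exact (tcSize_le_of_mem this).trans (h A R p P e hp hA he)
    · rw [Sys.only, dif_neg hh, tcSize_empty]; exact Nat.zero_le _
  · intro n t ht ⟨c, h⟩
    refine ⟨c, fun A _ R p P e hp hA he => ?_⟩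
    rw [ev_card ht, tcSize_ordinal]
    exact (card_members_le_tcSize _).trans (h A R p P e hp hA he)
  · intro n r g b hr hg hb ⟨cr, h1⟩ _ ⟨cb, h2⟩
    refine ⟨cr + (cr + 2) * cb + 1, fun A _ R p P e hp hA he => ?_⟩
    rw [ev_compr hr hg hb]
    have e1 := h1 A R p P e hp hA he
    have hP : P ≤ P + (P + 2) ^ cr := Nat.le_add_right _ _
    have hx1 : 1 ≤ (P + 2) ^ cr := Nat.one_le_pow _ _ (by omega)
    have hP2 : (P + (P + 2) ^ cr + 2) ≤ (P + 2) ^ (cr + 2) := by
      have h2 : (P + 2) ^ (cr + 2) = (P + 2) ^ cr * ((P + 2) * (P + 2)) := by ring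
      have h3 : 4 ≤ (P + 2) * (P + 2) := by nlinarith
      rw [h2]
      nlinarith
    have e2 : ∀ u ∈ (members (ev R p r e)).filter (fun u => evF R p g (Fin.cons u e)),
        tcSize (ev R p b (Fin.cons u e)) ≤ (P + 2) ^ ((cr + 2) * cb) := by
      intro u hu
      rw [Finset.mem_filter] at hu
      have := h2 A R p (P + (P + 2) ^ cr) (Fin.cons u e) (hp.trans hP) (hA.trans hP) (by
        intro i
        refine Fin.cases ?_ ?_ i
        · rw [Fin.cons_zero]
          exact (tcSize_le_of_mem hu.1).trans (e1.trans (Nat.le_add_left _ _))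
        · intro j; rw [Fin.cons_succ]; exact (he j).trans hP)
      refine this.trans ?_
      rw [pow_mul]
      exact Nat.pow_le_pow_left hP2 _
    refine (tcSize_image_le _ _ _ e2).trans ?_
    have e3 : ((members (ev R p r e)).filter (fun u => evF R p g (Fin.cons u e))).card ≤
        (P + 2) ^ cr :=
      (Finset.card_filter_le _ _).trans ((card_members_le_tcSize _).trans e1)
    have e4 : 1 ≤ (P + 2) ^ ((cr + 2) * cb) := Nat.one_le_pow _ _ (by omega)
    calc _ ≤ (P + 2) ^ cr * ((P + 2) ^ ((cr + 2) * cb) + 1) := Nat.mul_le_mul_right _ e3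
      _ ≤ (P + 2) ^ cr * ((P + 2) ^ ((cr + 2) * cb) * (P + 2)) := by
          apply Nat.mul_le_mul_left; nlinarith
      _ = (P + 2) ^ (cr + (cr + 2) * cb + 1) := by ring
  · intro n s hs _
    refine ⟨1, fun A _ R p P e hp hA he => ?_⟩
    rw [ev_iter hs, pow_one]
    exact (itF_tcSize _ _ _ _).trans (by omega)
  all_goals intros; trivial

/-! ## hereditary smallness -/

theorem index_lemma' {V B : Type} [Fintype V] [Group B] [Fintype B] (hB : commutator B = ⊤)
    {X : Type} (ρ : (V → B) → X → X) (h1 : ∀ x, ρ 1 x = x)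
    (hm : ∀ g h x, ρ (g * h) x = ρ g (ρ h x)) (y : X) (S : Finset V) (T : Finset X)
    (hT : ∀ z : V → B, (∀ v ∈ S, z v = 1) → ρ z y ∈ T) :
    ∃ F : Finset V, (∀ v, v ∈ F ↔ (v ∉ S ∧ ∃ g : B, ρ (Pi.mulSingle v g) y ≠ y)) ∧
      F.card ≤ 2 * Nat.log 2 T.card :=
  ⟨_, fun v => by simp only [Finset.mem_filter, Finset.mem_univ, true_and],
    index_lemma hB ρ h1 hm y S T hT⟩

section

variable {A V W B C : Type} [Fintype V] [Fintype W] [Group B] [Fintype B] [AddCommGroup C]
    [Fintype C] (𝒮 : Sys A V W B C)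

/-- support lemma for members of the transitive closure -/
theorem card_supp_sdiff_le {x y : HF A} (hy : y ∈ tc x) (S : Finset V) (hS : 𝒮.supp x ⊆ S) :
    (𝒮.supp y \ S).card ≤ 2 * Nat.log 2 (tcSize x) := by
  rw [tcSize_eq]
  obtain ⟨F, hF, hc⟩ := index_lemma' 𝒮.perfect 𝒮.ga 𝒮.ga_one 𝒮.ga_mul y S (tc x) (by
    intro z hz
    have h1 : 𝒮.ga z x = x := 𝒮.fix_of_supp x z fun v hv => hz v (hS hv)
    have h2 : 𝒮.ga z y ∈ tc (𝒮.ga z x) := by
      rw [Sys.ga, tc_rename]; exact Finset.mem_image_of_mem _ hy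
    rwa [h1] at h2)
  refine le_trans (Finset.card_le_card ?_) hc
  intro v hv
  rw [Finset.mem_sdiff, Sys.supp, Finset.mem_filter] at hv
  exact (hF v).2 ⟨hv.2, hv.1.2⟩

theorem card_union_supp_le {x y : HF A} (hy : y ∈ tc x) (S : Finset V) (hS : 𝒮.supp x ⊆ S)
    {L : ℕ} (hL : tcSize x ≤ 2 ^ L) : (S ∪ 𝒮.supp y).card ≤ S.card + 2 * L := by
  have h1 := card_supp_sdiff_le 𝒮 hy S hS
  have h2 : Nat.log 2 (tcSize x) ≤ L := by
    calc Nat.log 2 (tcSize x) ≤ Nat.log 2 (2 ^ L) := Nat.log_mono_right hL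
      _ = L := Nat.log_pow (by norm_num) L
  have h3 : S ∪ 𝒮.supp y = S ∪ (𝒮.supp y \ S) := by simp
  rw [h3]
  exact (Finset.card_union_le _ _).trans (by omega)

theorem HS_of_tcSize {x : HF A} {S : Finset V} {L κ : ℕ} (hS : 𝒮.supp x ⊆ S)
    (hL : tcSize x ≤ 2 ^ L) (hκ : S.card + 2 * L ≤ κ) : 𝒮.HS κ x := by
  intro y hy
  rcases hy with rfl | hy
  · exact (Finset.card_le_card hS).trans (by omega)
  · exact (Finset.card_le_card Finset.subset_union_right).trans
      ((card_union_supp_le 𝒮 hy S hS hL).trans hκ)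

end

end Crest.Agent.CPTL
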