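import Mathlib
import Crest.Prelude.Def_HF
import Crest.Agent.CPT.HF
import Crest.Agent.CPT.Sys

/-!
# Row 282: interface of the concrete complex, the group `Bg` and the universe `U K`

* `Cplx V E W`: sites, edges, vertices, `kap v e` = coefficient of `e` in the boundary of `v`,
  `d e w` = coefficient of `w` in the boundary of `e`.
* `Topo K`: the topological facts (A1)-(A4) and the elimination order of the edges.
* `Bg`: perfect group of permutations of `Fin 6 × ZMod 3` commuting with the shift.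
* `U K`: the universe used for BOTH statements.
-/

noncomputable section
open Classical

namespace Crest.Agent.CPTL
open Crest.LogicCS.HFSet

structure Cplx (V E W : Type) [Fintype V] [Fintype E] [Fintype W] where
  kap : V → E → ZMod 3
  d : E → W → ZMod 3
  dkap : ∀ v w, ∑ e, d e w * kap v e = 0
  dsum : ∀ e, ∑ w, d e w = 0

variable {V E W : Type} [Fintype V] [Fintype E] [Fintype W]

/-- boundary of a chain -/
def Cplx.bd (K : Cplx V E W) : (E → ZMod 3) →+ (W → ZMod 3) where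
  toFun f := fun w => ∑ e, K.d e w * f e
  map_zero' := by funext w; simp
  map_add' f g := by funext w; simp [mul_add, Finset.sum_add_distrib]

/-- the site `v` touches the vertex `w` -/
def Cplx.At (K : Cplx V E W) (v : V) (w : W) : Prop := ∃ e, K.d e w ≠ 0 ∧ K.kap v e ≠ 0

structure Topo (K : Cplx V E W) where
  M : ℕ
  safe : Finset V → Set W
  Ch : Finset V → AddSubgroup (E → ZMod 3)
  safe_anti : ∀ {S S' : Finset V}, S ⊆ S' → safe S' ⊆ safe S
  Ch_anti : ∀ {S S' : Finset V}, S ⊆ S' → Ch S' ≤ Ch S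
  safe_ne : ∀ S : Finset V, S.card < M → (safe S).Nonempty
  path : ∀ (S : Finset V) (w w' : W), w ∈ safe S → w' ∈ safe S →
    ∃ g ∈ Ch S, K.bd g = Pi.single w' 1 - Pi.single w 1
  cyc : ∀ (S : Finset V) (g : E → ZMod 3), g ∈ Ch S → K.bd g = 0 →
    ∃ c : V → ZMod 3, (∀ v ∈ S, c v = 0) ∧ g = ∑ v, c v • K.kap v
  van : ∀ (S : Finset V) (g : E → ZMod 3) (e : E), g ∈ Ch S → g e ≠ 0 →
    ∃ v, v ∉ S ∧ K.kap v e ≠ 0
  safe_site : ∀ (S : Finset V) (w : W) (v : V), w ∈ safe S → v ∈ S → ¬ K.At v w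
  site_ne : ∀ w : W, ∃ v, K.At v w
  /-- elimination order of the edges (for S0426) -/
  key : E → ℕ
  key_prop : ∀ e, (∃ w, K.d e w ≠ 0) →
    (∃ v, K.kap v e ≠ 0 ∧ ∀ e', K.kap v e' ≠ 0 → e' ≠ e → key e < key e') ∨
    (∃ w, K.d e w ≠ 0 ∧ ∀ e', K.d e' w ≠ 0 → e' ≠ e → key e' < key e)

/-- local size bounds -/
structure LocBd (K : Cplx V E W) : Prop where
  hVE : ∀ e, Fintype.card {v // K.kap v e ≠ 0} ≤ 12
  hVW : ∀ w, Fintype.card {v // K.At v w} ≤ 72
  hEW : ∀ w, Fintype.card {e // K.d e w ≠ 0} ≤ 6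

/-! ## the group -/

/-- the shift of `Fin 6 × ZMod 3` -/
def sh : Equiv.Perm (Fin 6 × ZMod 3) where
  toFun x := (x.1, x.2 + 1)
  invFun x := (x.1, x.2 - 1)
  left_inv x := by simp
  right_inv x := by simp

/-- generator `e_i - e_j`: add 1 on sheet `i`, subtract 1 on sheet `j` -/
def gen (i j : Fin 6) : Equiv.Perm (Fin 6 × ZMod 3) where
  toFun x := (x.1, x.2 + (if x.1 = i then 1 else 0) - (if x.1 = j then 1 else 0))
  invFun x := (x.1, x.2 - (if x.1 = i then 1 else 0) + (if x.1 = j then 1 else 0))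
  left_inv x := Prod.ext rfl (by simp only []; ring)
  right_inv x := Prod.ext rfl (by simp only []; ring)

/-- permutation of the sheets -/
def pm (s : Equiv.Perm (Fin 6)) : Equiv.Perm (Fin 6 × ZMod 3) where
  toFun x := (s x.1, x.2)
  invFun x := (s.symm x.1, x.2)
  left_inv x := by simp
  right_inv x := by simp

/-- the perfect group: generated by all `e_i - e_j` and all 3-cycles of sheets -/
def Bsub : Subgroup (Equiv.Perm (Fin 6 × ZMod 3)) :=
  Subgroup.closure ({g | ∃ i j, i ≠ j ∧ g = gen i j} ∪ {g | ∃ s : Equiv.Perm (Fin 6), s.IsThreeCycle ∧ g = pm s})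

abbrev Bg : Type := Bsub

/-! ## the universe -/

abbrev EA (K : Cplx V E W) : Type := Σ e : E, ({v // K.kap v e ≠ 0} → Fin 6) × ZMod 3

abbrev CA (K : Cplx V E W) : Type :=
  Σ w : W, ({v // K.At v w} → Fin 6) × ({e // K.d e w ≠ 0} → ZMod 3)

inductive Base (K : Cplx V E W) : Type
  | ed (x : EA K)
  | cf (x : CA K)
  | om (v : V) (i : Fin 6)
  | st (s : V ⊕ E)
  | vt (w : W)
  | gp (v : V) (h : Bg)

/-- The universe (atoms): base atoms and pair atoms (group atom, base atom). -/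
abbrev U (K : Cplx V E W) : Type := Base K ⊕ ((V × Bg) × Base K)

variable (K : Cplx V E W)

def actE (g : V → Bg) (x : EA K) : EA K :=
  ⟨x.1, fun v => ((g v.1).1 (x.2.1 v, 0)).1,
    x.2.2 + ∑ v : {v // K.kap v x.1 ≠ 0}, K.kap v.1 x.1 * ((g v.1).1 (x.2.1 v, 0)).2⟩

def actC (g : V → Bg) (x : CA K) : CA K :=
  ⟨x.1, fun v => ((g v.1).1 (x.2.1 v, 0)).1,
    fun e => x.2.2 e + ∑ v : {v // K.At v x.1}, K.kap v.1 e.1 * ((g v.1).1 (x.2.1 v, 0)).2⟩

def actB (g : V → Bg) : Base K → Base K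
  | .ed x => .ed (actE K g x)
  | .cf x => .cf (actC K g x)
  | .om v i => .om v ((g v).1 (i, 0)).1
  | .st s => .st s
  | .vt w => .vt w
  | .gp v h => .gp v (g v * h * (g v)⁻¹)

def actQ (g : V → Bg) (q : V × Bg) : V × Bg := (q.1, g q.1 * q.2 * (g q.1)⁻¹)

def actU (g : V → Bg) : U K → U K
  | .inl x => .inl (actB K g x)
  | .inr (q, x) => .inr (actQ g q, actB K g x)

def tauB (f : E → ZMod 3) : Base K → Base K
  | .ed ⟨e, i, a⟩ => .ed ⟨e, i, a + f e⟩
  | .cf ⟨w, i, a⟩ => .cf ⟨w, i, fun e => a e + f e.1⟩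
  | x => x

def tauU (f : E → ZMod 3) : U K → U K
  | .inl x => .inl (tauB K f x)
  | .inr (q, x) => .inr (q, tauB K f x)

end Crest.Agent.CPTL
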