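import Mathlib
import Crest.Agent.CPT.Cx

/-!
# Row 282: the concrete complex (3D grid cut open from the torus `(ZMod M)^3`)

* vertices `Pt M = Fin 3 → ZMod M`;
* edge `(j, q)` from `q` to `q + e_j`; phantom if `q j = -1` (boundary `0`);
* site `(l, p)`: plaquette normal to direction `l` based at `p`, spanned by `l+1`, `l+2`;
  phantom if `p (l+1) = -1` or `p (l+2) = -1` (boundary `0`).
-/

set_option linter.unusedSectionVars false
set_option linter.unusedSimpArgs false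

noncomputable section
open Classical

namespace Crest.Agent.CPTL
namespace Grid

abbrev Pt (M : ℕ) : Type := Fin 3 → ZMod M
abbrev St (M : ℕ) : Type := Fin 3 × (Fin 3 → ZMod M)

variable {M : ℕ} [NeZero M]

/-- unit vector -/
def ev (j : Fin 3) : Pt M := fun i => if i = j then 1 else 0

/-- boundary coefficients of the edges -/
def dd (e : St M) (w : Pt M) : ZMod 3 :=
  if e.2 e.1 = -1 then 0 else (if w = e.2 + ev e.1 then 1 else 0) - (if w = e.2 then 1 else 0)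

/-- the chain of one edge -/
def sg (j : Fin 3) (q : Pt M) : St M → ZMod 3 := fun e => if e = (j, q) then 1 else 0

/-- boundary of a plaquette -/
def kk (v : St M) : St M → ZMod 3 :=
  if v.2 (v.1 + 1) = -1 ∨ v.2 (v.1 + 2) = -1 then 0 else
    sg (v.1 + 1) v.2 + sg (v.1 + 2) (v.2 + ev (v.1 + 1)) - sg (v.1 + 1) (v.2 + ev (v.1 + 2))
      - sg (v.1 + 2) v.2

theorem sum_dd_sg (j : Fin 3) (q : Pt M) (w : Pt M) : ∑ e, dd e w * sg j q e = dd (j, q) w := by
  simp [sg]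

theorem ne12 (l : Fin 3) : l + 1 ≠ l + 2 := by
  revert l; decide

theorem ne21 (l : Fin 3) : l + 2 ≠ l + 1 := by
  revert l; decide

theorem nel1 (l : Fin 3) : l ≠ l + 1 := by
  revert l; decide

theorem nel2 (l : Fin 3) : l ≠ l + 2 := by
  revert l; decide

theorem ne1l (l : Fin 3) : l + 1 ≠ l := by
  revert l; decide

theorem ne2l (l : Fin 3) : l + 2 ≠ l := by
  revert l; decide

theorem ev_ne {i j : Fin 3} (h : i ≠ j) : (ev j : Pt M) i = 0 := by simp [ev, h]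

theorem ev_self (j : Fin 3) : (ev j : Pt M) j = 1 := by simp [ev]

theorem dkap (v : St M) (w : Pt M) : ∑ e, dd e w * kk v e = 0 := by
  obtain ⟨l, p⟩ := v
  by_cases h : p (l + 1) = -1 ∨ p (l + 2) = -1
  · simp [kk, h]
  · have e1 : ∑ e, dd e w * kk (l, p) e = dd (l + 1, p) w + dd (l + 2, p + ev (l + 1)) w
        - dd (l + 1, p + ev (l + 2)) w - dd (l + 2, p) w := by
      rw [← sum_dd_sg, ← sum_dd_sg, ← sum_dd_sg, ← sum_dd_sg, ← Finset.sum_add_distrib,
        ← Finset.sum_sub_distrib, ← Finset.sum_sub_distrib]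
      refine Finset.sum_congr rfl fun e _ => ?_
      simp only [kk, h, if_false, Pi.add_apply, Pi.sub_apply]
      ring
    rw [e1]
    push Not at h
    have h1 : (p + ev (l + 1) : Pt M) (l + 2) ≠ -1 := by
      simp only [Pi.add_apply, ev_ne (ne21 l), add_zero]; exact h.2
    have h2 : (p + ev (l + 2) : Pt M) (l + 1) ≠ -1 := by
      simp only [Pi.add_apply, ev_ne (ne12 l), add_zero]; exact h.1
    simp only [dd, h.1, h.2, h1, h2, if_false]
    rw [show p + ev (l + 2) + ev (l + 1) = p + ev (l + 1) + ev (l + 2) by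
      rw [add_assoc, add_assoc, add_comm (ev (l + 2))]]
    ring

theorem dsum (e : St M) : ∑ w, dd e w = 0 := by
  by_cases h : e.2 e.1 = -1
  · simp [dd, h]
  · simp [dd, h, Finset.sum_sub_distrib]

end Grid

open Grid

/-- the grid complex -/
def gridC (M : ℕ) [NeZero M] : Cplx (Fin 3 × (Fin 3 → ZMod M)) (Fin 3 × (Fin 3 → ZMod M))
    (Fin 3 → ZMod M) where
  kap := kk
  d := dd
  dkap := dkap
  dsum := dsum

namespace Grid

variable {M : ℕ} [NeZero M]

/-- the elementary potentials: the segment from coordinate `0` to coordinate `n` in direction `j` -/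
def up (j : Fin 3) (p : Pt M) (n : ℕ) : St M → ZMod 3 :=
  ∑ c ∈ Finset.range n, sg j (Function.update p j (c : ZMod M))

/-- the segment from `p` to `update p j b` -/
def seg (j : Fin 3) (p : Pt M) (b : ZMod M) : St M → ZMod 3 := up j p b.val - up j p (p j).val

/-- safe points -/
def safe (S : Finset (St M)) : Set (Pt M) := {w | ∀ v ∈ S, v.2 v.1 ≠ w v.1}

/-- chains spanned by segments between safe points -/
def Ch (S : Finset (St M)) : AddSubgroup (St M → ZMod 3) :=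
  AddSubgroup.closure {g | ∃ (j : Fin 3) (p : Pt M) (b : ZMod M), p ∈ safe S ∧
    Function.update p j b ∈ safe S ∧ g = seg j p b}

/-- the elimination order -/
def key (e : St M) : ℕ :=
  if e.1 = 0 then
    (if e.2 2 = 0 ∧ e.2 1 = 0 then M ^ 2 + 2 * M + (M - (e.2 0).val)
      else M ^ 2 - ((e.2 2).val * M + (e.2 1).val))
  else if e.1 = 1 then
    (if e.2 2 = 0 then M ^ 2 + M + (M - (e.2 1).val)
      else M ^ 2 - ((e.2 2).val * M + (e.2 1).val))
  else M ^ 2 + (M - (e.2 2).val)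

/-- edges of a plaquette -/
theorem kk_ne {v e : St M} (h : kk v e ≠ 0) :
    (v.2 (v.1 + 1) ≠ -1 ∧ v.2 (v.1 + 2) ≠ -1) ∧
    (e = (v.1 + 1, v.2) ∨ e = (v.1 + 2, v.2 + ev (v.1 + 1)) ∨ e = (v.1 + 1, v.2 + ev (v.1 + 2)) ∨
      e = (v.1 + 2, v.2)) := by
  by_cases hr : v.2 (v.1 + 1) = -1 ∨ v.2 (v.1 + 2) = -1
  · simp [kk, hr] at h
  · refine ⟨by push Not at hr; exact hr, ?_⟩
    by_contra hc
    push Not at hc
    apply h
    simp only [kk, hr, if_false, Pi.add_apply, Pi.sub_apply, sg, hc.1, hc.2.1, hc.2.2.1, hc.2.2.2]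
    simp

/-- endpoints of an edge -/
theorem dd_ne {e : St M} {w : Pt M} (h : dd e w ≠ 0) :
    e.2 e.1 ≠ -1 ∧ (w = e.2 + ev e.1 ∨ w = e.2) := by
  by_cases hr : e.2 e.1 = -1
  · simp [dd, hr] at h
  · refine ⟨hr, ?_⟩
    by_contra hc
    push Not at hc
    apply h
    simp only [dd, hr, if_false, hc.1, hc.2]
    simp

theorem ev_ne_zero (hM : 2 ≤ M) (j : Fin 3) : (ev j : Pt M) ≠ 0 := by
  have : Fact (1 < M) := ⟨hM⟩
  intro h
  have := congrFun h j
  rw [ev_self] at this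
  exact one_ne_zero this

theorem dd_tail (hM : 2 ≤ M) {e : St M} (h : e.2 e.1 ≠ -1) : dd e e.2 ≠ 0 := by
  have h1 : e.2 ≠ e.2 + ev e.1 := fun hh => ev_ne_zero hM e.1 (by
    have := hh.symm; rwa [add_eq_left] at this)
  simp [dd, h, ev_ne_zero hM]

theorem dd_head (hM : 2 ≤ M) {e : St M} (h : e.2 e.1 ≠ -1) : dd e (e.2 + ev e.1) ≠ 0 := by
  simp [dd, h, ev_ne_zero hM]

theorem kk_1 (hM : 2 ≤ M) {v : St M} (h1 : v.2 (v.1 + 1) ≠ -1) (h2 : v.2 (v.1 + 2) ≠ -1) :
    kk v (v.1 + 1, v.2) ≠ 0 := by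
  simp [kk, h1, h2, sg, ne12, ev_ne_zero hM]

theorem kk_2 (hM : 2 ≤ M) {v : St M} (h1 : v.2 (v.1 + 1) ≠ -1) (h2 : v.2 (v.1 + 2) ≠ -1) :
    kk v (v.1 + 2, v.2) ≠ 0 := by
  simp [kk, h1, h2, sg, ne12, ne21, ev_ne_zero hM]

theorem kk_3 (hM : 2 ≤ M) {v : St M} (h1 : v.2 (v.1 + 1) ≠ -1) (h2 : v.2 (v.1 + 2) ≠ -1) :
    kk v (v.1 + 1, v.2 + ev (v.1 + 2)) ≠ 0 := by
  simp [kk, h1, h2, sg, ne12, ne21, ev_ne_zero hM]

theorem kk_4 (hM : 2 ≤ M) {v : St M} (h1 : v.2 (v.1 + 1) ≠ -1) (h2 : v.2 (v.1 + 2) ≠ -1) :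
    kk v (v.1 + 2, v.2 + ev (v.1 + 1)) ≠ 0 := by
  simp [kk, h1, h2, sg, ne12, ne21, ev_ne_zero hM]

end Grid

end Crest.Agent.CPTL
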