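import Mathlib
import Crest.Agent.CPT.Grid

/-! # Row 282: local size bounds of the grid complex (chunk R282-GRID-LOC) -/

set_option linter.unusedSectionVars false
set_option linter.unusedSimpArgs false

noncomputable section
open Classical

namespace Crest.Agent.CPTL

namespace Grid

variable {M : ℕ} [NeZero M]

theorem loc_card_VE (e : St M) : (Finset.univ.filter fun v : St M => kk v e ≠ 0).card ≤ 12 := by
  let f : Fin 3 × Fin 4 → St M := fun x =>
    (x.1, ![e.2, e.2 - ev (x.1 + 1), e.2 - ev (x.1 + 2), e.2] x.2)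
  have hsub : (Finset.univ.filter fun v : St M => kk v e ≠ 0) ⊆ Finset.univ.image f := by
    intro v hv
    rw [Finset.mem_filter] at hv
    obtain ⟨-, h⟩ := kk_ne hv.2
    rw [Finset.mem_image]
    rcases h with h | h | h | h
    · refine ⟨(v.1, 0), Finset.mem_univ _, ?_⟩
      simp [f, h]
    · refine ⟨(v.1, 1), Finset.mem_univ _, ?_⟩
      simp [f, h]
    · refine ⟨(v.1, 2), Finset.mem_univ _, ?_⟩
      simp [f, h]
    · refine ⟨(v.1, 3), Finset.mem_univ _, ?_⟩
      simp [f, h]
  calc (Finset.univ.filter fun v : St M => kk v e ≠ 0).card ≤ (Finset.univ.image f).card :=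
        Finset.card_le_card hsub
    _ ≤ (Finset.univ : Finset (Fin 3 × Fin 4)).card := Finset.card_image_le
    _ = 12 := by simp

theorem loc_card_EW (w : Pt M) : (Finset.univ.filter fun e : St M => dd e w ≠ 0).card ≤ 6 := by
  let f : Fin 3 × Fin 2 → St M := fun x => (x.1, ![w, w - ev x.1] x.2)
  have hsub : (Finset.univ.filter fun e : St M => dd e w ≠ 0) ⊆ Finset.univ.image f := by
    intro e he
    rw [Finset.mem_filter] at he
    obtain ⟨-, h⟩ := dd_ne he.2
    rw [Finset.mem_image]
    rcases h with h | h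
    · refine ⟨(e.1, 1), Finset.mem_univ _, ?_⟩
      simp [f, h]
    · refine ⟨(e.1, 0), Finset.mem_univ _, ?_⟩
      simp [f, h]
  calc (Finset.univ.filter fun e : St M => dd e w ≠ 0).card ≤ (Finset.univ.image f).card :=
        Finset.card_le_card hsub
    _ ≤ (Finset.univ : Finset (Fin 3 × Fin 2)).card := Finset.card_image_le
    _ = 6 := by simp

end Grid

open Grid

/-- `gridC` has `kap = kk`, `d = dd`. For a fixed edge `e = (m,q)`: `kk (l,p) e ≠ 0` forces
`p ∈ {q, q - ev (l+1), q - ev (l+2)}` (`kk_ne`), so at most 9 sites; `dd e w ≠ 0` forces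
`e = (j, w)` or `e = (j, w - ev j)`, so at most 6 edges; `At` = union over the at most 6 edges at
`w` of the at most 12 sites. -/
theorem gridB (M : ℕ) [NeZero M] : LocBd (gridC M) := by
  refine ⟨fun e => ?_, fun w => ?_, fun w => ?_⟩
  · rw [Fintype.card_subtype]
    exact loc_card_VE e
  · rw [Fintype.card_subtype]
    have hsub : (Finset.univ.filter fun v : St M => (gridC M).At v w) ⊆
        (Finset.univ.filter fun e : St M => dd e w ≠ 0).biUnion
          (fun e => Finset.univ.filter fun v : St M => kk v e ≠ 0) := by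
      intro v hv
      rw [Finset.mem_filter] at hv
      obtain ⟨e, h1, h2⟩ := hv.2
      rw [Finset.mem_biUnion]
      exact ⟨e, Finset.mem_filter.mpr ⟨Finset.mem_univ _, h1⟩,
        Finset.mem_filter.mpr ⟨Finset.mem_univ _, h2⟩⟩
    calc (Finset.univ.filter fun v : St M => (gridC M).At v w).card ≤ _ :=
          Finset.card_le_card hsub
      _ ≤ (Finset.univ.filter fun e : St M => dd e w ≠ 0).card * 12 :=
          Finset.card_biUnion_le_card_mul _ _ _ fun e _ => loc_card_VE e
      _ ≤ 6 * 12 := Nat.mul_le_mul_right _ (loc_card_EW w)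
      _ = 72 := by norm_num
  · rw [Fintype.card_subtype]
    exact loc_card_EW w

end Crest.Agent.CPTL
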