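import Mathlib
import Crest.Agent.CPT.Grid

/-! # Row 282: cycles of safe chains are spanned by good plaquettes (A3) -/

set_option linter.unusedSectionVars false
set_option linter.unusedSimpArgs false

noncomputable section
open Classical

namespace Crest.Agent.CPTL
namespace Grid

open Function

variable {M : ℕ} [NeZero M]

theorem cast_ne_neg_one {n : ℕ} (h : n + 1 < M) : ((n : ℕ) : ZMod M) ≠ -1 := by
  intro hh
  have h2 : ((n + 1 : ℕ) : ZMod M) = 0 := by push_cast; rw [hh]; ring
  rw [ZMod.natCast_eq_zero_iff] at h2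
  exact absurd (Nat.le_of_dvd (by omega) h2) (by omega)

theorem update_add_ev (p : Pt M) (j : Fin 3) (a : ZMod M) :
    update p j a + ev j = update p j (a + 1) := by
  funext i
  by_cases h : i = j
  · subst h; simp [ev]
  · simp [ev, h]

theorem up_zero (j : Fin 3) (p : Pt M) : up j p 0 = 0 := by simp [up]

theorem up_succ (j : Fin 3) (p : Pt M) (n : ℕ) :
    up j p (n + 1) = up j p n + sg j (update p j (n : ZMod M)) := Finset.sum_range_succ _ _

theorem up_update (j : Fin 3) (p : Pt M) (a : ZMod M) (n : ℕ) :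
    up j (update p j a) n = up j p n := by simp [up]

theorem bd_up (j : Fin 3) (p : Pt M) (n : ℕ) (hn : n < M) (w : Pt M) :
    ∑ e, dd e w * up j p n e =
      (if w = update p j (n : ZMod M) then 1 else 0) - (if w = update p j 0 then 1 else 0) := by
  induction n with
  | zero => simp [up]
  | succ n ih =>
    have h1 := ih (by omega)
    rw [up_succ]
    simp only [Pi.add_apply, mul_add, Finset.sum_add_distrib, h1, sum_dd_sg]
    rw [dd]
    simp only [update_self, if_neg (cast_ne_neg_one hn), update_add_ev]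
    push_cast
    ring

theorem bd_seg (j : Fin 3) (p : Pt M) (b : ZMod M) (w : Pt M) :
    ∑ e, dd e w * seg j p b e =
      (if w = update p j b then 1 else 0) - (if w = p then 1 else 0) := by
  simp only [seg, Pi.sub_apply, mul_sub, Finset.sum_sub_distrib]
  rw [bd_up _ _ _ (ZMod.val_lt _), bd_up _ _ _ (ZMod.val_lt _)]
  simp

/-- a point of the plane normal to `l` -/
def pt (l : Fin 3) (p : Pt M) (x y : ZMod M) : Pt M := update (update p (l + 1) x) (l + 2) y

theorem pt_comm (l : Fin 3) (p : Pt M) (x y : ZMod M) :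
    update (update p (l + 2) y) (l + 1) x = pt l p x y := by
  rw [pt, update_comm (ne12 l)]

theorem pt_l (l : Fin 3) (p : Pt M) (x y : ZMod M) : pt l p x y l = p l := by
  simp [pt, nel1, nel2]

theorem kk_pt (l : Fin 3) (p : Pt M) {a b : ℕ} (ha : a + 1 < M) (hb : b + 1 < M) :
    kk (l, pt l p (a : ZMod M) (b : ZMod M)) =
      sg (l + 1) (pt l p (a : ZMod M) (b : ZMod M)) + sg (l + 2) (pt l p ((a + 1 : ℕ) : ZMod M) (b : ZMod M))
      - sg (l + 1) (pt l p (a : ZMod M) ((b + 1 : ℕ) : ZMod M)) - sg (l + 2) (pt l p (a : ZMod M) (b : ZMod M)) := by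
  have h1 : pt l p (a : ZMod M) (b : ZMod M) (l + 1) = (a : ZMod M) := by
    simp [pt, ne12]
  have h2 : pt l p (a : ZMod M) (b : ZMod M) (l + 2) = (b : ZMod M) := by
    simp [pt]
  have h3 : pt l p (a : ZMod M) (b : ZMod M) + ev (l + 1) = pt l p ((a + 1 : ℕ) : ZMod M) (b : ZMod M) := by
    rw [← pt_comm, ← pt_comm, update_add_ev]; push_cast; rfl
  have h4 : pt l p (a : ZMod M) (b : ZMod M) + ev (l + 2) = pt l p (a : ZMod M) ((b + 1 : ℕ) : ZMod M) := by
    rw [pt, pt, update_add_ev]; push_cast; rfl
  have h5 : ¬ ((pt l p (a : ZMod M) (b : ZMod M)) (l + 1) = -1 ∨ (pt l p (a : ZMod M) (b : ZMod M)) (l + 2) = -1) := by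
    rw [h1, h2]
    rintro (h | h)
    · exact cast_ne_neg_one ha h
    · exact cast_ne_neg_one hb h
  simp only [kk, if_neg h5, h3, h4]

theorem strip (l : Fin 3) (p : Pt M) {a : ℕ} (ha : a + 1 < M) (b : ℕ) (hb : b < M) :
    ∑ i ∈ Finset.range b, kk (l, pt l p (a : ZMod M) (i : ZMod M)) =
      sg (l + 1) (pt l p (a : ZMod M) 0) + up (l + 2) (update p (l + 1) ((a + 1 : ℕ) : ZMod M)) b
      - sg (l + 1) (pt l p (a : ZMod M) (b : ZMod M)) - up (l + 2) (update p (l + 1) (a : ZMod M)) b := by
  induction b with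
  | zero => simp [up_zero]
  | succ b ih =>
    rw [Finset.sum_range_succ, ih (by omega), kk_pt l p ha hb, up_succ, up_succ]
    simp only [pt]
    abel

theorem rect_eq (l : Fin 3) (p : Pt M) (a b : ℕ) (ha : a < M) (hb : b < M) :
    ∑ i ∈ Finset.range a, ∑ i' ∈ Finset.range b, kk (l, pt l p (i : ZMod M) (i' : ZMod M)) =
      up (l + 1) (update p (l + 2) 0) a + up (l + 2) (update p (l + 1) (a : ZMod M)) b
      - up (l + 1) (update p (l + 2) (b : ZMod M)) a - up (l + 2) (update p (l + 1) 0) b := by
  induction a with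
  | zero => simp [up_zero]
  | succ a ih =>
    rw [Finset.sum_range_succ, ih (by omega), strip l p ha b hb, up_succ, up_succ, pt_comm, pt_comm]
    abel

/-- span of the plaquettes outside `S` -/
def Kp (S : Finset (St M)) : AddSubgroup (St M → ZMod 3) where
  carrier := {g | ∃ c : St M → ZMod 3, (∀ v ∈ S, c v = 0) ∧ g = ∑ v, c v • kk v}
  zero_mem' := ⟨0, fun _ _ => rfl, by simp⟩
  add_mem' := by
    rintro _ _ ⟨c, hc, rfl⟩ ⟨c', hc', rfl⟩
    refine ⟨c + c', fun v hv => by simp [hc v hv, hc' v hv], ?_⟩
    simp [add_smul, Finset.sum_add_distrib]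
  neg_mem' := by
    rintro _ ⟨c, hc, rfl⟩
    refine ⟨-c, fun v hv => by simp [hc v hv], ?_⟩
    simp [neg_smul]

theorem kk_mem {S : Finset (St M)} {v : St M} (hv : v ∉ S) : kk v ∈ Kp S := by
  refine ⟨fun v' => if v' = v then 1 else 0, fun v' hv' => ?_, ?_⟩
  · have : v' ≠ v := by rintro rfl; exact hv hv'
    simp [this]
  · simp

/-- the coordinate `x` is good in direction `l` -/
def Good (S : Finset (St M)) (l : Fin 3) (x : ZMod M) : Prop := ∀ v ∈ S, v.1 = l → v.2 l ≠ x

theorem good_of_safe {S : Finset (St M)} {w : Pt M} (h : w ∈ safe S) (l : Fin 3) : Good S l (w l) := by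
  intro v hv hl
  have := h v hv
  rwa [hl] at this

theorem rect_mem {S : Finset (St M)} (l : Fin 3) (p : Pt M) (hg : Good S l (p l)) (a b : ZMod M) :
    up (l + 1) (update p (l + 2) 0) a.val + up (l + 2) (update p (l + 1) a) b.val
      - up (l + 1) (update p (l + 2) b) a.val - up (l + 2) (update p (l + 1) 0) b.val ∈ Kp S := by
  have h := rect_eq l p a.val b.val (ZMod.val_lt _) (ZMod.val_lt _)
  simp only [ZMod.natCast_val, ZMod.cast_id', id] at h
  rw [← h]
  refine AddSubgroup.sum_mem _ fun i _ => AddSubgroup.sum_mem _ fun i' _ => kk_mem fun hS => ?_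
  exact hg _ hS rfl (pt_l l p _ _)

/-- canonical path from `(0,0,c)` to `w` -/
def PP (c : ZMod M) (w : Pt M) : St M → ZMod 3 :=
  up 0 (update (update w 1 0) 2 c) (w 0).val + up 1 (update w 2 c) (w 1).val
    + up 2 w (w 2).val - up 2 w c.val

theorem seg_mem {S : Finset (St M)} {c : ZMod M} (hc : Good S 2 c) (j : Fin 3) (p : Pt M) (b : ZMod M)
    (hp : p ∈ safe S) : seg j p b - (PP c (update p j b) - PP c p) ∈ Kp S := by
  have hj : j = 0 ∨ j = 1 ∨ j = 2 := by revert j; decide
  rcases hj with rfl | rfl | rfl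
  · have r1 := fun x y => rect_mem (S := S) 1 p (good_of_safe hp 1) x y
    have r2 := fun x y => rect_mem (S := S) 2 (update p 2 c) (by simpa using hc) x y
    simp only [show (1 : Fin 3) + 1 = 2 from rfl, show (1 : Fin 3) + 2 = 0 from rfl,
      show (2 : Fin 3) + 1 = 0 from rfl, show (2 : Fin 3) + 2 = 1 from rfl] at r1 r2
    have m1 := AddSubgroup.sub_mem _ (AddSubgroup.sub_mem _ (r1 (p 2) b) (r1 c b))
      (AddSubgroup.sub_mem _ (r1 (p 2) (p 0)) (r1 c (p 0)))
    have m2 := AddSubgroup.sub_mem _ (r2 b (p 1)) (r2 (p 0) (p 1))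
    have m := AddSubgroup.sub_mem _ m1 m2
    convert m using 1
    have e1 : update (update (update p 0 b) 1 0) 2 c = update (update (update p 2 c) 1 0) 0 b := by
      funext i; fin_cases i <;> simp [update]
    have e2 : update (update p 1 0) 2 c = update (update p 2 c) 1 0 := by
      funext i; fin_cases i <;> simp [update]
    have e3 : update (update p 0 b) 2 c = update (update p 2 c) 0 b := by
      funext i; fin_cases i <;> simp [update]
    have e4 : update (update p 2 c) 1 (p 1) = update p 2 c := by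
      funext i; fin_cases i <;> simp [update]
    have e5 : update (update p 2 c) 0 (p 0) = update p 2 c := by
      funext i; fin_cases i <;> simp [update]
    have f0 : (update p 0 b) 0 = b := by simp
    have f1 : (update p 0 b) 1 = p 1 := by simp [update]
    have f2 : (update p 0 b) 2 = p 2 := by simp [update]
    simp only [seg, PP, e1, e2, e3, e4, e5, f0, f1, f2, update_eq_self, up_update]
    abel
  · have r1 := fun x y => rect_mem (S := S) 0 p (good_of_safe hp 0) x y
    simp only [show (0 : Fin 3) + 1 = 1 from rfl, show (0 : Fin 3) + 2 = 2 from rfl] at r1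
    have m := AddSubgroup.sub_mem _ (AddSubgroup.sub_mem _ (r1 b c) (r1 (p 1) c))
      (AddSubgroup.sub_mem _ (r1 b (p 2)) (r1 (p 1) (p 2)))
    convert m using 1
    have e1 : update (update (update p 1 b) 1 0) 2 c = update (update p 2 c) 1 0 := by
      funext i; fin_cases i <;> simp [update]
    have e2 : update (update p 1 0) 2 c = update (update p 2 c) 1 0 := by
      funext i; fin_cases i <;> simp [update]
    have e3 : update (update p 1 b) 2 c = update (update p 2 c) 1 b := by
      funext i; fin_cases i <;> simp [update]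
    have f0 : (update p 1 b) 0 = p 0 := by simp [update]
    have f1 : (update p 1 b) 1 = b := by simp [update]
    have f2 : (update p 1 b) 2 = p 2 := by simp [update]
    simp only [seg, PP, e1, e2, e3, f0, f1, f2, update_eq_self, up_update]
    abel
  · have e1 : update (update (update p 2 b) 1 0) 2 c = update (update p 1 0) 2 c := by
      funext i; fin_cases i <;> simp [update]
    have e3 : update (update p 2 b) 2 c = update p 2 c := by
      funext i; fin_cases i <;> simp [update]
    have f0 : (update p 2 b) 0 = p 0 := by simp [update]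
    have f1 : (update p 2 b) 1 = p 1 := by simp [update]
    have f2 : (update p 2 b) 2 = b := by simp [update]
    have : seg 2 p b - (PP c (update p 2 b) - PP c p) = 0 := by
      simp only [seg, PP, e1, e3, f0, f1, f2, update_eq_self, up_update]
      abel
    rw [this]
    exact AddSubgroup.zero_mem _

theorem cyc_aux {S : Finset (St M)} {c : ZMod M} (hc : Good S 2 c) (g : St M → ZMod 3) (hg : g ∈ Ch S) :
    g - ∑ w, (∑ e, dd e w * g e) • PP c w ∈ Kp S := by
  induction hg using AddSubgroup.closure_induction with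
  | mem x hx =>
    obtain ⟨j, p, b, hp, hp', rfl⟩ := hx
    have h := seg_mem hc j p b hp
    convert h using 2
    simp only [bd_seg, sub_smul, ite_smul, one_smul, zero_smul, Finset.sum_sub_distrib,
      Finset.sum_ite_eq', Finset.mem_univ, if_true]
  | zero => simp
  | add x y hx hy ihx ihy =>
    have h := AddSubgroup.add_mem _ ihx ihy
    convert h using 1
    simp only [Pi.add_apply, mul_add, Finset.sum_add_distrib, add_smul]
    abel
  | neg x hx ih =>
    have h := AddSubgroup.neg_mem _ ih
    convert h using 1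
    simp only [Pi.neg_apply, mul_neg, Finset.sum_neg_distrib, neg_smul]
    abel

/-- (A3) -/
theorem cyc (S : Finset (St M)) (g : St M → ZMod 3) (hg : g ∈ Ch S)
    (h0 : ∀ w, ∑ e, dd e w * g e = 0) :
    ∃ c : St M → ZMod 3, (∀ v ∈ S, c v = 0) ∧ g = ∑ v, c v • kk v := by
  by_cases hs : (safe S).Nonempty
  · obtain ⟨w, hw⟩ := hs
    have h := cyc_aux (good_of_safe hw 2) g hg
    simp only [h0, zero_smul, Finset.sum_const_zero, sub_zero] at h
    exact h
  · have : Ch S = ⊥ := by
      rw [Ch]
      convert AddSubgroup.closure_empty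
      ext g
      simp only [Set.mem_ofPred_eq, Set.mem_empty_iff_false, iff_false]
      rintro ⟨j, p, b, hp, -⟩
      exact hs ⟨p, hp⟩
    rw [this, AddSubgroup.mem_bot] at hg
    exact ⟨0, fun _ _ => rfl, by simp [hg]⟩

end Grid
end Crest.Agent.CPTL
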