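import Mathlib
import Crest.Agent.CPT.Grid

/-! # Row 282: the elimination order of the edges (chunk R282-GRID-KEY) -/

set_option linter.unusedSectionVars false
set_option linter.unusedSimpArgs false

noncomputable section
open Classical

namespace Crest.Agent.CPTL
namespace Grid

variable {M : ℕ} [NeZero M]

/-- coordinates: the value after one step forward / backward -/
theorem val_add_one' (hM : 2 ≤ M) {a : ZMod M} (h : a ≠ -1) : (a + 1).val = a.val + 1 := by
  have h1 := ZMod.val_lt a
  have hF : Fact (1 < M) := ⟨hM⟩
  have hone : (1 : ZMod M).val = 1 := ZMod.val_one M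
  by_cases h2 : a.val + 1 < M
  · rw [ZMod.val_add_of_lt (by rw [hone]; exact h2), hone]
  · exfalso
    apply h
    have h3 : a.val + 1 = M := by omega
    have h4 : ((a.val + 1 : ℕ) : ZMod M) = 0 := by rw [h3]; exact ZMod.natCast_self M
    rw [Nat.cast_add, ZMod.natCast_zmod_val, Nat.cast_one] at h4
    exact eq_neg_of_add_eq_zero_left h4

theorem val_sub_one' (hM : 2 ≤ M) {a : ZMod M} (h : a ≠ 0) : (a - 1).val + 1 = a.val := by
  have h1 : a - 1 ≠ -1 := by
    intro h2
    apply h
    have := congrArg (· + 1) h2
    simpa using this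
  have h2 := val_add_one' hM h1
  rw [sub_add_cancel] at h2
  exact h2.symm

theorem GK_bound (z y : ZMod M) : z.val * M + y.val + 1 ≤ M ^ 2 := by
  have h1 := ZMod.val_lt z
  have h2 := ZMod.val_lt y
  have h3 : (z.val + 1) * M ≤ M * M := Nat.mul_le_mul_right _ h1
  have h4 : (z.val + 1) * M = z.val * M + M := by ring
  have h5 : M ^ 2 = M * M := by ring
  omega

theorem GK_key0a (q : Pt M) (h : ¬ (q 2 = 0 ∧ q 1 = 0)) :
    key ((0, q) : St M) + ((q 2).val * M + (q 1).val) = M ^ 2 := by
  have := GK_bound (q 2) (q 1)
  simp only [key, if_true, h, if_false]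
  omega

theorem GK_key1a (q : Pt M) (h : q 2 ≠ 0) :
    key ((1, q) : St M) + ((q 2).val * M + (q 1).val) = M ^ 2 := by
  have := GK_bound (q 2) (q 1)
  simp only [key, one_ne_zero, if_true, h, if_false]
  omega

theorem GK_key0b (q : Pt M) (h : q 2 = 0 ∧ q 1 = 0) :
    key ((0, q) : St M) + (q 0).val = M ^ 2 + 3 * M := by
  have := ZMod.val_lt (q 0)
  simp only [key, if_true, h, and_self]
  omega

theorem GK_key1b (q : Pt M) (h : q 2 = 0) :
    key ((1, q) : St M) + (q 1).val = M ^ 2 + 2 * M := by
  have := ZMod.val_lt (q 1)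
  simp only [key, one_ne_zero, if_true, h, if_false]
  omega

theorem GK_key2 (q : Pt M) :
    key ((2, q) : St M) + (q 2).val = M ^ 2 + M := by
  have := ZMod.val_lt (q 2)
  have h1 : (2 : Fin 3) ≠ 0 := by decide
  have h2 : (2 : Fin 3) ≠ 1 := by decide
  simp only [key, h1, h2, if_false]
  omega

theorem GK_sub (q : Pt M) (i : Fin 3) : q - ev i + ev i = q := sub_add_cancel _ _

theorem GK_cases (j : Fin 3) : j = 0 ∨ j = 1 ∨ j = 2 := by revert j; decide

theorem GK_ne (_hM : 2 ≤ M) {a : ZMod M} (h : a ≠ 0) : a - 1 ≠ -1 := by
  intro h2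
  apply h
  have := congrArg (· + 1) h2
  simpa using this

/-- `x`- and `y`-edges with `z > 0` and `x`-edges with `z = 0`, `y > 0`: the plaquette below
(resp. towards `y - 1`); all other real edges: the far endpoint `e.2 + ev e.1`. -/
theorem key_prop (hM : 2 ≤ M) (e : St M) (he : ∃ w, dd e w ≠ 0) :
    (∃ v, kk v e ≠ 0 ∧ ∀ e', kk v e' ≠ 0 → e' ≠ e → key e < key e') ∨
    (∃ w, dd e w ≠ 0 ∧ ∀ e', dd e' w ≠ 0 → e' ≠ e → key e' < key e) := by
  obtain ⟨w0, hw0⟩ := he
  obtain ⟨hreal, -⟩ := dd_ne hw0
  obtain ⟨j, q⟩ := e
  simp only at hreal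
  have hj := GK_cases j
  rcases hj with rfl | rfl | rfl
  · -- x-edges
    by_cases hz : q 2 = 0
    · by_cases hy : q 1 = 0
      · -- far endpoint
        right
        refine ⟨q + ev 0, dd_head hM hreal, ?_⟩
        rintro ⟨i, p⟩ he' hne
        obtain ⟨hr', hw⟩ := dd_ne he'
        simp only at hr' hw
        have hk := GK_key0b q ⟨hz, hy⟩
        have hv := ZMod.val_lt (q 0)
        have hi := GK_cases i
        have hp : p = q + ev 0 - ev i ∨ p = q + ev 0 := by
          rcases hw with hw | hw
          · left; rw [hw]; exact (add_sub_cancel_right _ _).symm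
          · right; exact hw.symm
        rcases hi with rfl | rfl | rfl
        · rcases hp with rfl | rfl
          · exfalso
            apply hne
            rw [add_sub_cancel_right]
          · have h2 := GK_key0b (q + ev 0) ⟨by simp [ev, hz], by simp [ev, hy]⟩
            have h3 : (q + ev 0 : Pt M) 0 = q 0 + 1 := by simp [ev]
            rw [h3, val_add_one' hM hreal] at h2
            omega
        · rcases hp with rfl | rfl
          · exfalso
            apply hr'
            simp [ev, hy]
          · have h2 := GK_key1b (q + ev 0) (by simp [ev, hz])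
            omega
        · rcases hp with rfl | rfl
          · exfalso
            apply hr'
            simp [ev, hz]
          · have h2 := GK_key2 (q + ev 0)
            omega
      · -- plaquette with normal 2
        left
        have h1 : (q - ev 1 : Pt M) 0 = q 0 := by simp [ev]
        have h2 : (q - ev 1 : Pt M) 1 = q 1 - 1 := by simp [ev]
        have h2' : (q - ev 1 : Pt M) 2 = q 2 := by simp [ev]
        have h3 : ((2 : Fin 3), (q - ev 1 : Pt M)).2 (((2 : Fin 3), (q - ev 1 : Pt M)).1 + 1) ≠ -1 := by
          show (q - ev 1 : Pt M) 0 ≠ -1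
          rw [h1]; exact hreal
        have h4 : ((2 : Fin 3), (q - ev 1 : Pt M)).2 (((2 : Fin 3), (q - ev 1 : Pt M)).1 + 2) ≠ -1 := by
          show (q - ev 1 : Pt M) 1 ≠ -1
          rw [h2]; exact GK_ne hM hy
        refine ⟨(2, q - ev 1), ?_, ?_⟩
        · have h5 := kk_3 hM h3 h4
          have h6 : ((((2 : Fin 3), (q - ev 1 : Pt M)).1 + 1, ((2 : Fin 3), (q - ev 1 : Pt M)).2 +
            ev (((2 : Fin 3), (q - ev 1 : Pt M)).1 + 2)) : St M) = (0, q) := by
            show ((0 : Fin 3), q - ev 1 + ev 1) = (0, q)
            rw [GK_sub]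
          rw [h6] at h5
          exact h5
        · intro e' he' hne
          obtain ⟨-, h5⟩ := kk_ne he'
          have hk := GK_key0a q (fun h => hy h.2)
          have hys := val_sub_one' hM hy
          rcases h5 with rfl | rfl | rfl | rfl
          · change key ((0, q) : St M) < key ((0, q - ev 1) : St M)
            by_cases h6 : (q - ev 1 : Pt M) 1 = 0
            · have h7 := GK_key0b (q - ev 1) ⟨by rw [h2', hz], h6⟩
              have h8 := ZMod.val_lt ((q - ev 1 : Pt M) 0)
              omega
            · have h7 := GK_key0a (q - ev 1) (fun h => h6 h.2)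
              rw [h2, h2'] at h7
              omega
          · change key ((0, q) : St M) < key ((1, q - ev 1 + ev 0) : St M)
            have h7 := GK_key1b (q - ev 1 + ev 0) (by simp [ev, hz])
            have h8 := ZMod.val_lt ((q - ev 1 + ev 0 : Pt M) 1)
            omega
          · exfalso
            apply hne
            show ((0 : Fin 3), q - ev 1 + ev 1) = (0, q)
            rw [GK_sub]
          · change key ((0, q) : St M) < key ((1, q - ev 1) : St M)
            have h7 := GK_key1b (q - ev 1) (by simp [ev, hz])
            have h8 := ZMod.val_lt ((q - ev 1 : Pt M) 1)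
            omega
    · -- plaquette with normal 1
      left
      have h1 : (q - ev 2 : Pt M) 0 = q 0 := by simp [ev]
      have h2 : (q - ev 2 : Pt M) 2 = q 2 - 1 := by simp [ev]
      have h2' : (q - ev 2 : Pt M) 1 = q 1 := by simp [ev]
      have h3 : ((1 : Fin 3), (q - ev 2 : Pt M)).2 (((1 : Fin 3), (q - ev 2 : Pt M)).1 + 1) ≠ -1 := by
        show (q - ev 2 : Pt M) 2 ≠ -1
        rw [h2]; exact GK_ne hM hz
      have h4 : ((1 : Fin 3), (q - ev 2 : Pt M)).2 (((1 : Fin 3), (q - ev 2 : Pt M)).1 + 2) ≠ -1 := by
        show (q - ev 2 : Pt M) 0 ≠ -1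
        rw [h1]; exact hreal
      refine ⟨(1, q - ev 2), ?_, ?_⟩
      · have h5 := kk_4 hM h3 h4
        have h6 : ((((1 : Fin 3), (q - ev 2 : Pt M)).1 + 2, ((1 : Fin 3), (q - ev 2 : Pt M)).2 +
          ev (((1 : Fin 3), (q - ev 2 : Pt M)).1 + 1)) : St M) = (0, q) := by
          show ((0 : Fin 3), q - ev 2 + ev 2) = (0, q)
          rw [GK_sub]
        rw [h6] at h5
        exact h5
      · intro e' he' hne
        obtain ⟨-, h5⟩ := kk_ne he'
        have hk := GK_key0a q (fun h => hz h.1)
        have hzs := val_sub_one' hM hz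
        have hmul : (q 2).val * M = (q 2 - 1).val * M + M := by rw [← hzs]; ring
        rcases h5 with rfl | rfl | rfl | rfl
        · change key ((0, q) : St M) < key ((2, q - ev 2) : St M)
          have h7 := GK_key2 (q - ev 2)
          have h8 := ZMod.val_lt ((q - ev 2 : Pt M) 2)
          omega
        · exfalso
          apply hne
          show ((0 : Fin 3), q - ev 2 + ev 2) = (0, q)
          rw [GK_sub]
        · change key ((0, q) : St M) < key ((2, q - ev 2 + ev 0) : St M)
          have h7 := GK_key2 (q - ev 2 + ev 0)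
          have h8 := ZMod.val_lt ((q - ev 2 + ev 0 : Pt M) 2)
          omega
        · change key ((0, q) : St M) < key ((0, q - ev 2) : St M)
          by_cases h6 : (q - ev 2 : Pt M) 2 = 0 ∧ (q - ev 2 : Pt M) 1 = 0
          · have h7 := GK_key0b (q - ev 2) h6
            have h8 := ZMod.val_lt ((q - ev 2 : Pt M) 0)
            omega
          · have h7 := GK_key0a (q - ev 2) h6
            rw [h2, h2'] at h7
            omega
  · -- y-edges
    by_cases hz : q 2 = 0
    · right
      refine ⟨q + ev 1, dd_head hM hreal, ?_⟩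
      rintro ⟨i, p⟩ he' hne
      obtain ⟨hr', hw⟩ := dd_ne he'
      simp only at hr' hw
      have hk := GK_key1b q hz
      have hv := ZMod.val_lt (q 1)
      have hi := GK_cases i
      have hp : p = q + ev 1 - ev i ∨ p = q + ev 1 := by
        rcases hw with hw | hw
        · left; rw [hw]; exact (add_sub_cancel_right _ _).symm
        · right; exact hw.symm
      have hne1 : q 1 + 1 ≠ 0 := fun h => hreal (eq_neg_of_add_eq_zero_left h)
      rcases hi with rfl | rfl | rfl
      · rcases hp with rfl | rfl
        · have h2 := GK_key0a (q + ev 1 - ev 0) (fun h => hne1 (by simpa [ev] using h.2))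
          omega
        · have h2 := GK_key0a (q + ev 1) (fun h => hne1 (by simpa [ev] using h.2))
          omega
      · rcases hp with rfl | rfl
        · exfalso
          apply hne
          rw [add_sub_cancel_right]
        · have h2 := GK_key1b (q + ev 1) (by simp [ev, hz])
          have h3 : (q + ev 1 : Pt M) 1 = q 1 + 1 := by simp [ev]
          rw [h3, val_add_one' hM hreal] at h2
          omega
      · rcases hp with rfl | rfl
        · exfalso
          apply hr'
          simp [ev, hz]
        · have h2 := GK_key2 (q + ev 1)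
          omega
    · -- plaquette with normal 0
      left
      have h1 : (q - ev 2 : Pt M) 1 = q 1 := by simp [ev]
      have h2 : (q - ev 2 : Pt M) 2 = q 2 - 1 := by simp [ev]
      have h3 : ((0 : Fin 3), (q - ev 2 : Pt M)).2 (((0 : Fin 3), (q - ev 2 : Pt M)).1 + 1) ≠ -1 := by
        show (q - ev 2 : Pt M) 1 ≠ -1
        rw [h1]; exact hreal
      have h4 : ((0 : Fin 3), (q - ev 2 : Pt M)).2 (((0 : Fin 3), (q - ev 2 : Pt M)).1 + 2) ≠ -1 := by
        show (q - ev 2 : Pt M) 2 ≠ -1
        rw [h2]; exact GK_ne hM hz
      refine ⟨(0, q - ev 2), ?_, ?_⟩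
      · have h5 := kk_3 hM h3 h4
        have h6 : ((((0 : Fin 3), (q - ev 2 : Pt M)).1 + 1, ((0 : Fin 3), (q - ev 2 : Pt M)).2 +
          ev (((0 : Fin 3), (q - ev 2 : Pt M)).1 + 2)) : St M) = (1, q) := by
          show ((1 : Fin 3), q - ev 2 + ev 2) = (1, q)
          rw [GK_sub]
        rw [h6] at h5
        exact h5
      · intro e' he' hne
        obtain ⟨-, h5⟩ := kk_ne he'
        have hk := GK_key1a q hz
        have hzs := val_sub_one' hM hz
        have hmul : (q 2).val * M = (q 2 - 1).val * M + M := by rw [← hzs]; ring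
        rcases h5 with rfl | rfl | rfl | rfl
        · change key ((1, q) : St M) < key ((1, q - ev 2) : St M)
          by_cases h6 : (q - ev 2 : Pt M) 2 = 0
          · have h7 := GK_key1b (q - ev 2) h6
            have h8 := ZMod.val_lt ((q - ev 2 : Pt M) 1)
            omega
          · have h7 := GK_key1a (q - ev 2) h6
            rw [h2, h1] at h7
            omega
        · change key ((1, q) : St M) < key ((2, q - ev 2 + ev 1) : St M)
          have h7 := GK_key2 (q - ev 2 + ev 1)
          have h8 := ZMod.val_lt ((q - ev 2 + ev 1 : Pt M) 2)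
          omega
        · exfalso
          apply hne
          show ((1 : Fin 3), q - ev 2 + ev 2) = (1, q)
          rw [GK_sub]
        · change key ((1, q) : St M) < key ((2, q - ev 2) : St M)
          have h7 := GK_key2 (q - ev 2)
          have h8 := ZMod.val_lt ((q - ev 2 : Pt M) 2)
          omega
  · -- z-edges
    right
    refine ⟨q + ev 2, dd_head hM hreal, ?_⟩
    rintro ⟨i, p⟩ he' hne
    obtain ⟨hr', hw⟩ := dd_ne he'
    simp only at hr' hw
    have hk := GK_key2 q
    have hv := ZMod.val_lt (q 2)
    have hi := GK_cases i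
    have hp : p = q + ev 2 - ev i ∨ p = q + ev 2 := by
      rcases hw with hw | hw
      · left; rw [hw]; exact (add_sub_cancel_right _ _).symm
      · right; exact hw.symm
    have hne1 : q 2 + 1 ≠ 0 := fun h => hreal (eq_neg_of_add_eq_zero_left h)
    rcases hi with rfl | rfl | rfl
    · rcases hp with rfl | rfl
      · have h2 := GK_key0a (q + ev 2 - ev 0) (fun h => hne1 (by simpa [ev] using h.1))
        omega
      · have h2 := GK_key0a (q + ev 2) (fun h => hne1 (by simpa [ev] using h.1))
        omega
    · rcases hp with rfl | rfl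
      · have h2 := GK_key1a (q + ev 2 - ev 1) (fun h => hne1 (by simpa [ev] using h))
        omega
      · have h2 := GK_key1a (q + ev 2) (fun h => hne1 (by simpa [ev] using h))
        omega
    · rcases hp with rfl | rfl
      · exfalso
        apply hne
        rw [add_sub_cancel_right]
      · have h2 := GK_key2 (q + ev 2)
        have h3 : (q + ev 2 : Pt M) 2 = q 2 + 1 := by simp [ev]
        rw [h3, val_add_one' hM hreal] at h2
        omega

end Grid
end Crest.Agent.CPTL
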