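import Mathlib
import Crest.Agent.CPT.GridCyc
import Crest.Agent.CPT.GridKey
import Crest.Agent.CPT.GridLoc

/-! # Row 282: the topology of the grid complex (A1)-(A4), `gridT` -/

set_option linter.unusedSectionVars false
set_option linter.unusedSimpArgs false

noncomputable section
open Classical

namespace Crest.Agent.CPTL
namespace Grid

open Function

variable {M : ℕ} [NeZero M]

theorem safe_iff {S : Finset (St M)} {w : Pt M} : w ∈ safe S ↔ ∀ l, Good S l (w l) := by
  constructor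
  · intro h l; exact good_of_safe h l
  · intro h v hv
    exact h v.1 v hv rfl

theorem safe_update {S : Finset (St M)} {w w' : Pt M} (h : w ∈ safe S) (h' : w' ∈ safe S) (j : Fin 3) :
    update w j (w' j) ∈ safe S := by
  rw [safe_iff] at *
  intro l
  by_cases hl : l = j
  · subst hl; simpa using h' l
  · simpa [hl] using h l

theorem seg_mem_Ch {S : Finset (St M)} {w w' : Pt M} (h : w ∈ safe S) (h' : w' ∈ safe S) (j : Fin 3) :
    seg j w (w' j) ∈ Ch S :=
  AddSubgroup.subset_closure ⟨j, w, w' j, h, safe_update h h' j, rfl⟩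

theorem path (S : Finset (St M)) (w w' : Pt M) (h : w ∈ safe S) (h' : w' ∈ safe S) :
    ∃ g ∈ Ch S, ∀ u, ∑ e, dd e u * g e = (if u = w' then 1 else 0) - (if u = w then 1 else 0) := by
  have h1 := safe_update h h' 0
  have h2 := safe_update h1 h' 1
  refine ⟨seg 0 w (w' 0) + seg 1 (update w 0 (w' 0)) (w' 1)
    + seg 2 (update (update w 0 (w' 0)) 1 (w' 1)) (w' 2),
    AddSubgroup.add_mem _ (AddSubgroup.add_mem _ (seg_mem_Ch h h' 0) (seg_mem_Ch h1 h' 1))
      (seg_mem_Ch h2 h' 2), fun u => ?_⟩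
  have e : update (update (update w 0 (w' 0)) 1 (w' 1)) 2 (w' 2) = w' := by
    funext i; fin_cases i <;> simp [update]
  simp only [Pi.add_apply, mul_add, Finset.sum_add_distrib, bd_seg, e]
  ring

theorem safe_anti {S S' : Finset (St M)} (h : S ⊆ S') : safe S' ⊆ safe S :=
  fun _ hw v hv => hw v (h hv)

theorem Ch_anti {S S' : Finset (St M)} (h : S ⊆ S') : Ch S' ≤ Ch S := by
  refine AddSubgroup.closure_mono ?_
  rintro g ⟨j, p, b, hp, hp', rfl⟩
  exact ⟨j, p, b, safe_anti h hp, safe_anti h hp', rfl⟩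

theorem safe_ne (S : Finset (St M)) (hS : S.card < M) : (safe S).Nonempty := by
  have key : ∀ l : Fin 3, ∃ x : ZMod M, Good S l x := by
    intro l
    by_contra hc
    push Not at hc
    have h1 : (Finset.univ : Finset (ZMod M)) ⊆ S.image fun v => v.2 l := by
      intro x _
      have := hc x
      unfold Good at this
      push Not at this
      obtain ⟨v, hv, _, hx⟩ := this
      exact Finset.mem_image.2 ⟨v, hv, hx⟩
    have h2 := (Finset.card_le_card h1).trans Finset.card_image_le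
    rw [Finset.card_univ, ZMod.card] at h2
    omega
  choose x hx using key
  exact ⟨x, safe_iff.2 hx⟩

theorem up_ne {j : Fin 3} {p : Pt M} {n : ℕ} (hn : n < M) {e : St M} (h : up j p n e ≠ 0) :
    ∃ c : ZMod M, c ≠ -1 ∧ e = (j, update p j c) := by
  rw [up, Finset.sum_apply] at h
  obtain ⟨c, hc, hce⟩ := Finset.exists_ne_zero_of_sum_ne_zero h
  rw [Finset.mem_range] at hc
  refine ⟨c, cast_ne_neg_one (by omega), ?_⟩
  by_contra hne
  exact hce (by simp [sg, hne])

theorem Ch_ne {S : Finset (St M)} {g : St M → ZMod 3} (hg : g ∈ Ch S) :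
    ∀ e, g e ≠ 0 → e.2 e.1 ≠ -1 ∧ ∀ l, l ≠ e.1 → Good S l (e.2 l) := by
  induction hg using AddSubgroup.closure_induction with
  | mem x hx =>
    obtain ⟨j, p, b, hp, hp', rfl⟩ := hx
    intro e he
    have : ∃ c : ZMod M, c ≠ -1 ∧ e = (j, update p j c) := by
      by_cases h1 : up j p b.val e = 0
      · refine up_ne (ZMod.val_lt (p j)) (e := e) fun h2 => he ?_
        simp only [seg, Pi.sub_apply, h1, h2, sub_zero]
      · exact up_ne (ZMod.val_lt b) h1
    obtain ⟨c, hc, rfl⟩ := this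
    refine ⟨by simpa using hc, fun l hl => ?_⟩
    have hl' : l ≠ j := hl
    have := good_of_safe hp l
    simpa [hl'] using this
  | zero => intro e he; exact absurd rfl he
  | add x y hx hy ihx ihy =>
    intro e he
    by_cases h1 : x e = 0
    · refine ihy e fun h2 => he ?_
      simp [h1, h2]
    · exact ihx e h1
  | neg x hx ih =>
    intro e he
    exact ih e fun h => he (by simp [h])

theorem exists_site (hM : 2 ≤ M) {e : St M} (he : e.2 e.1 ≠ -1) :
    ∃ v : St M, v.1 = e.1 + 1 ∧ v.2 (e.1 + 1) = e.2 (e.1 + 1) ∧ kk v e ≠ 0 := by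
  have : Fact (1 < M) := ⟨hM⟩
  obtain ⟨m, q⟩ := e
  have a1 : m + 1 + 1 = m + 2 := (by decide : ∀ m : Fin 3, m + 1 + 1 = m + 2) m
  have a2 : m + 1 + 2 = m := (by decide : ∀ m : Fin 3, m + 1 + 2 = m) m
  by_cases hk : q (m + 2) = -1
  · refine ⟨(m + 1, q - ev (m + 2)), rfl, ?_, ?_⟩
    · simp [ev, ne12]
    · have h1 : (q - ev (m + 2) : Pt M) (m + 1 + 1) ≠ -1 := by
        rw [a1]
        simp only [Pi.sub_apply, ev_self, hk]
        intro h
        have : (1 : ZMod M) = 0 := by linear_combination -h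
        exact one_ne_zero this
      have h2 : (q - ev (m + 2) : Pt M) (m + 1 + 2) ≠ -1 := by
        rw [a2]
        simp only [Pi.sub_apply, ev_ne (nel2 m), sub_zero]
        exact he
      have := kk_4 hM (v := (m + 1, q - ev (m + 2))) h1 h2
      simpa [a1, a2] using this
  · refine ⟨(m + 1, q), rfl, rfl, ?_⟩
    have := kk_2 hM (v := (m + 1, q)) (by rw [show ((m + 1, q) : St M).1 = m + 1 from rfl, a1]; exact hk)
      (by rw [show ((m + 1, q) : St M).1 = m + 1 from rfl, a2]; exact he)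
    simpa [a2] using this

theorem van (hM : 2 ≤ M) (S : Finset (St M)) (g : St M → ZMod 3) (e : St M) (hg : g ∈ Ch S) (he : g e ≠ 0) :
    ∃ v, v ∉ S ∧ kk v e ≠ 0 := by
  obtain ⟨h1, h2⟩ := Ch_ne hg e he
  obtain ⟨v, hv1, hv2, hv3⟩ := exists_site hM h1
  refine ⟨v, fun hS => ?_, hv3⟩
  exact h2 (e.1 + 1) (ne1l e.1) v hS hv1 hv2

theorem at_coord {v : St M} {w : Pt M} (h : ∃ e, dd e w ≠ 0 ∧ kk v e ≠ 0) : v.2 v.1 = w v.1 := by
  obtain ⟨e, h1, h2⟩ := h
  obtain ⟨-, h1⟩ := dd_ne h1
  obtain ⟨-, h2⟩ := kk_ne h2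
  obtain ⟨l, p⟩ := v
  rcases h2 with rfl | rfl | rfl | rfl <;> rcases h1 with rfl | rfl <;>
    simp [ev, nel1, nel2]

theorem safe_site (S : Finset (St M)) (w : Pt M) (v : St M) (hw : w ∈ safe S) (hv : v ∈ S) :
    ¬ ∃ e, dd e w ≠ 0 ∧ kk v e ≠ 0 := fun h => hw v hv (at_coord h)

theorem site_ne (hM : 2 ≤ M) (w : Pt M) : ∃ v : St M, ∃ e, dd e w ≠ 0 ∧ kk v e ≠ 0 := by
  have : Fact (1 < M) := ⟨hM⟩
  by_cases h : w 0 = -1
  · have h1 : (w - ev 0 : Pt M) 0 ≠ -1 := by
      simp only [Pi.sub_apply, ev_self, h]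
      intro h
      have : (1 : ZMod M) = 0 := by linear_combination -h
      exact one_ne_zero this
    obtain ⟨v, -, -, hv⟩ := exists_site hM (e := (0, w - ev 0)) h1
    refine ⟨v, (0, w - ev 0), ?_, hv⟩
    have := dd_head hM (e := (0, w - ev 0)) h1
    simpa using this
  · obtain ⟨v, -, -, hv⟩ := exists_site hM (e := (0, w)) h
    exact ⟨v, (0, w), dd_tail hM (e := (0, w)) h, hv⟩

end Grid

open Grid

/-- the topology of the grid complex -/
def gridT (M : ℕ) [NeZero M] (hM : 2 ≤ M) : Topo (gridC M) where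
  M := M
  safe := Grid.safe
  Ch := Grid.Ch
  safe_anti := Grid.safe_anti
  Ch_anti := Grid.Ch_anti
  safe_ne := Grid.safe_ne
  path := by
    intro S w w' hw hw'
    obtain ⟨g, hg, h⟩ := Grid.path S w w' hw hw'
    refine ⟨g, hg, ?_⟩
    funext u
    refine (h u).trans ?_
    simp only [Pi.sub_apply, Pi.single_apply]
    congr
  cyc := by
    intro S g hg h0
    exact Grid.cyc S g hg fun w => congrFun h0 w
  van := Grid.van hM
  safe_site := Grid.safe_site
  site_ne := Grid.site_ne hM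
  key := Grid.key
  key_prop := Grid.key_prop hM

theorem gridT_M (M : ℕ) [NeZero M] (hM : 2 ≤ M) : (gridT M hM).M = M := rfl

end Crest.Agent.CPTL
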