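import Crest.Agent.CPT.FMain
import Crest.Agent.CPT.GridTop
import Crest.Agent.CPT.GridLoc

/-!
# Row 282: the grid family, final form of S0425
-/

noncomputable section
open Classical

namespace Crest.Agent.CPTL
open Crest.LogicCS.HFSet Crest.LogicCS.CPT Crest.LogicCS.LinF3

theorem gridFam : GridFam := by
  intro M hM
  haveI : NeZero M := ⟨by omega⟩
  refine ⟨Fin 3 × (Fin 3 → ZMod M), Fin 3 × (Fin 3 → ZMod M), Fin 3 → ZMod M, inferInstance,
    inferInstance, inferInstance, gridC M, gridT M hM, gridT_M M hM, gridB M, ?_⟩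
  simp only [Fintype.card_prod, Fintype.card_fin, Fintype.card_pi, ZMod.card, Finset.prod_const,
    Finset.card_univ]
  ring_nf
  omega

theorem s0425_final :
    ¬ Definable (fun (A : Type) (_ : Fintype A) (R : Sym → A → A → Bool) => Consistent R) :=
  s0425_of gridFam

end Crest.Agent.CPTL
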