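import Crest.Agent.CPT.Cx

/-!
# Row 282: the universe is finite, of polynomial size (chunk R282-U4)
-/

noncomputable section
open Classical

namespace Crest.Agent.CPTL

variable {V E W : Type} [Fintype V] [Fintype E] [Fintype W] (K : Cplx V E W)

/-- the obvious equivalence -/
def baseEquiv : Base K ≃ (((EA K ⊕ CA K) ⊕ (V × Fin 6)) ⊕ (V ⊕ E)) ⊕ (W ⊕ (V × Bg)) where
  toFun
    | .ed x => .inl (.inl (.inl (.inl x)))
    | .cf x => .inl (.inl (.inl (.inr x)))
    | .om v i => .inl (.inl (.inr (v, i)))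
    | .st s => .inl (.inr s)
    | .vt w => .inr (.inl w)
    | .gp v h => .inr (.inr (v, h))
  invFun
    | .inl (.inl (.inl (.inl x))) => .ed x
    | .inl (.inl (.inl (.inr x))) => .cf x
    | .inl (.inl (.inr (v, i))) => .om v i
    | .inl (.inr s) => .st s
    | .inr (.inl w) => .vt w
    | .inr (.inr (v, h)) => .gp v h
  left_inv x := by cases x <;> rfl
  right_inv x := by rcases x with (((x | x) | x) | x) | (x | x) <;> rfl

instance fintypeBase : Fintype (Base K) := Fintype.ofEquiv _ (baseEquiv K).symm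

theorem card_EA_le (hK : LocBd K) : Fintype.card (EA K) ≤ Fintype.card E * (6 ^ 12 * 3) := by
  rw [Fintype.card_sigma]
  calc _ ≤ ∑ _e : E, (6 ^ 12 * 3) := by
        refine Finset.sum_le_sum fun e _ => ?_
        rw [Fintype.card_prod, Fintype.card_fun, Fintype.card_fin, ZMod.card]
        refine Nat.mul_le_mul_right _ (Nat.pow_le_pow_right (by norm_num) ?_)
        exact le_trans (le_of_eq (Fintype.card_congr (Equiv.refl _))) (hK.hVE e)
    _ = _ := by rw [Finset.sum_const, Finset.card_univ, smul_eq_mul]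

theorem card_CA_le (hK : LocBd K) : Fintype.card (CA K) ≤ Fintype.card W * (6 ^ 72 * 3 ^ 6) := by
  rw [Fintype.card_sigma]
  calc _ ≤ ∑ _w : W, (6 ^ 72 * 3 ^ 6) := by
        refine Finset.sum_le_sum fun w _ => ?_
        rw [Fintype.card_prod, Fintype.card_fun, Fintype.card_fun, Fintype.card_fin, ZMod.card]
        refine Nat.mul_le_mul (Nat.pow_le_pow_right (by norm_num) ?_)
          (Nat.pow_le_pow_right (by norm_num) ?_)
        · exact le_trans (le_of_eq (Fintype.card_congr (Equiv.refl _))) (hK.hVW w)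
        · exact le_trans (le_of_eq (Fintype.card_congr (Equiv.refl _))) (hK.hEW w)
    _ = _ := by rw [Finset.sum_const, Finset.card_univ, smul_eq_mul]

theorem card_Base_eq : Fintype.card (Base K) =
    Fintype.card (EA K) + Fintype.card (CA K) + Fintype.card V * 6 +
      (Fintype.card V + Fintype.card E) + (Fintype.card W + Fintype.card V * Fintype.card Bg) := by
  rw [Fintype.card_congr (baseEquiv K)]
  simp only [Fintype.card_sum, Fintype.card_prod, Fintype.card_fin]

/-- (U4) polynomial size; `c` may be any number (the same for all complexes), e.g. built from `6 ^ 12 * 3`,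
`6 ^ 72 * 3 ^ 6` and `Fintype.card Bg`.  (Do not let Lean evaluate these numbers: generalize them.) -/
theorem card_U_le : ∃ c : ℕ, ∀ (V E W : Type) [Fintype V] [Fintype E] [Fintype W] (K : Cplx V E W),
    LocBd K → Fintype.card (U K) ≤ c * (Fintype.card V + Fintype.card E + Fintype.card W + 1) ^ 2 := by
  obtain ⟨a, ha⟩ : ∃ a : ℕ, a = 6 ^ 12 * 3 := ⟨_, rfl⟩
  obtain ⟨b, hb⟩ : ∃ b : ℕ, b = 6 ^ 72 * 3 ^ 6 := ⟨_, rfl⟩
  obtain ⟨g, hg⟩ : ∃ g : ℕ, g = Fintype.card Bg := ⟨_, rfl⟩
  refine ⟨(1 + g) * (a + b + 8 + g), ?_⟩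
  intro V E W _ _ _ K hK
  have h1 := card_EA_le K hK
  have h2 := card_CA_le K hK
  have h3 := card_Base_eq K
  rw [← ha] at h1
  rw [← hb] at h2
  rw [← hg] at h3
  have h4 : Fintype.card (U K) = Fintype.card (Base K) +
      (Fintype.card V * g) * Fintype.card (Base K) := by
    rw [Fintype.card_sum, Fintype.card_prod, Fintype.card_prod, hg]
  clear ha hb hg
  rw [h4]
  generalize Fintype.card (U K) = u at *
  generalize Fintype.card (Base K) = m at *
  generalize Fintype.card (EA K) = x at *
  generalize Fintype.card (CA K) = y at *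
  generalize Fintype.card V = v at *
  generalize Fintype.card E = e at *
  generalize Fintype.card W = w at *
  obtain ⟨n, hn⟩ : ∃ n, n = v + e + w + 1 := ⟨_, rfl⟩
  rw [← hn]
  have hv : v ≤ n := by omega
  have he : e ≤ n := by omega
  have hw : w ≤ n := by omega
  have hn1 : 1 ≤ n := by omega
  have h5 : m ≤ (a + b + 8 + g) * n := by
    have e1 : e * a ≤ a * n := by rw [mul_comm]; exact Nat.mul_le_mul_left _ he
    have e2 : w * b ≤ b * n := by rw [mul_comm]; exact Nat.mul_le_mul_left _ hw
    have e3 : v * g ≤ g * n := by rw [mul_comm]; exact Nat.mul_le_mul_left _ hv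
    have e4 : (a + b + 8 + g) * n = a * n + b * n + 8 * n + g * n := by ring
    rw [e4, h3]
    omega
  calc m + v * g * m = (1 + v * g) * m := by ring
    _ ≤ (n + n * g) * ((a + b + 8 + g) * n) :=
        Nat.mul_le_mul (add_le_add hn1 (Nat.mul_le_mul_right _ hv)) h5
    _ = (1 + g) * (a + b + 8 + g) * n ^ 2 := by ring

end Crest.Agent.CPTL
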