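import Crest.Agent.CPT.FRel
import Crest.Agent.CPT.UnivC

/-!
# Row 282: S0425 from the grid complexes
-/

noncomputable section
open Classical

namespace Crest.Agent.CPTL
open Crest.LogicCS.HFSet Crest.LogicCS.CPT Crest.LogicCS.LinF3

/-- what is used of the grid complexes -/
def GridFam : Prop := ∀ M : ℕ, 2 ≤ M → ∃ (V E W : Type) (_ : Fintype V) (_ : Fintype E) (_ : Fintype W)
  (K : Cplx V E W) (T : Topo K), T.M = M ∧ LocBd K ∧
    Fintype.card V + Fintype.card E + Fintype.card W ≤ 7 * M ^ 3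

theorem exists_pow_gt (a b : ℕ) : ∃ t : ℕ, 1 ≤ t ∧ a * t + b < 2 ^ t := by
  set s := 2 * a + b + 2 with hs
  refine ⟨2 * s, by omega, ?_⟩
  have h8 : s + 1 ≤ 2 ^ s := Nat.lt_two_pow_self
  have h9 : (s + 1) * (s + 1) ≤ 2 ^ (2 * s) := by
    rw [two_mul, pow_add]; exact Nat.mul_le_mul h8 h8
  refine lt_of_lt_of_le ?_ h9
  have h10 : s * s = 2 * a * s + b * s + 2 * s := by
    conv_lhs => rw [hs]
    rw [← hs]; ring
  have h11 : b ≤ b * s := Nat.le_mul_of_pos_right b (by omega)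
  calc a * (2 * s) + b = 2 * a * s + b := by ring
    _ < 2 * a * s + b * s + 2 * s + (2 * s + 1) := by omega
    _ = (s + 1) * (s + 1) := by rw [← h10]; ring

/-- elementary growth: logarithms are small -/
theorem exists_big (c c' : ℕ) : ∃ M : ℕ, 2 ≤ M ∧
    ∀ n ≤ c' * (7 * M ^ 3 + 1) ^ 2, c * (Nat.log 2 (n + 2) + 1) < M := by
  obtain ⟨t, ht1, ht⟩ := exists_pow_gt (6 * c) (c * (c' + 9))
  refine ⟨2 ^ t, ?_, ?_⟩
  · calc 2 = 2 ^ 1 := rfl
      _ ≤ 2 ^ t := Nat.pow_le_pow_right (by norm_num) ht1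
  · intro n hn
    have hX : 1 ≤ (2 ^ t) ^ 3 := Nat.one_le_pow _ _ (Nat.one_le_two_pow)
    have h3 : (7 * (2 ^ t) ^ 3 + 1) ^ 2 ≤ 2 ^ (6 + 6 * t) := by
      calc (7 * (2 ^ t) ^ 3 + 1) ^ 2 ≤ (8 * (2 ^ t) ^ 3) ^ 2 := Nat.pow_le_pow_left (by omega) 2
        _ = 2 ^ (6 + 6 * t) := by
          rw [pow_add, pow_mul', mul_pow, ← pow_mul]
          norm_num
    have h4 : c' ≤ 2 ^ c' := Nat.lt_two_pow_self.le
    have h5 : n + 2 < 2 ^ (c' + 8 + 6 * t) := by
      have h6 : n ≤ 2 ^ c' * 2 ^ (6 + 6 * t) := le_trans hn (Nat.mul_le_mul h4 h3)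
      have h7 : 2 ^ (c' + 8 + 6 * t) = 4 * (2 ^ c' * 2 ^ (6 + 6 * t)) := by
        rw [← pow_add, show c' + 8 + 6 * t = (c' + (6 + 6 * t)) + 2 by ring, pow_add _ _ 2]
        ring
      have h8 : 1 ≤ 2 ^ c' * 2 ^ (6 + 6 * t) := Nat.mul_pos (by positivity) (by positivity)
      rw [h7]; omega
    have h6 : Nat.log 2 (n + 2) < c' + 8 + 6 * t := Nat.log_lt_of_lt_pow (by omega) h5
    calc c * (Nat.log 2 (n + 2) + 1) ≤ c * (c' + 9 + 6 * t) := Nat.mul_le_mul_left c (by omega)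
      _ = 6 * c * t + c * (c' + 9) := by ring
      _ < 2 ^ t := ht

theorem s0425_of (hgrid : GridFam) :
    ¬ Definable (fun (A : Type) (_ : Fintype A) (R : Sym → A → A → Bool) => Consistent R) := by
  rintro ⟨S, hS, hdef⟩
  obtain ⟨c, hc⟩ := no_plain S hS
  obtain ⟨c', hc'⟩ := card_U_le
  obtain ⟨M, hM2, hM⟩ := exists_big c c'
  obtain ⟨V, E, W, _, _, _, K, T, hTM, hL, hcard⟩ := hgrid M hM2
  have hcU := hc' V E W K hL
  have hn : Fintype.card (U K) ≤ c' * (7 * M ^ 3 + 1) ^ 2 :=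
    le_trans hcU (Nat.mul_le_mul_left _ (Nat.pow_le_pow_left (by omega) 2))
  have hlt := hM _ hn
  obtain ⟨w, hw⟩ := T.safe_ne ∅ (by rw [Finset.card_empty, hTM]; omega)
  have hval := hc (U K) V W Bg (E → ZMod 3) (univSys K T) (relF K T) 0 w hw
    (by show _ < T.M; rw [hTM]; exact hlt)
  have h0 : Consistent (FR K 0) := consistent_zero K
  have h1 : ¬ Consistent (FR K (0 + Pi.single w 1)) := not_consistent K T w
  apply h1
  have h2 := (hdef (U K) (FR K 0)).2 h0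
  have h3 : S.Holds (U K) (FR K (0 + Pi.single w 1)) := by
    unfold Sentence.Holds at h2 ⊢
    have h4 : S.value (U K) (FR K 0) = S.value (U K) (FR K (0 + Pi.single w 1)) := hval
    rw [← h4]; exact h2
  exact (hdef (U K) (FR K (0 + Pi.single w 1))).1 h3

end Crest.Agent.CPTL
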