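import Crest.Agent.CPT.Transfer

/-!
# Row 282: `Rel` and THE ABSTRACT THEOREM `no_plain` live in `CPT/Transfer.lean` (proved).
-/
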