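import Crest.Agent.CPT.UnivL

/-!
# Row 282: cycles act as group elements; atoms supported in `S` are fixed (chunk R282-U3)
-/

noncomputable section
open Classical

namespace Crest.Agent.CPTL

variable {V E W : Type} [Fintype V] [Fintype E] [Fintype W] (K : Cplx V E W)

theorem exists_ne_fin6 (i : Fin 6) : ∃ j : Fin 6, j ≠ i := by
  revert i; decide

/-- (U3.1) an edge atom fixed by everything trivial on `S`: all its sites are in `S` (`Bg_trans`) -/
theorem ed_fix (S : Finset V) (x : EA K)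
    (h : ∀ z : V → Bg, (∀ v ∈ S, z v = 1) → actE K z x = x) (v : V) (hv : K.kap v x.1 ≠ 0) : v ∈ S := by
  by_contra hvS
  obtain ⟨e, i, a⟩ := x
  obtain ⟨j, hj⟩ := exists_ne_fin6 (i ⟨v, hv⟩)
  obtain ⟨g, hg⟩ := Bg_trans (i ⟨v, hv⟩) j
  have hz : ∀ u ∈ S, (Function.update (1 : V → Bg) v g) u = 1 := by
    intro u hu
    have huv : u ≠ v := by
      rintro rfl
      exact hvS hu
    rw [Function.update_of_ne huv]
    rfl
  have h1 := h _ hz
  unfold actE at h1
  have h2 := eq_of_heq (Sigma.mk.inj h1).2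
  have h3 := congrFun (Prod.mk.inj h2).1 ⟨v, hv⟩
  have h4 : ((Function.update (1 : V → Bg) v g v).1 (i ⟨v, hv⟩, 0)).1 = i ⟨v, hv⟩ := h3
  rw [Function.update_self, hg] at h4
  exact hj h4

/-- (U3.2) the same for configurations -/
theorem cf_fix (S : Finset V) (x : CA K)
    (h : ∀ z : V → Bg, (∀ v ∈ S, z v = 1) → actC K z x = x) (v : V) (hv : K.At v x.1) : v ∈ S := by
  by_contra hvS
  obtain ⟨w, i, a⟩ := x
  obtain ⟨j, hj⟩ := exists_ne_fin6 (i ⟨v, hv⟩)
  obtain ⟨g, hg⟩ := Bg_trans (i ⟨v, hv⟩) j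
  have hz : ∀ u ∈ S, (Function.update (1 : V → Bg) v g) u = 1 := by
    intro u hu
    have huv : u ≠ v := by
      rintro rfl
      exact hvS hu
    rw [Function.update_of_ne huv]
    rfl
  have h1 := h _ hz
  unfold actC at h1
  have h2 := eq_of_heq (Sigma.mk.inj h1).2
  have h3 := congrFun (Prod.mk.inj h2).1 ⟨v, hv⟩
  have h4 : ((Function.update (1 : V → Bg) v g v).1 (i ⟨v, hv⟩, 0)).1 = i ⟨v, hv⟩ := h3
  rw [Function.update_self, hg] at h4
  exact hj h4

theorem fixA_base (T : Topo K) (S : Finset V) (b : Base K) (g : E → ZMod 3)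
    (h : ∀ z : V → Bg, (∀ v ∈ S, z v = 1) → actB K z b = b) (hg : g ∈ T.Ch S) : tauB K g b = b := by
  cases b with
  | ed x =>
    have hx : ∀ z : V → Bg, (∀ v ∈ S, z v = 1) → actE K z x = x := by
      intro z hz
      have := h z hz
      exact Base.ed.inj this
    have h0 : g x.1 = 0 := by
      by_contra hne
      obtain ⟨v, hvS, hk⟩ := T.van S g x.1 hg hne
      exact hvS (ed_fix K S x hx v hk)
    obtain ⟨e, i, a⟩ := x
    have h0' : g e = 0 := h0
    show Base.ed ⟨e, i, a + g e⟩ = _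
    rw [h0', add_zero]
  | cf x =>
    have hx : ∀ z : V → Bg, (∀ v ∈ S, z v = 1) → actC K z x = x := by
      intro z hz
      have := h z hz
      exact Base.cf.inj this
    obtain ⟨w, i, a⟩ := x
    have h0 : ∀ e : {e // K.d e w ≠ 0}, g e.1 = 0 := by
      intro e
      by_contra hne
      obtain ⟨v, hvS, hk⟩ := T.van S g e.1 hg hne
      exact hvS (cf_fix K S ⟨w, i, a⟩ hx v ⟨e.1, e.2, hk⟩)
    show Base.cf ⟨w, i, fun e => a e + g e.1⟩ = _
    have : (fun e : {e // K.d e w ≠ 0} => a e + g e.1) = a := by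
      funext e
      rw [h0 e, add_zero]
    rw [this]
  | om v i => rfl
  | st s => rfl
  | vt w => rfl
  | gp v h => rfl

/-- (U3.3) (A4): use `T.van`, `ed_fix`, `cf_fix`. -/
theorem fixA_U (T : Topo K) (S : Finset V) (a : U K) (g : E → ZMod 3)
    (h : ∀ z : V → Bg, (∀ v ∈ S, z v = 1) → actU K z a = a) (hg : g ∈ T.Ch S) : tauU K g a = a := by
  rcases a with b | ⟨q, b⟩
  · show Sum.inl (tauB K g b) = _
    rw [fixA_base K T S b g (fun z hz => Sum.inl.inj (h z hz)) hg]
  · show Sum.inr (q, tauB K g b) = _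
    rw [fixA_base K T S b g (fun z hz => (Prod.mk.inj (Sum.inr.inj (h z hz))).2) hg]

private theorem sum_sub_eq {p : V → Prop} {inst : Fintype {v // p v}} (f : V → ZMod 3)
    (h : ∀ v, ¬ p v → f v = 0) : ∑ v : {v // p v}, f v.1 = ∑ v, f v := by
  rw [← Fintype.sum_subtype_add_sum_subtype p f]
  have : ∑ i : {x // ¬ p x}, f i.1 = 0 := Finset.sum_eq_zero fun i _ => h i.1 i.2
  rw [this, add_zero]
  congr
  exact Subsingleton.elim _ _

private theorem shB_pow_zero (m : ZMod 3) (i : Fin 6) :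
    ((shB ^ m.val : Bg)).1 (i, 0) = (i, m) := by
  rw [shB_pow_apply, zero_add, ZMod.natCast_val, ZMod.cast_id]

private theorem shB_pow_conj (n : ℕ) (h : Bg) : shB ^ n * h * (shB ^ n)⁻¹ = h := by
  have hc : Commute (shB ^ n) h := (show Commute shB h from shB_comm h).pow_left n
  rw [hc.eq, mul_assoc, mul_inv_cancel, mul_one]

private theorem tauB_cyc (c : V → ZMod 3) (a : Base K) :
    tauB K (∑ v, c v • K.kap v) a = actB K (fun v => shB ^ (c v).val) a := by
  cases a with
  | ed x =>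
    obtain ⟨e, i, a⟩ := x
    change Base.ed ⟨e, i, a + (∑ v, c v • K.kap v) e⟩ = Base.ed (actE K _ ⟨e, i, a⟩)
    have h1 : actE K (fun v => shB ^ (c v).val) ⟨e, i, a⟩ =
        ⟨e, i, a + ∑ v : {v // K.kap v e ≠ 0}, K.kap v.1 e * c v.1⟩ := by
      unfold actE
      simp only [shB_pow_zero]
    have h2 : ∑ v : {v // K.kap v e ≠ 0}, K.kap v.1 e * c v.1 = (∑ v, c v • K.kap v) e := by
      rw [sum_sub_eq (p := fun v => K.kap v e ≠ 0) (fun v => K.kap v e * c v)
        (fun v hv => by rw [not_not.1 hv, zero_mul]), Finset.sum_apply]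
      refine Finset.sum_congr rfl fun v _ => ?_
      rw [Pi.smul_apply, smul_eq_mul, mul_comm]
    rw [h1, h2]
  | cf x =>
    obtain ⟨w, i, a⟩ := x
    change Base.cf ⟨w, i, fun e => a e + (∑ v, c v • K.kap v) e.1⟩ = Base.cf (actC K _ ⟨w, i, a⟩)
    have h1 : actC K (fun v => shB ^ (c v).val) ⟨w, i, a⟩ =
        ⟨w, i, fun e => a e + ∑ v : {v // K.At v w}, K.kap v.1 e.1 * c v.1⟩ := by
      unfold actC
      simp only [shB_pow_zero]
    have h2 : ∀ e : {e // K.d e w ≠ 0}, ∑ v : {v // K.At v w}, K.kap v.1 e.1 * c v.1 =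
        (∑ v, c v • K.kap v) e.1 := by
      intro e
      rw [sum_sub_eq (p := fun v => K.At v w) (fun v => K.kap v e.1 * c v)
        (fun v hv => by
          have : K.kap v e.1 = 0 := by
            by_contra h0
            exact hv ⟨e.1, e.2, h0⟩
          rw [this, zero_mul]), Finset.sum_apply]
      refine Finset.sum_congr rfl fun v _ => ?_
      rw [Pi.smul_apply, smul_eq_mul, mul_comm]
    rw [h1]
    simp only [h2]
  | om v i =>
    change Base.om v i = Base.om v ((shB ^ (c v).val : Bg).1 (i, 0)).1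
    rw [shB_pow_zero]
  | st s => rfl
  | vt w => rfl
  | gp v h =>
    change Base.gp v h = Base.gp v (shB ^ (c v).val * h * (shB ^ (c v).val)⁻¹)
    rw [shB_pow_conj]

/-- (U3.4) `τ` of a combination of plaquette boundaries acts as `z v = shB ^ (c v).val`. -/
theorem tau_cyc (c : V → ZMod 3) (a : U K) :
    tauU K (∑ v, c v • K.kap v) a = actU K (fun v => shB ^ (c v).val) a := by
  rcases a with x | ⟨⟨v, h⟩, x⟩
  · change Sum.inl _ = Sum.inl _
    rw [tauB_cyc]
  · change Sum.inr ((v, h), _) = Sum.inr ((v, shB ^ (c v).val * h * (shB ^ (c v).val)⁻¹), _)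
    rw [tauB_cyc, shB_pow_conj]

/-- The system of symmetries of the universe. -/
def univSys (T : Topo K) : Sys (U K) V W Bg (E → ZMod 3) where
  act := actU K
  act_one := actU_one K
  act_mul := actU_mul K
  tau := tauU K
  tau_zero := tauU_zero K
  tau_add := tauU_add K
  comm := actU_tauU K
  bd := K.bd
  safe := T.safe
  Ch := T.Ch
  M := T.M
  safe_anti := T.safe_anti
  Ch_anti := T.Ch_anti
  safe_ne := T.safe_ne
  path := T.path
  cyc := by
    intro S g hg hb
    obtain ⟨c, hc, rfl⟩ := T.cyc S g hg hb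
    refine ⟨fun v => shB ^ (c v).val, fun v hv => ?_, tau_cyc K c⟩
    show shB ^ (c v).val = 1
    rw [hc v hv, ZMod.val_zero, pow_zero]
  fixA := fun S a g h hg => fixA_U K T S a g h hg
  perfect := Bg_perfect

end Crest.Agent.CPTL
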