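import Crest.Prelude.Def_LinF3
import Crest.Agent.CPT.UnivM
import Crest.Agent.CPT.Main

/-!
# Row 282: the family of structures for S0425 (chunks R282-U5, U6, U7)
-/

noncomputable section
open Classical

namespace Crest.Agent.CPTL
open Crest.LogicCS.HFSet Crest.LogicCS.CPT Crest.LogicCS.LinF3

variable {V E W : Type} [Fintype V] [Fintype E] [Fintype W] (K : Cplx V E W)

/-- validity of a configuration at the charge `b` -/
def CA.valid (b : W → ZMod 3) (x : CA K) : Prop :=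
  ∑ e : {e // K.d e x.1 ≠ 0}, K.d e.1 x.1 * x.2.2 e = b x.1

/-- the edge atom `y` is the restriction of the configuration `x` -/
def Restr (x : CA K) (y : EA K) : Prop :=
  ∃ he : K.d y.1 x.1 ≠ 0, (∀ v : {v // K.kap v y.1 ≠ 0}, y.2.1 v = x.2.1 ⟨v.1, ⟨y.1, he, v.2⟩⟩) ∧
    y.2.2 = x.2.2 ⟨y.1, he⟩

/-- same block of edge atoms -/
def SameE (x y : EA K) : Prop := ∃ h : x.1 = y.1, ∀ v : {v // K.kap v x.1 ≠ 0}, x.2.1 v = y.2.1 ⟨v.1, h ▸ v.2⟩

/-- same block of configurations -/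
def SameC (x y : CA K) : Prop := ∃ h : x.1 = y.1, ∀ v : {v // K.At v x.1}, x.2.1 v = y.2.1 ⟨v.1, h ▸ v.2⟩

/-- the relations as propositions -/
def FP (b : W → ZMod 3) : Sym → U K → U K → Prop
  | .Ed, x, y => x = y ∧ ∃ e, x = .inl (.ed e)
  | .Cf, x, y => x = y ∧ ∃ c, x = .inl (.cf c) ∧ c.valid K b
  | .EB, x, y => ∃ e e', x = .inl (.ed e) ∧ y = .inl (.ed e') ∧ SameE K e e'
  | .VB, x, y => ∃ c c', x = .inl (.cf c) ∧ y = .inl (.cf c') ∧ SameC K c c'
  | .I, x, y => ∃ c e, x = .inl (.cf c) ∧ y = .inl (.ed e) ∧ Restr K c e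
  | .Z δ, x, y => ∃ e e', x = .inl (.ed e) ∧ y = .inl (.ed e') ∧ SameE K e e' ∧ e'.2.2 = e.2.2 + δ

/-- the structure `R_b` -/
def FR (b : W → ZMod 3) (r : Sym) (x y : U K) : Bool := decide (FP K b r x y)

theorem sum_sub_eq {α : Type} [Fintype α] (P : α → Prop) [Fintype {a // P a}] (f : α → ZMod 3)
    (h : ∀ a, ¬ P a → f a = 0) : ∑ a : {a // P a}, f a.1 = ∑ a, f a := by
  rw [← Finset.sum_subtype (Finset.univ.filter P) (by simp) f]
  refine Finset.sum_filter_of_ne fun a _ ha => ?_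
  by_contra hP
  exact ha (h a hP)

theorem valid_act (b : W → ZMod 3) (z : V → Bg) (c : CA K) (hc : c.valid K b) :
    (actC K z c).valid K b := by
  obtain ⟨w, i, a⟩ := c
  have hd : ∀ v, ∑ e : {e // K.d e w ≠ 0}, K.d e.1 w * K.kap v e.1 = 0 := by
    intro v
    rw [sum_sub_eq (fun e => K.d e w ≠ 0) (fun e => K.d e w * K.kap v e)]
    · exact K.dkap v w
    · intro e he
      rw [not_ne_iff.1 he, zero_mul]
  have h0 : ∀ v : {v // K.At v w}, ∑ e : {e // K.d e w ≠ 0},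
      K.d e.1 w * (K.kap v.1 e.1 * ((z v.1).1 (i v, 0)).2) = 0 := by
    intro v
    have := hd v.1
    simp only [← mul_assoc, ← Finset.sum_mul]
    rw [this, zero_mul]
  show ∑ e : {e // K.d e w ≠ 0}, K.d e.1 w * (a e + ∑ v : {v // K.At v w},
    K.kap v.1 e.1 * ((z v.1).1 (i v, 0)).2) = b w
  simp only [mul_add, Finset.sum_add_distrib, Finset.mul_sum]
  rw [Finset.sum_comm (s := Finset.univ) (t := Finset.univ)]
  rw [Finset.sum_eq_zero (fun v _ => h0 v), add_zero]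
  exact hc

theorem SameE_act (z : V → Bg) {e e' : EA K} (h : SameE K e e') :
    SameE K (actE K z e) (actE K z e') := by
  obtain ⟨e, i, a⟩ := e
  obtain ⟨e', i', a'⟩ := e'
  obtain ⟨h, h'⟩ := h
  dsimp only at h
  subst h
  refine ⟨rfl, fun v => ?_⟩
  have := h' v
  dsimp only at this
  simp only [actE]
  rw [this]

theorem SameC_act (z : V → Bg) {e e' : CA K} (h : SameC K e e') :
    SameC K (actC K z e) (actC K z e') := by
  obtain ⟨e, i, a⟩ := e
  obtain ⟨e', i', a'⟩ := e'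
  obtain ⟨h, h'⟩ := h
  dsimp only at h
  subst h
  refine ⟨rfl, fun v => ?_⟩
  have := h' v
  dsimp only at this
  simp only [actC]
  rw [this]

theorem Z_act (z : V → Bg) {e e' : EA K} (δ : ZMod 3) (h : SameE K e e') (h2 : e'.2.2 = e.2.2 + δ) :
    (actE K z e').2.2 = (actE K z e).2.2 + δ := by
  obtain ⟨e, i, a⟩ := e
  obtain ⟨e', i', a'⟩ := e'
  obtain ⟨h, h'⟩ := h
  dsimp only at h
  subst h
  have hi : i = i' := by
    funext v
    exact h' v
  subst hi
  simp only [actE]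
  dsimp only at h2
  rw [h2]
  ring

theorem Restr_act (z : V → Bg) {c : CA K} {e : EA K} (h : Restr K c e) :
    Restr K (actC K z c) (actE K z e) := by
  obtain ⟨e, i, a⟩ := e
  obtain ⟨w, i', a'⟩ := c
  obtain ⟨he, h1, h2⟩ := h
  refine ⟨he, fun v => ?_, ?_⟩
  · have := h1 v
    dsimp only at this
    simp only [actE, actC]
    rw [this]
  · dsimp only at h2 he h1
    simp only [actE, actC]
    rw [h2]
    congr 1
    have e1 : ∀ v : {v // K.kap v e ≠ 0}, K.At v.1 w := fun v => ⟨e, he, v.2⟩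
    have h3 : ∀ v : {v // K.kap v e ≠ 0}, i v = i' ⟨v.1, e1 v⟩ := h1
    -- both sums are sums over all `v`
    let G : V → ZMod 3 := fun v => if hv : K.At v w then K.kap v e * ((z v).1 (i' ⟨v, hv⟩, 0)).2 else 0
    have hL : ∑ v : {v // K.kap v e ≠ 0}, K.kap v.1 e * ((z v.1).1 (i v, 0)).2 =
        ∑ v : {v // K.kap v e ≠ 0}, G v.1 := by
      refine Finset.sum_congr rfl fun v _ => ?_
      simp only [G]
      rw [dif_pos (e1 v), h3 v]
    have hR : ∑ v : {v // K.At v w}, K.kap v.1 e * ((z v.1).1 (i' v, 0)).2 =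
        ∑ v : {v // K.At v w}, G v.1 := by
      refine Finset.sum_congr rfl fun v _ => ?_
      simp only [G]
      rw [dif_pos v.2]
    rw [hL, hR, sum_sub_eq (fun v => K.kap v e ≠ 0) G, sum_sub_eq (fun v => K.At v w) G]
    · intro v hv
      simp only [G]
      rw [dif_neg hv]
    · intro v hv
      simp only [G]
      split_ifs
      · rw [not_ne_iff.1 hv, zero_mul]
      · rfl

theorem FP_act_mp (b : W → ZMod 3) (z : V → Bg) (r : Sym) (x y : U K) (h : FP K b r x y) :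
    FP K b r (actU K z x) (actU K z y) := by
  cases r with
  | Ed =>
    obtain ⟨rfl, e, rfl⟩ := h
    exact ⟨rfl, actE K z e, rfl⟩
  | Cf =>
    obtain ⟨rfl, c, rfl, hc⟩ := h
    exact ⟨rfl, actC K z c, rfl, valid_act K b z c hc⟩
  | EB =>
    obtain ⟨e, e', rfl, rfl, h⟩ := h
    exact ⟨_, _, rfl, rfl, SameE_act K z h⟩
  | VB =>
    obtain ⟨e, e', rfl, rfl, h⟩ := h
    exact ⟨_, _, rfl, rfl, SameC_act K z h⟩
  | I =>
    obtain ⟨e, e', rfl, rfl, h⟩ := h
    exact ⟨_, _, rfl, rfl, Restr_act K z h⟩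
  | Z δ =>
    obtain ⟨e, e', rfl, rfl, h, h2⟩ := h
    exact ⟨_, _, rfl, rfl, SameE_act K z h, Z_act K z δ h h2⟩

/-- (U5.1) invariance under the local groups.  For the validity use `K.dkap`. -/
theorem FP_act (b : W → ZMod 3) (z : V → Bg) (r : Sym) (x y : U K) :
    FP K b r (actU K z x) (actU K z y) ↔ FP K b r x y := by
  refine ⟨fun h => ?_, FP_act_mp K b z r x y⟩
  have h1 := FP_act_mp K b z⁻¹ r _ _ h
  rwa [← actU_mul, ← actU_mul, inv_mul_cancel, actU_one, actU_one] at h1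

/-- the action of chains on edge atoms -/
def tauE (f : E → ZMod 3) (x : EA K) : EA K := ⟨x.1, x.2.1, x.2.2 + f x.1⟩

/-- the action of chains on configurations -/
def tauC (f : E → ZMod 3) (x : CA K) : CA K := ⟨x.1, x.2.1, fun e => x.2.2 e + f e.1⟩

theorem tauU_ed (f : E → ZMod 3) (x : EA K) :
    tauU K f (.inl (.ed x)) = .inl (.ed (tauE K f x)) := rfl

theorem tauU_cf (f : E → ZMod 3) (x : CA K) :
    tauU K f (.inl (.cf x)) = .inl (.cf (tauC K f x)) := rfl

theorem tauU_inj_iff (f : E → ZMod 3) (x y : U K) : tauU K f x = tauU K f y ↔ x = y := by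
  constructor
  · intro h
    have := congrArg (tauU K (-f)) h
    rwa [← tauU_add, ← tauU_add, neg_add_cancel, tauU_zero, tauU_zero] at this
  · rintro rfl; rfl

theorem tauE_neg (f : E → ZMod 3) (x : EA K) : tauE K f (tauE K (-f) x) = x := by
  obtain ⟨e, i, a⟩ := x
  simp [tauE]

theorem tauC_neg (f : E → ZMod 3) (x : CA K) : tauC K f (tauC K (-f) x) = x := by
  obtain ⟨e, i, a⟩ := x
  simp [tauC]

theorem ex_ed (f : E → ZMod 3) (x : U K) (P : EA K → Prop) :
    (∃ e, tauU K f x = .inl (.ed e) ∧ P e) ↔ ∃ e, x = .inl (.ed e) ∧ P (tauE K f e) := by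
  constructor
  · rintro ⟨e, he, hP⟩
    refine ⟨tauE K (-f) e, ?_, ?_⟩
    · rw [← tauU_inj_iff K f, he, tauU_ed, tauE_neg]
    · rw [tauE_neg]; exact hP
  · rintro ⟨e, rfl, hP⟩
    exact ⟨_, rfl, hP⟩

theorem ex_cf (f : E → ZMod 3) (x : U K) (P : CA K → Prop) :
    (∃ e, tauU K f x = .inl (.cf e) ∧ P e) ↔ ∃ e, x = .inl (.cf e) ∧ P (tauC K f e) := by
  constructor
  · rintro ⟨e, he, hP⟩
    refine ⟨tauC K (-f) e, ?_, ?_⟩
    · rw [← tauU_inj_iff K f, he, tauU_cf, tauC_neg]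
    · rw [tauC_neg]; exact hP
  · rintro ⟨e, rfl, hP⟩
    exact ⟨_, rfl, hP⟩

theorem sum_supp {α : Type} [Fintype α] (g f : α → ZMod 3) :
    ∑ e : {e // g e ≠ 0}, g e.1 * f e.1 = ∑ e, g e * f e := by
  rw [← Finset.sum_subtype (Finset.univ.filter fun e => g e ≠ 0) (by simp) (fun e => g e * f e)]
  rw [Finset.sum_filter]
  refine Finset.sum_congr rfl fun e _ => ?_
  by_cases h : g e = 0
  · simp [h]
  · simp [h]

theorem valid_tau (b : W → ZMod 3) (f : E → ZMod 3) (c : CA K) :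
    CA.valid K (b + K.bd f) (tauC K f c) ↔ CA.valid K b c := by
  have h1 : ∑ e : {e // K.d e c.1 ≠ 0}, K.d e.1 c.1 * f e.1 = ∑ e, K.d e c.1 * f e :=
    sum_supp (fun e => K.d e c.1) f
  show (∑ e : {e // K.d e c.1 ≠ 0}, K.d e.1 c.1 * (c.2.2 e + f e.1) =
    b c.1 + ∑ e, K.d e c.1 * f e) ↔ (∑ e : {e // K.d e c.1 ≠ 0}, K.d e.1 c.1 * c.2.2 e = b c.1)
  simp only [mul_add]
  rw [Finset.sum_add_distrib, h1]
  exact add_left_inj _

theorem restr_tau (f : E → ZMod 3) (c : CA K) (e : EA K) :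
    Restr K (tauC K f c) (tauE K f e) ↔ Restr K c e := by
  unfold Restr
  constructor
  · rintro ⟨he, h1, h2⟩
    exact ⟨he, h1, add_right_cancel h2⟩
  · rintro ⟨he, h1, h2⟩
    refine ⟨he, h1, ?_⟩
    show e.2.2 + f e.1 = c.2.2 ⟨e.1, he⟩ + f e.1
    rw [h2]

theorem z_tau (f : E → ZMod 3) (δ : ZMod 3) (e e' : EA K) (h : e.1 = e'.1) :
    (tauE K f e').2.2 = (tauE K f e).2.2 + δ ↔ e'.2.2 = e.2.2 + δ := by
  show e'.2.2 + f e'.1 = e.2.2 + f e.1 + δ ↔ _
  rw [show f e.1 = f e'.1 from congrArg f h, add_right_comm]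
  exact add_left_inj _

/-- (U5.2) a chain `f` moves the charge by its boundary -/
theorem FP_tau (b : W → ZMod 3) (f : E → ZMod 3) (r : Sym) (x y : U K) :
    FP K (b + K.bd f) r (tauU K f x) (tauU K f y) ↔ FP K b r x y := by
  cases r with
  | Ed =>
    show (tauU K f x = tauU K f y ∧ ∃ e, tauU K f x = .inl (.ed e)) ↔ (x = y ∧ ∃ e, x = .inl (.ed e))
    rw [tauU_inj_iff]
    have := ex_ed K f x (fun _ => True)
    simp only [and_true] at this
    rw [this]
  | Cf =>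
    show (tauU K f x = tauU K f y ∧ ∃ c, tauU K f x = .inl (.cf c) ∧ CA.valid K (b + K.bd f) c) ↔
      (x = y ∧ ∃ c, x = .inl (.cf c) ∧ CA.valid K b c)
    rw [tauU_inj_iff, ex_cf]
    simp only [valid_tau]
  | EB =>
    show (∃ e e', tauU K f x = .inl (.ed e) ∧ tauU K f y = .inl (.ed e') ∧ SameE K e e') ↔
      (∃ e e', x = .inl (.ed e) ∧ y = .inl (.ed e') ∧ SameE K e e')
    constructor
    · rintro ⟨e, e', h1, h2, h3⟩
      obtain ⟨e0, rfl, h4⟩ := (ex_ed K f x (fun z => z = e)).1 ⟨e, h1, rfl⟩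
      obtain ⟨e1, rfl, h5⟩ := (ex_ed K f y (fun z => z = e')).1 ⟨e', h2, rfl⟩
      subst h4 h5
      exact ⟨e0, e1, rfl, rfl, h3⟩
    · rintro ⟨e, e', rfl, rfl, h3⟩
      exact ⟨_, _, rfl, rfl, h3⟩
  | VB =>
    show (∃ e e', tauU K f x = .inl (.cf e) ∧ tauU K f y = .inl (.cf e') ∧ SameC K e e') ↔
      (∃ e e', x = .inl (.cf e) ∧ y = .inl (.cf e') ∧ SameC K e e')
    constructor
    · rintro ⟨e, e', h1, h2, h3⟩
      obtain ⟨e0, rfl, h4⟩ := (ex_cf K f x (fun z => z = e)).1 ⟨e, h1, rfl⟩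
      obtain ⟨e1, rfl, h5⟩ := (ex_cf K f y (fun z => z = e')).1 ⟨e', h2, rfl⟩
      subst h4 h5
      exact ⟨e0, e1, rfl, rfl, h3⟩
    · rintro ⟨e, e', rfl, rfl, h3⟩
      exact ⟨_, _, rfl, rfl, h3⟩
  | I =>
    show (∃ e e', tauU K f x = .inl (.cf e) ∧ tauU K f y = .inl (.ed e') ∧ Restr K e e') ↔
      (∃ e e', x = .inl (.cf e) ∧ y = .inl (.ed e') ∧ Restr K e e')
    constructor
    · rintro ⟨e, e', h1, h2, h3⟩
      obtain ⟨e0, rfl, h4⟩ := (ex_cf K f x (fun z => z = e)).1 ⟨e, h1, rfl⟩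
      obtain ⟨e1, rfl, h5⟩ := (ex_ed K f y (fun z => z = e')).1 ⟨e', h2, rfl⟩
      subst h4 h5
      exact ⟨e0, e1, rfl, rfl, (restr_tau K f e0 e1).1 h3⟩
    · rintro ⟨e, e', rfl, rfl, h3⟩
      exact ⟨_, _, rfl, rfl, (restr_tau K f _ _).2 h3⟩
  | Z δ =>
    show (∃ e e', tauU K f x = .inl (.ed e) ∧ tauU K f y = .inl (.ed e') ∧ SameE K e e' ∧
        e'.2.2 = e.2.2 + δ) ↔
      (∃ e e', x = .inl (.ed e) ∧ y = .inl (.ed e') ∧ SameE K e e' ∧ e'.2.2 = e.2.2 + δ)
    constructor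
    · rintro ⟨e, e', h1, h2, h3, h6⟩
      obtain ⟨e0, rfl, h4⟩ := (ex_ed K f x (fun z => z = e)).1 ⟨e, h1, rfl⟩
      obtain ⟨e1, rfl, h5⟩ := (ex_ed K f y (fun z => z = e')).1 ⟨e', h2, rfl⟩
      subst h4 h5
      obtain ⟨h7, -⟩ := id h3
      exact ⟨e0, e1, rfl, rfl, h3, (z_tau K f δ e0 e1 h7).1 h6⟩
    · rintro ⟨e, e', rfl, rfl, h3, h6⟩
      obtain ⟨h7, -⟩ := id h3
      exact ⟨_, _, rfl, rfl, h3, (z_tau K f δ e e' h7).2 h6⟩

/-- (U5.3) locality: only `Cf` changes, at the vertex `w`, and no configuration at `w` is supported in `S`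
(`T.site_ne`, `T.safe_site`, `cf_fix`). -/
theorem FP_loc (T : Topo K) (b : W → ZMod 3) (S : Finset V) (w : W) (r : Sym) (x y : U K) (hw : w ∈ T.safe S)
    (hx : ∀ z : V → Bg, (∀ v ∈ S, z v = 1) → actU K z x = x) :
    FP K (b + Pi.single w 1) r x y ↔ FP K b r x y := by
  cases r with
  | Cf =>
    show (x = y ∧ ∃ c, x = .inl (.cf c) ∧ CA.valid K (b + Pi.single w 1) c) ↔
      (x = y ∧ ∃ c, x = .inl (.cf c) ∧ CA.valid K b c)
    refine and_congr_right fun _ => exists_congr fun c => and_congr_right fun hxc => ?_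
    have hcw : c.1 ≠ w := by
      rintro rfl
      obtain ⟨v, hv⟩ := T.site_ne c.1
      refine T.safe_site S c.1 v hw ?_ hv
      refine cf_fix K S c (fun z hz => ?_) v hv
      have h1 := hx z hz
      rw [hxc] at h1
      exact Base.cf.inj (Sum.inl.inj h1)
    show (_ = b c.1 + (Pi.single w 1 : W → ZMod 3) c.1) ↔ (_ = b c.1)
    rw [Pi.single_eq_of_ne hcw, add_zero]
  | Ed => exact Iff.rfl
  | EB => exact Iff.rfl
  | VB => exact Iff.rfl
  | I => exact Iff.rfl
  | Z δ => exact Iff.rfl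

def relF (T : Topo K) : Rel (univSys K T) Sym where
  R := FR K
  R_act b z r x y := by
    unfold FR; exact decide_eq_decide.2 (FP_act K b z r x y)
  R_tau b f r x y := by
    unfold FR; exact decide_eq_decide.2 (FP_tau K b f r x y)
  R_loc b S w r x y hw hx _ := by
    unfold FR; exact decide_eq_decide.2 (FP_loc K T b S w r x y hw hx)

/-! auxiliary lemmas for U6 -/

theorem U6_sameE {x y : EA K} (h : SameE K x y) : y = ⟨x.1, x.2.1, y.2.2⟩ := by
  obtain ⟨e, κ, c⟩ := x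
  obtain ⟨e', κ', c'⟩ := y
  obtain ⟨h1, h2⟩ := h
  simp only at h1
  subst h1
  have : κ = κ' := funext fun v => h2 v
  subst this
  rfl

theorem U6_sameE_self (e : E) (κ : {v // K.kap v e ≠ 0} → Fin 6) (c c' : ZMod 3) :
    SameE K ⟨e, κ, c⟩ ⟨e, κ, c'⟩ := ⟨rfl, fun _ => rfl⟩

theorem U6_sameC' {w : W} {ι : {v // K.At v w} → Fin 6} {a : {e // K.d e w ≠ 0} → ZMod 3} {y : CA K}
    (h : SameC K ⟨w, ι, a⟩ y) : ∃ a', y = ⟨w, ι, a'⟩ := by
  obtain ⟨e', κ', c'⟩ := y
  obtain ⟨h1, h2⟩ := h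
  simp only at h1
  subst h1
  have : ι = κ' := funext fun v => h2 v
  subst this
  exact ⟨c', rfl⟩

/-- the solution of the system at charge zero -/
def U6_lam : U K → ZMod 3
  | .inl (.cf c) => if c.2.2 = 0 then 1 else 0
  | _ => 0

def U6_mu : U K → ZMod 3
  | .inl (.ed e) => - e.2.2
  | _ => 0

theorem U6_fiber [Fintype (U K)] (w : W) (ι : {v // K.At v w} → Fin 6)
    (a : {e // K.d e w ≠ 0} → ZMod 3) (F : U K → ZMod 3) :
    ∑ x ∈ fiber (FR K 0) (.inl (.cf ⟨w, ι, a⟩) : U K), U6_lam K x * F x =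
      F (.inl (.cf ⟨w, ι, 0⟩)) := by
  rw [Finset.sum_eq_single (.inl (.cf ⟨w, ι, 0⟩) : U K)]
  · simp [U6_lam]
  · intro x hx hne
    unfold fiber at hx
    rw [Finset.mem_filter] at hx
    obtain ⟨-, -, h2⟩ := hx
    unfold FR at h2
    rw [decide_eq_true_eq] at h2
    obtain ⟨c, c', h3, h4, h5⟩ := h2
    cases h3
    subst h4
    obtain ⟨a', rfl⟩ := U6_sameC' K h5
    have h6 : a' ≠ 0 := by
      rintro rfl
      exact hne rfl
    simp [U6_lam, h6]
  · intro hx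
    exfalso
    apply hx
    unfold fiber
    rw [Finset.mem_filter]
    refine ⟨Finset.mem_univ _, ?_, ?_⟩
    · unfold FR
      rw [decide_eq_true_eq]
      exact ⟨rfl, _, rfl, by simp [CA.valid]⟩
    · unfold FR
      rw [decide_eq_true_eq]
      exact ⟨_, _, rfl, rfl, rfl, fun _ => rfl⟩

theorem U6_coeff [Fintype (U K)] (w : W) (ι : {v // K.At v w} → Fin 6) (e : E)
    (κ : {v // K.kap v e ≠ 0} → Fin 6) (c : ZMod 3) (hr : Restr K ⟨w, ι, 0⟩ ⟨e, κ, 0⟩) :
    coeff (FR K 0) (.inl (.ed ⟨e, κ, c⟩) : U K) (.inl (.cf ⟨w, ι, 0⟩)) = -c := by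
  unfold coeff
  rw [Finset.sum_eq_single (.inl (.ed ⟨e, κ, 0⟩) : U K)]
  · rw [Finset.sum_eq_single (-c)]
    · rw [if_pos]
      unfold FR
      rw [decide_eq_true_eq]
      exact ⟨_, _, rfl, rfl, U6_sameE_self K e κ c 0, by simp⟩
    · intro δ _ hδ
      rw [if_neg]
      unfold FR
      rw [decide_eq_true_eq]
      rintro ⟨x, y, h1, h2, -, h3⟩
      cases h1
      cases h2
      simp only at h3
      exact hδ (eq_neg_of_add_eq_zero_right h3.symm)
    · intro h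
      exact absurd (Finset.mem_univ _) h
  · intro x hx hne
    rw [Finset.mem_filter] at hx
    obtain ⟨-, -, h2⟩ := hx
    unfold FR at h2
    rw [decide_eq_true_eq] at h2
    obtain ⟨c1, e1, h3, h4, h5⟩ := h2
    cases h3
    subst h4
    apply Finset.sum_eq_zero
    intro δ _
    rw [if_neg]
    unfold FR
    rw [decide_eq_true_eq]
    rintro ⟨x, y, h1, h2, h6, -⟩
    cases h1
    cases h2
    have h7 := U6_sameE K h6
    obtain ⟨he, -, h8⟩ := h5
    have h9 : e1.2.2 = 0 := h8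
    rw [h9] at h7
    exact hne (by rw [h7])
  · intro hx
    exfalso
    apply hx
    rw [Finset.mem_filter]
    refine ⟨Finset.mem_univ _, ?_, ?_⟩
    · unfold FR
      rw [decide_eq_true_eq]
      exact ⟨rfl, _, rfl⟩
    · unfold FR
      rw [decide_eq_true_eq]
      exact ⟨_, _, rfl, rfl, hr⟩

/-- (U6) charge `0` is consistent: `lam (cf (w, ι, 0)) = 1`, `mu (ed (e, ι, c)) = -c`, everything else `0`. -/
theorem consistent_zero [Fintype (U K)] : Consistent (FR K 0) := by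
  refine ⟨U6_lam K, U6_mu K, ?_, ?_⟩
  · intro t ht
    unfold FR at ht
    rw [decide_eq_true_eq] at ht
    obtain ⟨-, ⟨w, ι, a⟩, rfl, -⟩ := ht
    have h := U6_fiber K w ι a (fun _ => 1)
    simpa using h
  · intro t y ht hy hrow
    unfold FR at ht
    rw [decide_eq_true_eq] at ht
    obtain ⟨-, ⟨w, ι, a⟩, rfl, -⟩ := ht
    unfold FR at hy
    rw [decide_eq_true_eq] at hy
    obtain ⟨-, ⟨e, κ, c⟩, rfl⟩ := hy
    rw [U6_fiber]
    obtain ⟨a', ha', x, -, hI, hEB⟩ := hrow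
    unfold fiber at ha'
    rw [Finset.mem_filter] at ha'
    obtain ⟨-, -, h2⟩ := ha'
    unfold FR at h2 hI hEB
    rw [decide_eq_true_eq] at h2 hI hEB
    obtain ⟨c1, c2, h3, h4, h5⟩ := h2
    cases h3
    subst h4
    obtain ⟨a2, rfl⟩ := U6_sameC' K h5
    obtain ⟨c3, e3, h6, h7, h8⟩ := hI
    cases h6
    subst h7
    obtain ⟨e4, e5, h9, h10, h11⟩ := hEB
    cases h9
    cases h10
    have h12 := U6_sameE K h11
    rw [h12] at h8
    rw [U6_coeff]
    · rfl
    · obtain ⟨he, hv, -⟩ := h8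
      exact ⟨he, hv, rfl⟩

theorem FR_iff (b : W → ZMod 3) (r : Sym) (x y : U K) : FR K b r x y = true ↔ FP K b r x y := by
  unfold FR; exact decide_eq_true_iff

/-- configuration atom of the block `ι = 0` -/
def cfz (w : W) (a : {e // K.d e w ≠ 0} → ZMod 3) : U K := .inl (.cf ⟨w, fun _ => 0, a⟩)

/-- edge atom of the block `ι = 0` -/
def edz (e : E) (c : ZMod 3) : U K := .inl (.ed ⟨e, fun _ => 0, c⟩)

/-- the value of a configuration atom at an edge -/
def vl (c : U K) (e : E) : ZMod 3 :=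
  match c with
  | .inl (.cf x) => if h : K.d e x.1 ≠ 0 then x.2.2 ⟨e, h⟩ else 0
  | _ => 0

theorem vl_cfz (w : W) (a : {e // K.d e w ≠ 0} → ZMod 3) (e : E) :
    vl K (cfz K w a) e = if h : K.d e w ≠ 0 then a ⟨e, h⟩ else 0 := rfl

theorem mem_fiber_cfz [Fintype (U K)] (b : W → ZMod 3) (w : W) (a : {e // K.d e w ≠ 0} → ZMod 3)
    (c : U K) : c ∈ fiber (FR K b) (cfz K w a) ↔
      ∃ a', c = cfz K w a' ∧ ∑ e : {e // K.d e w ≠ 0}, K.d e.1 w * a' e = b w := by
  unfold fiber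
  simp only [Finset.mem_filter, Finset.mem_univ, true_and, FR_iff, FP]
  constructor
  · rintro ⟨⟨c0, hc0, hv⟩, c1, c2, h1, h2, hs⟩
    rw [hc0] at h2
    have e2 : c0 = c2 := by
      have := Sum.inl.inj h2
      simpa using this
    subst e2
    have e1 : (⟨w, fun _ => 0, a⟩ : CA K) = c1 := by
      have := Sum.inl.inj h1
      simpa using this
    subst e1
    obtain ⟨w2, i2, a2⟩ := c0
    obtain ⟨hw, hi⟩ := hs
    simp only at hw
    subst hw
    have hi2 : i2 = fun _ => 0 := by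
      funext v
      exact (hi v).symm
    subst hi2
    exact ⟨a2, hc0, hv⟩
  · rintro ⟨a', rfl, hv⟩
    exact ⟨⟨_, rfl, hv⟩, _, _, rfl, rfl, rfl, fun _ => rfl⟩

theorem coeff_cfz [Fintype (U K)] (b : W → ZMod 3) (w : W) (a : {e // K.d e w ≠ 0} → ZMod 3)
    (e : E) (he : K.d e w ≠ 0) :
    coeff (FR K b) (edz K e 0) (cfz K w a) = a ⟨e, he⟩ := by
  unfold coeff
  rw [Finset.sum_eq_single (edz K e (a ⟨e, he⟩))]
  · rw [Finset.sum_eq_single (a ⟨e, he⟩)]
    · rw [if_pos]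
      rw [FR_iff]
      exact ⟨_, _, rfl, rfl, ⟨rfl, fun _ => rfl⟩, (zero_add _).symm⟩
    · intro δ _ hδ
      rw [if_neg]
      rw [FR_iff]
      rintro ⟨e1, e2, h1, h2, _, h3⟩
      have g1 : (⟨e, fun _ => 0, 0⟩ : EA K) = e1 := by
        have := Sum.inl.inj h1
        simpa using this
      have g2 : (⟨e, fun _ => 0, a ⟨e, he⟩⟩ : EA K) = e2 := by
        have := Sum.inl.inj h2
        simpa using this
      subst g1 g2
      simp only [zero_add] at h3
      exact hδ h3.symm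
    · intro h; exact absurd (Finset.mem_univ _) h
  · intro x hx hne
    rw [Finset.mem_filter, FR_iff, FR_iff] at hx
    obtain ⟨_, _, c, e2, hc, hx2, hd, hr1, hr2⟩ := hx
    refine Finset.sum_eq_zero fun δ _ => ?_
    rw [if_neg]
    rw [FR_iff]
    rintro ⟨e1, e3, h1, h2, ⟨hs1, hs2⟩, h3⟩
    have g1 : (⟨e, fun _ => 0, 0⟩ : EA K) = e1 := by
      have := Sum.inl.inj h1
      simpa using this
    have g2 : (⟨w, fun _ => 0, a⟩ : CA K) = c := by
      have := Sum.inl.inj hc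
      simpa using this
    have g3 : e2 = e3 := by
      rw [hx2] at h2
      have := Sum.inl.inj h2
      simpa using this
    subst g1 g2 g3
    apply hne
    rw [hx2]
    obtain ⟨e', i', c'⟩ := e2
    simp only at hs1
    subst hs1
    have hi' : i' = fun _ => 0 := by
      funext v
      exact hr1 v
    show (Sum.inl (Base.ed ⟨e, i', c'⟩) : U K) = Sum.inl (Base.ed ⟨e, fun _ => 0, a ⟨e, he⟩⟩)
    rw [hi', show c' = a ⟨e, he⟩ from hr2]
  · intro h
    exfalso
    apply h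
    rw [Finset.mem_filter, FR_iff, FR_iff]
    exact ⟨Finset.mem_univ _, ⟨rfl, _, rfl⟩, _, _, rfl, rfl, he, fun _ => rfl, rfl⟩

theorem sum_vl_cfz (w : W) (a : {e // K.d e w ≠ 0} → ZMod 3) :
    ∑ e, K.d e w * vl K (cfz K w a) e = ∑ e : {e // K.d e w ≠ 0}, K.d e.1 w * a e := by
  have h1 : ∑ e, K.d e w * vl K (cfz K w a) e =
      ∑ e ∈ Finset.univ.filter (fun e => K.d e w ≠ 0), K.d e w * vl K (cfz K w a) e := by
    symm
    apply Finset.sum_filter_of_ne
    intro e _ h h0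
    rw [h0, zero_mul] at h
    exact h rfl
  rw [h1, Finset.sum_subtype (p := fun e => K.d e w ≠ 0) _ (by simp)]
  refine Finset.sum_congr rfl fun e _ => ?_
  rw [vl_cfz, dif_pos e.2]

/-- (U7) total charge `1` is not consistent.  Only the block `ι = 0` is used:
`m e := mu (ed (e, 0, 0))`; for every vertex `w'` some valid configuration `t = (w', 0, a)` exists (at `w`: `T.site_ne` gives
an edge `e` with `d e w ≠ 0`; put `a e = (d e w)⁻¹ * b w`), the equations of `t` give `m e = ∑ lam c * c e` for `e` at `w'`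
(`coeff (ed (e,0,0)) c = c e`), so `∑ e, d e w' * m e = b w'`; sum over `w'` and use `K.dsum`. -/
theorem not_consistent [Fintype (U K)] (T : Topo K) (w : W) :
    ¬ Consistent (FR K (0 + Pi.single w 1)) := by
  rw [zero_add]
  rintro ⟨lam, mu, h1, h2⟩
  have hex : ∀ w', ∃ a : {e // K.d e w' ≠ 0} → ZMod 3,
      ∑ e : {e // K.d e w' ≠ 0}, K.d e.1 w' * a e = (Pi.single w 1 : W → ZMod 3) w' := by
    intro w'
    by_cases hw : w' = w
    · subst hw
      obtain ⟨v, e, he, _⟩ := T.site_ne w'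
      refine ⟨Pi.single ⟨e, he⟩ (K.d e w')⁻¹, ?_⟩
      rw [Finset.sum_eq_single ⟨e, he⟩]
      · rw [Pi.single_eq_same, Pi.single_eq_same]
        exact mul_inv_cancel₀ he
      · intro e' _ hne
        rw [Pi.single_eq_of_ne hne, mul_zero]
      · intro h; exact absurd (Finset.mem_univ _) h
    · refine ⟨0, ?_⟩
      rw [Pi.single_eq_of_ne hw]
      exact Finset.sum_eq_zero fun e _ => by rw [Pi.zero_apply, mul_zero]
  have key : ∀ w', ∑ e, K.d e w' * mu (edz K e 0) = (Pi.single w 1 : W → ZMod 3) w' := by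
    intro w'
    obtain ⟨a, ha⟩ := hex w'
    have ht : FR K (Pi.single w 1) .Cf (cfz K w' a) (cfz K w' a) = true := by
      rw [FR_iff]; exact ⟨rfl, _, rfl, ha⟩
    have hl := h1 _ ht
    have hm : ∀ e, K.d e w' ≠ 0 → mu (edz K e 0) =
        ∑ c ∈ fiber (FR K (Pi.single w 1)) (cfz K w' a), lam c * vl K c e := by
      intro e he
      have hy : FR K (Pi.single w 1) .Ed (edz K e 0) (edz K e 0) = true := by
        rw [FR_iff]; exact ⟨rfl, _, rfl⟩
      rw [h2 (cfz K w' a) (edz K e 0) ht hy ?_]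
      · refine Finset.sum_congr rfl fun c hc => ?_
        obtain ⟨a', rfl, _⟩ := (mem_fiber_cfz K _ w' a c).1 hc
        rw [coeff_cfz K _ w' a' e he, vl_cfz, dif_pos he]
      · refine ⟨cfz K w' a, (mem_fiber_cfz K _ w' a _).2 ⟨a, rfl, ha⟩, edz K e (a ⟨e, he⟩), ?_, ?_, ?_⟩
        · rw [FR_iff]; exact ⟨rfl, _, rfl⟩
        · rw [FR_iff]; exact ⟨_, _, rfl, rfl, he, fun _ => rfl, rfl⟩
        · rw [FR_iff]; exact ⟨_, _, rfl, rfl, rfl, fun _ => rfl⟩
    calc ∑ e, K.d e w' * mu (edz K e 0)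
        = ∑ e, ∑ c ∈ fiber (FR K (Pi.single w 1)) (cfz K w' a), lam c * (K.d e w' * vl K c e) := by
          refine Finset.sum_congr rfl fun e _ => ?_
          by_cases he : K.d e w' = 0
          · rw [he, zero_mul]
            exact (Finset.sum_eq_zero fun c _ => by rw [zero_mul, mul_zero]).symm
          · rw [hm e he, Finset.mul_sum]
            exact Finset.sum_congr rfl fun c _ => by ring
      _ = ∑ c ∈ fiber (FR K (Pi.single w 1)) (cfz K w' a), lam c * ∑ e, K.d e w' * vl K c e := by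
          rw [Finset.sum_comm]
          exact Finset.sum_congr rfl fun c _ => by rw [Finset.mul_sum]
      _ = ∑ c ∈ fiber (FR K (Pi.single w 1)) (cfz K w' a), lam c * (Pi.single w 1 : W → ZMod 3) w' := by
          refine Finset.sum_congr rfl fun c hc => ?_
          obtain ⟨a', rfl, ha'⟩ := (mem_fiber_cfz K _ w' a c).1 hc
          rw [sum_vl_cfz, ha']
      _ = (Pi.single w 1 : W → ZMod 3) w' := by rw [← Finset.sum_mul, hl, one_mul]
  have hsum : ∑ w', ∑ e, K.d e w' * mu (edz K e 0) = 0 := by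
    rw [Finset.sum_comm]
    refine Finset.sum_eq_zero fun e _ => ?_
    rw [← Finset.sum_mul, K.dsum, zero_mul]
  have hone : ∑ w', (Pi.single w 1 : W → ZMod 3) w' = 1 := by
    rw [Finset.sum_eq_single w]
    · exact Pi.single_eq_same _ _
    · intro w' _ h; exact Pi.single_eq_of_ne h _
    · intro h; exact absurd (Finset.mem_univ _) h
  rw [Finset.sum_congr rfl fun w' _ => key w', hone] at hsum
  exact one_ne_zero hsum

end Crest.Agent.CPTL
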