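import Mathlib
import Crest.Prelude.Def_HF
import Crest.Prelude.Def_CPT
import Crest.Agent.CPT.HF
import Crest.Agent.CPT.Sys
import Crest.Agent.CPT.TrOps
import Crest.Agent.CPT.EvalIso
import Crest.Agent.CPT.Iso
import Crest.Agent.CPT.Index
import Crest.Agent.CPT.Bound

/-!
# Row 282: the transfer theorem, proof of `no_plain`
-/

noncomputable section
open Classical

namespace Crest.Agent.CPTL
open Crest.LogicCS.HFSet Crest.LogicCS.CPT

/-- a family of structures on the universe `A`, one for each charge `b : W → ZMod 3` -/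
structure Rel {A V W B C : Type} [Fintype V] [Fintype W] [Group B] [Fintype B] [AddCommGroup C]
    [Fintype C] (𝒮 : Sys A V W B C) (σ : Type) where
  R : (W → ZMod 3) → σ → A → A → Bool
  R_act : ∀ b z r x y, R b r (𝒮.act z x) (𝒮.act z y) = R b r x y
  R_tau : ∀ b f r x y, R (b + 𝒮.bd f) r (𝒮.tau f x) (𝒮.tau f y) = R b r x y
  R_loc : ∀ b (S : Finset V) w r x y, w ∈ 𝒮.safe S →
     (∀ z : V → B, (∀ v ∈ S, z v = 1) → 𝒮.act z x = x) →
     (∀ z : V → B, (∀ v ∈ S, z v = 1) → 𝒮.act z y = y) →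
     R (b + Pi.single w 1) r x y = R b r x y

section

variable {σ A V W B C : Type} [Fintype A] [Fintype V] [Fintype W] [Group B] [Fintype B]
    [AddCommGroup C] [Fintype C] (𝒮 : Sys A V W B C) (ℛ : Rel 𝒮 σ)

theorem act_bij (z : V → B) : Function.Bijective (𝒮.act z) := by
  refine ⟨𝒮.act_inj z, fun a => ⟨𝒮.act z⁻¹ a, ?_⟩⟩
  rw [← 𝒮.act_mul, mul_inv_cancel, 𝒮.act_one]

theorem tau_bij (f : C) : Function.Bijective (𝒮.tau f) := by
  refine ⟨𝒮.tau_inj f, fun a => ⟨𝒮.tau (-f) a, ?_⟩⟩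
  rw [← 𝒮.tau_add, add_neg_cancel, 𝒮.tau_zero]

theorem supp_ev {n : ℕ} (t : Term σ n) (ht : t.wscCount = 0) (b : W → ZMod 3) (p : ℕ)
    (e : Fin n → HF A) (S : Finset V) (he : ∀ i, 𝒮.supp (e i) ⊆ S) :
    𝒮.supp (ev (ℛ.R b) p t e) ⊆ S := by
  apply 𝒮.supp_subset_of_fix
  intro z hz
  have h1 := (ev_rename p (ℛ.R b) (ℛ.R b) (𝒮.act z) (act_bij 𝒮 z)
    (fun r x y => ℛ.R_act b z r x y)).1 n t ht e
  have h2 : (fun i => rename (𝒮.act z) (e i)) = e := by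
    funext i
    exact 𝒮.fix_of_supp (e i) z fun v hv => hz v (he i hv)
  rw [h2] at h1
  exact h1.symm

/-- environment after a move -/
theorem env_move {n : ℕ} {e : Fin n → HF A} {S : Finset V} (he : ∀ i, 𝒮.supp (e i) ⊆ S)
    {w w' : W} {g : C} (hg : g ∈ 𝒮.Ch S) (hb : 𝒮.bd g = Pi.single w' 1 - Pi.single w 1) (u : HF A) :
    (Fin.cons (𝒮.ta (-g) (𝒮.tr u w')) (fun i => 𝒮.tr (e i) w) : Fin (n+1) → HF A) =
      fun j => rename (𝒮.tau (-g)) (𝒮.tr ((Fin.cons u e : Fin (n+1) → HF A) j) w') := by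
  funext j
  refine Fin.cases ?_ ?_ j
  · rw [Fin.cons_zero, Fin.cons_zero]; rfl
  · intro i
    rw [Fin.cons_succ, Fin.cons_succ]
    exact (𝒮.tr_back (he i) hg hb).symm

theorem R_move (b : W → ZMod 3) {w w' : W} {g : C}
    (hb : 𝒮.bd g = Pi.single w' 1 - Pi.single w 1) (r : σ) (x y : A) :
    ℛ.R (b + Pi.single w 1) r (𝒮.tau (-g) x) (𝒮.tau (-g) y) = ℛ.R (b + Pi.single w' 1) r x y := by
  rw [← ℛ.R_tau (b + Pi.single w' 1) (-g) r x y]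
  congr 1
  rw [map_neg, hb]; abel

end

/-- transfer for a term -/
def TT {σ : Type} {n : ℕ} (t : Term σ n) (c D : ℕ) : Prop :=
  ∀ (A V W B C : Type) [Fintype A] [Fintype V] [Fintype W] [Group B] [Fintype B]
    [AddCommGroup C] [Fintype C] (𝒮 : Sys A V W B C) (ℛ : Rel 𝒮 σ) (b : W → ZMod 3)
    (p P L κ : ℕ) (e : Fin n → HF A) (S : Finset V) (w : W),
    p ≤ P → Fintype.card A ≤ P → (∀ i, tcSize (e i) ≤ P) → (P + 2) ^ c ≤ 2 ^ L →
    (∀ i, 𝒮.supp (e i) ⊆ S) → S.card + D * (2 * L) ≤ κ → 4 * κ < 𝒮.M → w ∈ 𝒮.safe S →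
    𝒮.tr (ev (ℛ.R b) p t e) w = ev (ℛ.R (b + Pi.single w 1)) p t (fun i => 𝒮.tr (e i) w)

/-- transfer for a formula -/
def TF {σ : Type} {n : ℕ} (φ : Formula σ n) (c D : ℕ) : Prop :=
  ∀ (A V W B C : Type) [Fintype A] [Fintype V] [Fintype W] [Group B] [Fintype B]
    [AddCommGroup C] [Fintype C] (𝒮 : Sys A V W B C) (ℛ : Rel 𝒮 σ) (b : W → ZMod 3)
    (p P L κ : ℕ) (e : Fin n → HF A) (S : Finset V) (w : W),
    p ≤ P → Fintype.card A ≤ P → (∀ i, tcSize (e i) ≤ P) → (P + 2) ^ c ≤ 2 ^ L →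
    (∀ i, 𝒮.supp (e i) ⊆ S) → S.card + D * (2 * L) ≤ κ → 4 * κ < 𝒮.M → w ∈ 𝒮.safe S →
    (evF (ℛ.R (b + Pi.single w 1)) p φ (fun i => 𝒮.tr (e i) w) ↔ evF (ℛ.R b) p φ e)

set_option maxHeartbeats 1000000 in
theorem transfer_compr {σ : Type} (n : ℕ) (r : Term σ n) (g : Formula σ (n+1)) (bd : Term σ (n+1))
    (hr : r.wscCount = 0) (hg : g.wscCount = 0) (hb : bd.wscCount = 0)
    {cr Dr cg Dg cb Db : ℕ} (h1 : TT r cr Dr) (h2 : TF g cg Dg) (h3 : TT bd cb Db) :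
    ∃ c D, TT (.compr r g bd) c D := by
  obtain ⟨β, hβ⟩ := exists_BD.1 n (.compr r g bd) (by simp only [Term.wscCount, hr, hg, hb])
  obtain ⟨γ, hγ⟩ := exists_BD.1 n r hr
  refine ⟨cr + β + γ + (γ + 2) * cg + (γ + 2) * cb, Dr + Dg + Db + 1,
    fun A V W B C _ _ _ _ _ _ _ 𝒮 ℛ b p P L κ e S w hp hA he hL hS hκ hM hw => ?_⟩
  have hL1 : (P + 2) ^ cr ≤ 2 ^ L := (pow_le_pow_of_le' (by omega) (by omega)).trans hL
  have hLβ : (P + 2) ^ β ≤ 2 ^ L := (pow_le_pow_of_le' (by omega) (by omega)).trans hL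
  have hLγ : (P + 2) ^ γ ≤ 2 ^ L := (pow_le_pow_of_le' (by omega) (by omega)).trans hL
  have hx1 : 1 ≤ (P + 2) ^ γ := Nat.one_le_pow _ _ (by omega)
  have hP2 : (P + (P + 2) ^ γ + 2) ≤ (P + 2) ^ (γ + 2) := by
    have h2 : (P + 2) ^ (γ + 2) = (P + 2) ^ γ * ((P + 2) * (P + 2)) := by ring
    have h3 : P + 3 ≤ (P + 2) * (P + 2) := by nlinarith
    rw [h2]
    generalize (P + 2) ^ γ = X at *
    calc P + X + 2 ≤ X * (P + 3) := by nlinarith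
      _ ≤ _ := Nat.mul_le_mul_left _ h3
  have hLg : (P + (P + 2) ^ γ + 2) ^ cg ≤ 2 ^ L := by
    refine (Nat.pow_le_pow_left hP2 _).trans ?_
    rw [← pow_mul]
    exact (pow_le_pow_of_le' (by omega) (by omega)).trans hL
  have hLb : (P + (P + 2) ^ γ + 2) ^ cb ≤ 2 ^ L := by
    refine (Nat.pow_le_pow_left hP2 _).trans ?_
    rw [← pow_mul]
    exact (pow_le_pow_of_le' (by omega) (by omega)).trans hL
  have hPP : P ≤ P + (P + 2) ^ γ := Nat.le_add_right _ _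
  have hκ1 : S.card + Dr * (2 * L) ≤ κ := le_trans (by nlinarith) hκ
  have hκ3 : S.card + 2 * L ≤ κ := le_trans (by nlinarith) hκ
  have hsz := (hβ A (ℛ.R b) p P e hp hA he).trans hLβ
  have hsup := supp_ev 𝒮 ℛ (.compr r g bd) (by simp only [Term.wscCount, hr, hg, hb]) b p e S hS
  have hHS := HS_of_tcSize 𝒮 hsup hsz hκ3
  have hszr := (hγ A (ℛ.R b) p P e hp hA he).trans hLγ
  have hsupr := supp_ev 𝒮 ℛ r hr b p e S hS
  have hHSr := HS_of_tcSize 𝒮 hsupr hszr hκ3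
  rw [ev_compr hr hg hb] at hHS hsup ⊢
  rw [ev_compr hr hg hb, ← h1 A V W B C 𝒮 ℛ b p P L κ e S w hp hA he hL1 hS hκ1 hM hw]
  -- facts about members of the range
  have hu1 : ∀ u ∈ members (ev (ℛ.R b) p r e), (S ∪ 𝒮.supp u).card ≤ S.card + 2 * L :=
    fun u hu => card_union_supp_le 𝒮 (mem_tc_of_mem hu) S hsupr hszr
  have hu2 : ∀ u ∈ members (ev (ℛ.R b) p r e), ∀ i : Fin (n+1),
      tcSize ((Fin.cons u e : Fin (n+1) → HF A) i) ≤ P + (P + 2) ^ γ := by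
    intro u hu i
    refine Fin.cases ?_ ?_ i
    · rw [Fin.cons_zero]
      exact (tcSize_le_of_mem hu).trans
        ((hγ A (ℛ.R b) p P e hp hA he).trans (Nat.le_add_left _ _))
    · intro j; rw [Fin.cons_succ]; exact (he j).trans hPP
  have hu3 : ∀ u : HF A, ∀ i : Fin (n+1),
      𝒮.supp ((Fin.cons u e : Fin (n+1) → HF A) i) ⊆ S ∪ 𝒮.supp u := by
    intro u i
    refine Fin.cases ?_ ?_ i
    · rw [Fin.cons_zero]; exact Finset.subset_union_right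
    · intro j; rw [Fin.cons_succ]; exact (hS j).trans Finset.subset_union_left
  refine 𝒮.tr_compr hM hHSr hsupr (by omega) hw _ _ _ _ ?_ ?_ ?_ hHS hsup
  · intro u hu _
    exact supp_ev 𝒮 ℛ bd hb b p _ _ (hu3 u)
  · intro u hu w' ch ⟨hm1, hm2, hm3⟩
    show evF (ℛ.R (b + Pi.single w 1)) p g (Fin.cons (𝒮.ta (-ch) (𝒮.tr u w'))
      (fun i => 𝒮.tr (e i) w)) ↔ evF (ℛ.R b) p g (Fin.cons u e)
    rw [env_move 𝒮 hS hm2 hm3 u,
      (ev_rename p (ℛ.R (b + Pi.single w' 1)) (ℛ.R (b + Pi.single w 1)) (𝒮.tau (-ch))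
        (tau_bij 𝒮 _) (fun r x y => R_move 𝒮 ℛ b hm3 r x y)).2 _ g hg]
    refine h2 A V W B C 𝒮 ℛ b p (P + (P + 2) ^ γ) L κ (Fin.cons u e) (S ∪ 𝒮.supp u) w'
      (hp.trans hPP) (hA.trans hPP) (hu2 u hu) hLg (hu3 u) ?_ hM hm1
    have := hu1 u hu
    nlinarith
  · intro u hu _ w' ch ⟨hm1, hm2, hm3⟩
    show ev (ℛ.R (b + Pi.single w 1)) p bd (Fin.cons (𝒮.ta (-ch) (𝒮.tr u w'))
      (fun i => 𝒮.tr (e i) w)) = 𝒮.ta (-ch) (𝒮.tr (ev (ℛ.R b) p bd (Fin.cons u e)) w')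
    rw [env_move 𝒮 hS hm2 hm3 u,
      (ev_rename p (ℛ.R (b + Pi.single w' 1)) (ℛ.R (b + Pi.single w 1)) (𝒮.tau (-ch))
        (tau_bij 𝒮 _) (fun r x y => R_move 𝒮 ℛ b hm3 r x y)).1 _ bd hb]
    rw [h3 A V W B C 𝒮 ℛ b p (P + (P + 2) ^ γ) L κ (Fin.cons u e) (S ∪ 𝒮.supp u) w'
      (hp.trans hPP) (hA.trans hPP) (hu2 u hu) hLb (hu3 u) (by
        have := hu1 u hu
        nlinarith) hM hm1]
    rfl

set_option maxHeartbeats 1000000 in
theorem transfer_iter {σ : Type} (n : ℕ) (s : Term σ (n+1)) (hs : s.wscCount = 0)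
    {cs Ds : ℕ} (h1 : TT s cs Ds) : ∃ c D, TT (.iter s) c D := by
  obtain ⟨γ, hγ⟩ := exists_BD.1 (n+1) s hs
  refine ⟨cs + γ, Ds + 1,
    fun A V W B C _ _ _ _ _ _ _ 𝒮 ℛ b p P L κ e S w hp hA he hL hS hκ hM hw => ?_⟩
  have hL1 : (P + 2) ^ cs ≤ 2 ^ L := (pow_le_pow_of_le' (by omega) (by omega)).trans hL
  have hLγ : (P + 2) ^ γ ≤ 2 ^ L := (pow_le_pow_of_le' (by omega) (by omega)).trans hL
  have hκ1 : S.card + Ds * (2 * L) ≤ κ := le_trans (by nlinarith) hκ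
  have hκ3 : S.card + 2 * L ≤ κ := le_trans (by nlinarith) hκ
  rw [ev_iter hs, ev_iter hs]
  have h0 : 𝒮.tr (Crest.LogicCS.HFSet.empty : HF A) w = Crest.LogicCS.HFSet.empty :=
    𝒮.tr_empty w
  have hsup0 : 𝒮.supp (Crest.LogicCS.HFSet.empty : HF A) ⊆ S := by
    refine (𝒮.supp_ofFinset_subset ∅ ∅ ?_).trans (Finset.empty_subset _)
    intro z _ y hy
    simp at hy
  have hHS0 : 𝒮.HS κ (Crest.LogicCS.HFSet.empty : HF A) :=
    HS_of_tcSize 𝒮 hsup0 (L := L) (by rw [tcSize_empty]; exact Nat.zero_le _) hκ3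
  have henv : ∀ x : HF A, (fun i => 𝒮.tr ((Fin.cons x e : Fin (n+1) → HF A) i) w) =
      Fin.cons (𝒮.tr x w) (fun i => 𝒮.tr (e i) w) := by
    intro x
    funext i
    refine Fin.cases ?_ ?_ i
    · rw [Fin.cons_zero, Fin.cons_zero]
    · intro j; rw [Fin.cons_succ, Fin.cons_succ]
  have main : ∀ k (x : HF A), 𝒮.supp x ⊆ S → 𝒮.HS κ x →
      𝒮.tr (itF p (fun x => ev (ℛ.R b) p s (Fin.cons x e)) k x) w =
        itF p (fun x => ev (ℛ.R (b + Pi.single w 1)) p s (Fin.cons x fun i => 𝒮.tr (e i) w))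
          k (𝒮.tr x w) := by
    intro k
    induction k with
    | zero => intro x _ _; rw [itF, itF, h0]
    | succ k ih =>
      intro x hxS hxH
      rw [itF, itF, 𝒮.tr_tcSize hM hxH (𝒮.safe_anti hxS hw)]
      by_cases hsz : tcSize x ≤ p
      · have he' : ∀ i, tcSize ((Fin.cons x e : Fin (n+1) → HF A) i) ≤ P := by
          intro i
          refine Fin.cases ?_ ?_ i
          · rw [Fin.cons_zero]; exact hsz.trans hp
          · intro j; rw [Fin.cons_succ]; exact he j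
        have hS' : ∀ i, 𝒮.supp ((Fin.cons x e : Fin (n+1) → HF A) i) ⊆ S := by
          intro i
          refine Fin.cases ?_ ?_ i
          · rw [Fin.cons_zero]; exact hxS
          · intro j; rw [Fin.cons_succ]; exact hS j
        have h2 := h1 A V W B C 𝒮 ℛ b p P L κ (Fin.cons x e) S w hp hA he' hL1 hS' hκ1 hM hw
        rw [henv x] at h2
        have hys := supp_ev 𝒮 ℛ s hs b p (Fin.cons x e) S hS'
        have hyH := HS_of_tcSize 𝒮 hys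
          ((hγ A (ℛ.R b) p P (Fin.cons x e) hp hA he').trans hLγ) hκ3
        rw [if_pos hsz, if_pos hsz, ← h2]
        by_cases hfix : ev (ℛ.R b) p s (Fin.cons x e) = x
        · have e1 : 𝒮.tr (ev (ℛ.R b) p s (Fin.cons x e)) w = 𝒮.tr x w := by rw [hfix]
          rw [if_pos hfix, if_pos e1]
        · rw [if_neg hfix, if_neg (fun h => hfix (𝒮.tr_inj hM hyH hxH
            (𝒮.safe_anti (Finset.union_subset hys hxS) hw) h))]
          exact ih _ hys hyH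
      · rw [if_neg hsz, if_neg hsz, h0]
  rw [main (p+1) _ hsup0 hHS0, h0]

set_option maxHeartbeats 1000000 in
theorem transfer {σ : Type} :
    (∀ n (t : Term σ n), t.wscCount = 0 → ∃ c D, TT t c D) ∧
    (∀ n (φ : Formula σ n), φ.wscCount = 0 → ∃ c D, TF φ c D) := by
  refine plain_induction ?_ ?_ ?_ ?_ ?_ ?_ ?_ ?_ ?_ ?_ ?_ ?_ ?_ ?_
  · -- var
    intro n i
    exact ⟨0, 0, fun A V W B C _ _ _ _ _ _ _ 𝒮 ℛ b p P L κ e S w _ _ _ _ _ _ _ _ => rfl⟩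
  · -- empty
    intro n
    exact ⟨0, 0, fun A V W B C _ _ _ _ _ _ _ 𝒮 ℛ b p P L κ e S w _ _ _ _ _ _ _ _ =>
      𝒮.tr_empty w⟩
  · -- atoms
    intro n
    obtain ⟨β, hβ⟩ := exists_BD.1 n (.atoms : Term σ n) rfl
    refine ⟨β, 1, fun A V W B C _ _ _ _ _ _ _ 𝒮 ℛ b p P L κ e S w hp hA he hL hS hκ hM hw => ?_⟩
    have hsz := (hβ A (ℛ.R b) p P e hp hA he).trans hL
    rw [ev_atoms] at hsz
    rw [ev_atoms, ev_atoms]
    exact 𝒮.tr_atoms hM (HS_of_tcSize 𝒮 (𝒮.supp_atoms.trans (Finset.empty_subset S)) hsz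
      (by omega)) (𝒮.safe_anti (Finset.empty_subset _) hw)
  · -- pair
    intro n s t hs ht ⟨c1, D1, h1⟩ ⟨c2, D2, h2⟩
    obtain ⟨β, hβ⟩ := exists_BD.1 n (.pair s t) (by simp only [Term.wscCount, hs, ht])
    refine ⟨c1 + c2 + β, D1 + D2 + 1,
      fun A V W B C _ _ _ _ _ _ _ 𝒮 ℛ b p P L κ e S w hp hA he hL hS hκ hM hw => ?_⟩
    have hL1 : (P + 2) ^ c1 ≤ 2 ^ L := (pow_le_pow_of_le' (by omega) (by omega)).trans hL
    have hL2 : (P + 2) ^ c2 ≤ 2 ^ L := (pow_le_pow_of_le' (by omega) (by omega)).trans hL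
    have hL3 : (P + 2) ^ β ≤ 2 ^ L := (pow_le_pow_of_le' (by omega) (by omega)).trans hL
    have hκ1 : S.card + D1 * (2 * L) ≤ κ := le_trans (by nlinarith) hκ
    have hκ2 : S.card + D2 * (2 * L) ≤ κ := le_trans (by nlinarith) hκ
    have hκ3 : S.card + 2 * L ≤ κ := le_trans (by nlinarith) hκ
    have hsz := (hβ A (ℛ.R b) p P e hp hA he).trans hL3
    have hsup := supp_ev 𝒮 ℛ (.pair s t) (by simp only [Term.wscCount, hs, ht]) b p e S hS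
    have hHS := HS_of_tcSize 𝒮 hsup hsz hκ3
    rw [ev_pair hs ht] at hHS ⊢
    rw [ev_pair hs ht, 𝒮.tr_pair hM hHS (supp_ev 𝒮 ℛ s hs b p e S hS)
      (supp_ev 𝒮 ℛ t ht b p e S hS) (by omega) hw,
      h1 A V W B C 𝒮 ℛ b p P L κ e S w hp hA he hL1 hS hκ1 hM hw,
      h2 A V W B C 𝒮 ℛ b p P L κ e S w hp hA he hL2 hS hκ2 hM hw]
  · -- union
    intro n t ht ⟨c1, D1, h1⟩
    obtain ⟨β, hβ⟩ := exists_BD.1 n (.union t) (by simp only [Term.wscCount, ht])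
    obtain ⟨γ, hγ⟩ := exists_BD.1 n t ht
    refine ⟨c1 + γ + β, D1 + 1,
      fun A V W B C _ _ _ _ _ _ _ 𝒮 ℛ b p P L κ e S w hp hA he hL hS hκ hM hw => ?_⟩
    have hL1 : (P + 2) ^ c1 ≤ 2 ^ L := (pow_le_pow_of_le' (by omega) (by omega)).trans hL
    have hL2 : (P + 2) ^ γ ≤ 2 ^ L := (pow_le_pow_of_le' (by omega) (by omega)).trans hL
    have hL3 : (P + 2) ^ β ≤ 2 ^ L := (pow_le_pow_of_le' (by omega) (by omega)).trans hL
    have hκ1 : S.card + D1 * (2 * L) ≤ κ := le_trans (by nlinarith) hκ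
    have hκ3 : S.card + 2 * L ≤ κ := le_trans (by nlinarith) hκ
    have hsz := (hβ A (ℛ.R b) p P e hp hA he).trans hL3
    have hsup := supp_ev 𝒮 ℛ (.union t) (by simp only [Term.wscCount, ht]) b p e S hS
    have hHS := HS_of_tcSize 𝒮 hsup hsz hκ3
    have hsz' := (hγ A (ℛ.R b) p P e hp hA he).trans hL2
    have hsup' := supp_ev 𝒮 ℛ t ht b p e S hS
    have hHS' := HS_of_tcSize 𝒮 hsup' hsz' hκ3
    rw [ev_union ht] at hHS ⊢
    rw [ev_union ht, 𝒮.tr_union hM hHS' hHS hsup' (by omega) hw,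
      h1 A V W B C 𝒮 ℛ b p P L κ e S w hp hA he hL1 hS hκ1 hM hw]
  · -- theOnly
    intro n t ht ⟨c1, D1, h1⟩
    obtain ⟨γ, hγ⟩ := exists_BD.1 n t ht
    refine ⟨c1 + γ, D1 + 1,
      fun A V W B C _ _ _ _ _ _ _ 𝒮 ℛ b p P L κ e S w hp hA he hL hS hκ hM hw => ?_⟩
    have hL1 : (P + 2) ^ c1 ≤ 2 ^ L := (pow_le_pow_of_le' (by omega) (by omega)).trans hL
    have hL2 : (P + 2) ^ γ ≤ 2 ^ L := (pow_le_pow_of_le' (by omega) (by omega)).trans hL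
    have hκ1 : S.card + D1 * (2 * L) ≤ κ := le_trans (by nlinarith) hκ
    have hκ3 : S.card + 2 * L ≤ κ := le_trans (by nlinarith) hκ
    have hsz' := (hγ A (ℛ.R b) p P e hp hA he).trans hL2
    have hsup' := supp_ev 𝒮 ℛ t ht b p e S hS
    have hHS' := HS_of_tcSize 𝒮 hsup' hsz' hκ3
    rw [ev_theOnly ht, ev_theOnly ht, 𝒮.tr_only hM hHS' hsup' hw,
      h1 A V W B C 𝒮 ℛ b p P L κ e S w hp hA he hL1 hS hκ1 hM hw]
  · -- card
    intro n t ht ⟨c1, D1, h1⟩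
    obtain ⟨γ, hγ⟩ := exists_BD.1 n t ht
    refine ⟨c1 + γ, D1 + 1,
      fun A V W B C _ _ _ _ _ _ _ 𝒮 ℛ b p P L κ e S w hp hA he hL hS hκ hM hw => ?_⟩
    have hL1 : (P + 2) ^ c1 ≤ 2 ^ L := (pow_le_pow_of_le' (by omega) (by omega)).trans hL
    have hL2 : (P + 2) ^ γ ≤ 2 ^ L := (pow_le_pow_of_le' (by omega) (by omega)).trans hL
    have hκ1 : S.card + D1 * (2 * L) ≤ κ := le_trans (by nlinarith) hκ
    have hκ3 : S.card + 2 * L ≤ κ := le_trans (by nlinarith) hκ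
    have hsz' := (hγ A (ℛ.R b) p P e hp hA he).trans hL2
    have hsup' := supp_ev 𝒮 ℛ t ht b p e S hS
    have hHS' := HS_of_tcSize 𝒮 hsup' hsz' hκ3
    rw [ev_card ht, ev_card ht, 𝒮.tr_ord_card hM hHS' hsup' hw,
      h1 A V W B C 𝒮 ℛ b p P L κ e S w hp hA he hL1 hS hκ1 hM hw]
  · -- compr
    intro n r g bd hr hg hb ⟨cr, Dr, h1⟩ ⟨cg, Dg, h2⟩ ⟨cb, Db, h3⟩
    exact transfer_compr n r g bd hr hg hb h1 h2 h3
  · -- iter
    intro n s hs ⟨cs, Ds, h1⟩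
    exact transfer_iter n s hs h1
  · -- eq
    intro n s t hs ht ⟨c1, D1, h1⟩ ⟨c2, D2, h2⟩
    obtain ⟨β, hβ⟩ := exists_BD.1 n s hs
    obtain ⟨γ, hγ⟩ := exists_BD.1 n t ht
    refine ⟨c1 + c2 + β + γ, D1 + D2 + 1,
      fun A V W B C _ _ _ _ _ _ _ 𝒮 ℛ b p P L κ e S w hp hA he hL hS hκ hM hw => ?_⟩
    have hL1 : (P + 2) ^ c1 ≤ 2 ^ L := (pow_le_pow_of_le' (by omega) (by omega)).trans hL
    have hL2 : (P + 2) ^ c2 ≤ 2 ^ L := (pow_le_pow_of_le' (by omega) (by omega)).trans hL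
    have hL3 : (P + 2) ^ β ≤ 2 ^ L := (pow_le_pow_of_le' (by omega) (by omega)).trans hL
    have hL4 : (P + 2) ^ γ ≤ 2 ^ L := (pow_le_pow_of_le' (by omega) (by omega)).trans hL
    have hκ1 : S.card + D1 * (2 * L) ≤ κ := le_trans (by nlinarith) hκ
    have hκ2 : S.card + D2 * (2 * L) ≤ κ := le_trans (by nlinarith) hκ
    have hκ3 : S.card + 2 * L ≤ κ := le_trans (by nlinarith) hκ
    have s1 := supp_ev 𝒮 ℛ s hs b p e S hS
    have s2 := supp_ev 𝒮 ℛ t ht b p e S hS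
    have z1 := HS_of_tcSize 𝒮 s1 ((hβ A (ℛ.R b) p P e hp hA he).trans hL3) hκ3
    have z2 := HS_of_tcSize 𝒮 s2 ((hγ A (ℛ.R b) p P e hp hA he).trans hL4) hκ3
    rw [evF_eq hs ht, evF_eq hs ht,
      ← h1 A V W B C 𝒮 ℛ b p P L κ e S w hp hA he hL1 hS hκ1 hM hw,
      ← h2 A V W B C 𝒮 ℛ b p P L κ e S w hp hA he hL2 hS hκ2 hM hw]
    exact ⟨fun h => 𝒮.tr_inj hM z1 z2 (𝒮.safe_anti (Finset.union_subset s1 s2) hw) h,
      fun h => by rw [h]⟩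
  · -- rel
    intro n r s t hs ht ⟨c1, D1, h1⟩ ⟨c2, D2, h2⟩
    refine ⟨c1 + c2, D1 + D2 + 1,
      fun A V W B C _ _ _ _ _ _ _ 𝒮 ℛ b p P L κ e S w hp hA he hL hS hκ hM hw => ?_⟩
    have hL1 : (P + 2) ^ c1 ≤ 2 ^ L := (pow_le_pow_of_le' (by omega) (by omega)).trans hL
    have hL2 : (P + 2) ^ c2 ≤ 2 ^ L := (pow_le_pow_of_le' (by omega) (by omega)).trans hL
    have hκ1 : S.card + D1 * (2 * L) ≤ κ := le_trans (by nlinarith) hκ
    have hκ2 : S.card + D2 * (2 * L) ≤ κ := le_trans (by nlinarith) hκ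
    have s1 := supp_ev 𝒮 ℛ s hs b p e S hS
    have s2 := supp_ev 𝒮 ℛ t ht b p e S hS
    rw [evF_rel hs ht, evF_rel hs ht,
      ← h1 A V W B C 𝒮 ℛ b p P L κ e S w hp hA he hL1 hS hκ1 hM hw,
      ← h2 A V W B C 𝒮 ℛ b p P L κ e S w hp hA he hL2 hS hκ2 hM hw]
    have key : ∀ (x : HF A) (a : A), 𝒮.tr x w = atom a ↔ x = atom a := by
      intro x a
      rcases hf_cases x with ⟨a', rfl⟩ | hx
      · rw [𝒮.tr_atom]
      · rw [hx]
        constructor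
        · intro h
          rw [𝒮.tr_set] at h
          exact absurd h.symm (atom_ne_ofFinset _ _)
        · intro h
          exact absurd h.symm (atom_ne_ofFinset _ _)
    have hfix : ∀ (x : HF A) (a : A), x = atom a → 𝒮.supp x ⊆ S →
        ∀ z : V → B, (∀ v ∈ S, z v = 1) → 𝒮.act z a = a := by
      intro x a hx hs z hz
      have := 𝒮.fix_of_supp x z fun v hv => hz v (hs hv)
      rw [hx, 𝒮.ga_atom] at this
      exact atom_inj this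
    constructor
    · rintro ⟨a, a', ha, ha', h⟩
      rw [key] at ha ha'
      refine ⟨a, a', ha, ha', ?_⟩
      rwa [ℛ.R_loc b S w r a a' hw (hfix _ a ha s1) (hfix _ a' ha' s2)] at h
    · rintro ⟨a, a', ha, ha', h⟩
      refine ⟨a, a', (key _ _).2 ha, (key _ _).2 ha', ?_⟩
      rwa [ℛ.R_loc b S w r a a' hw (hfix _ a ha s1) (hfix _ a' ha' s2)]
  · -- not
    intro n φ hφ ⟨c1, D1, h1⟩
    refine ⟨c1, D1,
      fun A V W B C _ _ _ _ _ _ _ 𝒮 ℛ b p P L κ e S w hp hA he hL hS hκ hM hw => ?_⟩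
    rw [evF_not hφ, evF_not hφ, h1 A V W B C 𝒮 ℛ b p P L κ e S w hp hA he hL hS hκ hM hw]
  · -- and
    intro n φ ψ hφ hψ ⟨c1, D1, h1⟩ ⟨c2, D2, h2⟩
    refine ⟨c1 + c2, D1 + D2,
      fun A V W B C _ _ _ _ _ _ _ 𝒮 ℛ b p P L κ e S w hp hA he hL hS hκ hM hw => ?_⟩
    have hL1 : (P + 2) ^ c1 ≤ 2 ^ L := (pow_le_pow_of_le' (by omega) (by omega)).trans hL
    have hL2 : (P + 2) ^ c2 ≤ 2 ^ L := (pow_le_pow_of_le' (by omega) (by omega)).trans hL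
    have hκ1 : S.card + D1 * (2 * L) ≤ κ := le_trans (by nlinarith) hκ
    have hκ2 : S.card + D2 * (2 * L) ≤ κ := le_trans (by nlinarith) hκ
    rw [evF_and hφ hψ, evF_and hφ hψ, h1 A V W B C 𝒮 ℛ b p P L κ e S w hp hA he hL1 hS hκ1 hM hw,
      h2 A V W B C 𝒮 ℛ b p P L κ e S w hp hA he hL2 hS hκ2 hM hw]
  · -- or
    intro n φ ψ hφ hψ ⟨c1, D1, h1⟩ ⟨c2, D2, h2⟩
    refine ⟨c1 + c2, D1 + D2,
      fun A V W B C _ _ _ _ _ _ _ 𝒮 ℛ b p P L κ e S w hp hA he hL hS hκ hM hw => ?_⟩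
    have hL1 : (P + 2) ^ c1 ≤ 2 ^ L := (pow_le_pow_of_le' (by omega) (by omega)).trans hL
    have hL2 : (P + 2) ^ c2 ≤ 2 ^ L := (pow_le_pow_of_le' (by omega) (by omega)).trans hL
    have hκ1 : S.card + D1 * (2 * L) ≤ κ := le_trans (by nlinarith) hκ
    have hκ2 : S.card + D2 * (2 * L) ≤ κ := le_trans (by nlinarith) hκ
    rw [evF_or hφ hψ, evF_or hφ hψ, h1 A V W B C 𝒮 ℛ b p P L κ e S w hp hA he hL1 hS hκ1 hM hw,
      h2 A V W B C 𝒮 ℛ b p P L κ e S w hp hA he hL2 hS hκ2 hM hw]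

theorem poly_bound (q : Polynomial ℕ) : ∃ m : ℕ, ∀ N : ℕ, q.eval N ≤ (N + 2) ^ m := by
  induction q using Polynomial.induction_on' with
  | add p q hp hq =>
    obtain ⟨m1, h1⟩ := hp
    obtain ⟨m2, h2⟩ := hq
    refine ⟨m1 + m2 + 1, fun N => ?_⟩
    rw [Polynomial.eval_add]
    have e1 := h1 N
    have e2 := h2 N
    have e3 := pow_le_pow_of_le' (x := N + 2) (a := m1) (b := m1 + m2) (by omega) (by omega)
    have e4 := pow_le_pow_of_le' (x := N + 2) (a := m2) (b := m1 + m2) (by omega) (by omega)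
    have e5 : (N + 2) ^ (m1 + m2 + 1) = (N + 2) ^ (m1 + m2) * (N + 2) := by ring
    rw [e5]; nlinarith
  | monomial k a =>
    refine ⟨a + k, fun N => ?_⟩
    rw [Polynomial.eval_monomial, pow_add]
    have h1 : a ≤ (N + 2) ^ a := (Nat.lt_pow_self (by omega : 1 < N + 2)).le
    exact Nat.mul_le_mul h1 (Nat.pow_le_pow_left (by omega) _)

/-- THE ABSTRACT THEOREM: a plain sentence cannot see a defect. -/
theorem no_plain {σ : Type} (T : Sentence σ) (hT : T.IsPlain) : ∃ c : ℕ,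
    ∀ (A V W B C : Type) [Fintype A] [Fintype V] [Fintype W] [Group B] [Fintype B]
      [AddCommGroup C] [Fintype C] (𝒮 : Sys A V W B C) (ℛ : Rel 𝒮 σ) (b : W → ZMod 3) (w : W),
      w ∈ 𝒮.safe ∅ → c * (Nat.log 2 (Fintype.card A + 2) + 1) < 𝒮.M →
      T.value A (ℛ.R b) = T.value A (ℛ.R (b + Pi.single w 1)) := by
  obtain ⟨c, D, h⟩ := transfer.2 0 T.formula hT
  -- polynomial bound
  obtain ⟨m, hm⟩ : ∃ m : ℕ, ∀ N : ℕ, N + T.bound.eval N + 2 ≤ (N + 2) ^ m := by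
    obtain ⟨m, hm⟩ := poly_bound T.bound
    refine ⟨m + 2, fun N => ?_⟩
    have e1 := hm N
    have e2 : 1 ≤ (N + 2) ^ m := Nat.one_le_pow _ _ (by omega)
    have e5 : (N + 2) ^ (m + 2) = (N + 2) ^ m * ((N + 2) * (N + 2)) := by ring
    have e6 : N + 3 ≤ (N + 2) * (N + 2) := by nlinarith
    rw [e5]
    generalize (N + 2) ^ m = X at *
    calc N + T.bound.eval N + 2 ≤ X * (N + 3) := by nlinarith
      _ ≤ _ := Nat.mul_le_mul_left _ e6
  refine ⟨4 * (D * (2 * (m * c))) + 4 * (D * (2 * (m * c))) + 1,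
    fun A V W B C _ _ _ _ _ _ _ 𝒮 ℛ b w hw hM => ?_⟩
  set N := Fintype.card A with hN
  set p := T.bound.eval N with hp
  set ℓ := Nat.log 2 (N + 2) + 1 with hℓ
  have h1 : N + 2 ≤ 2 ^ ℓ := (Nat.lt_pow_succ_log_self (by norm_num) _).le
  have hL : (N + p + 2) ^ c ≤ 2 ^ (ℓ * (m * c)) := by
    calc (N + p + 2) ^ c ≤ ((N + 2) ^ m) ^ c := Nat.pow_le_pow_left (hm N) _
      _ = (N + 2) ^ (m * c) := by rw [← pow_mul]
      _ ≤ (2 ^ ℓ) ^ (m * c) := Nat.pow_le_pow_left h1 _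
      _ = 2 ^ (ℓ * (m * c)) := by rw [← pow_mul]
  have key := h A V W B C 𝒮 ℛ b p (N + p) (ℓ * (m * c)) (D * (2 * (ℓ * (m * c)))) Fin.elim0 ∅ w
    (Nat.le_add_left _ _) (Nat.le_add_right _ _) (fun i => i.elim0) hL (fun i => i.elim0)
    (by simp) (by
      refine lt_of_le_of_lt ?_ hM
      nlinarith [Nat.zero_le ℓ, Nat.zero_le (ℓ * (D * (m * c)))]) hw
  have he : (fun i : Fin 0 => 𝒮.tr ((Fin.elim0 : Fin 0 → HF A) i) w) = Fin.elim0 := by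
    funext i; exact i.elim0
  rw [he] at key
  rw [Sentence.value, Sentence.value, eval_eq_evF _ _ hT, eval_eq_evF _ _ hT]
  congr 1
  rw [decide_eq_decide]
  exact key.symm

end Crest.Agent.CPTL
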