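import Crest.Agent.CPT.Cx

/-!
# Row 282: the local group `Bg` (chunk R282-U1)
-/

noncomputable section
open Classical

namespace Crest.Agent.CPTL

theorem gen_mem {i j : Fin 6} (h : i ≠ j) : gen i j ∈ Bsub :=
  Subgroup.subset_closure (Or.inl ⟨i, j, h, rfl⟩)

theorem pm_mem {s : Equiv.Perm (Fin 6)} (h : s.IsThreeCycle) : pm s ∈ Bsub :=
  Subgroup.subset_closure (Or.inr ⟨s, h, rfl⟩)

theorem Bg_form_aux (g : Equiv.Perm (Fin 6 × ZMod 3)) (hg : g ∈ Bsub) :
    ∀ (i : Fin 6) (a : ZMod 3), g (i, a) = ((g (i, 0)).1, a + (g (i, 0)).2) := by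
  unfold Bsub at hg
  induction hg using Subgroup.closure_induction with
  | mem x hx =>
    rcases hx with ⟨i, j, _, rfl⟩ | ⟨s, _, rfl⟩
    · intro k a
      simp only [gen, Equiv.coe_fn_mk]
      refine Prod.ext rfl ?_
      simp only []
      ring
    · intro k a
      simp [pm]
  | one => intro i a; simp
  | mul x y _ _ hx hy =>
    intro i a
    rw [Equiv.Perm.mul_apply, Equiv.Perm.mul_apply, hy i a, hx]
    have e : y (i, 0) = ((y (i, 0)).1, (y (i, 0)).2) := rfl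
    have h2 := hx (y (i, 0)).1 (y (i, 0)).2
    rw [← e] at h2
    rw [h2]
    refine Prod.ext rfl ?_
    simp only []
    ring
  | inv x _ hx =>
    intro i a
    have h1 : x (x⁻¹ (i, 0)) = (i, 0) := by simp
    have e : x⁻¹ (i, 0) = ((x⁻¹ (i, 0)).1, (x⁻¹ (i, 0)).2) := rfl
    rw [e, hx] at h1
    have h2 := hx (x⁻¹ (i, 0)).1 (a + (x⁻¹ (i, 0)).2)
    rw [Equiv.Perm.inv_eq_iff_eq, h2]
    have h3 := congrArg Prod.fst h1
    have h4 := congrArg Prod.snd h1
    refine Prod.ext h3.symm ?_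
    simp only [] at h4 ⊢
    rw [add_assoc, h4, add_zero]

/-- (U1.1) the elements of `Bg` commute with the shift.  `Subgroup.closure_induction`. -/
theorem Bg_form (g : Bg) (i : Fin 6) (a : ZMod 3) :
    g.1 (i, a) = ((g.1 (i, 0)).1, a + (g.1 (i, 0)).2) :=
  Bg_form_aux g.1 g.2 i a

/-- (U1.2) the shift is in the group: `sh = gen 0 1 * gen 2 1 * gen 3 4 * gen 5 4` (`decide`). -/
theorem sh_mem : sh ∈ Bsub := by
  have h : sh = gen 0 1 * gen 2 1 * gen 3 4 * gen 5 4 := by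
    refine Equiv.ext ?_
    rintro ⟨i, a⟩
    simp only [sh, gen, Equiv.Perm.mul_apply, Equiv.coe_fn_mk]
    refine Prod.ext rfl ?_
    fin_cases i <;> revert a <;> decide
  rw [h]
  exact mul_mem (mul_mem (mul_mem (gen_mem (by decide)) (gen_mem (by decide)))
    (gen_mem (by decide))) (gen_mem (by decide))

/-- the central shift as an element of `Bg` -/
def shB : Bg := ⟨sh, sh_mem⟩

/-- (U1.3) -/
theorem shB_pow_apply (n : ℕ) (x : Fin 6 × ZMod 3) : ((shB ^ n : Bg)).1 x = (x.1, x.2 + n) := by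
  induction n with
  | zero => simp
  | succ n ih =>
    rw [pow_succ', Subgroup.coe_mul, Equiv.Perm.mul_apply, ih]
    show ((x.1, x.2 + (n : ZMod 3) + 1) : Fin 6 × ZMod 3) = _
    push_cast
    rw [add_assoc]

/-- (U1.4) the shift is central (use `Bg_form`). -/
theorem shB_comm (h : Bg) : shB * h = h * shB := by
  refine Subtype.ext (Equiv.ext ?_)
  rintro ⟨i, a⟩
  rw [Subgroup.coe_mul, Subgroup.coe_mul, Equiv.Perm.mul_apply, Equiv.Perm.mul_apply]
  have h1 : (shB : Bg).1 (i, a) = (i, a + 1) := rfl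
  rw [h1, Bg_form h i a, Bg_form h i (a + 1)]
  show ((h.1 (i, 0)).1, a + (h.1 (i, 0)).2 + 1) = ((h.1 (i, 0)).1, a + 1 + (h.1 (i, 0)).2)
  refine Prod.ext rfl ?_
  simp only []
  ring

/-- (U1.5) the sheets are permuted transitively (a 3-cycle `swap i j * swap i k`, or `1`). -/
theorem Bg_trans (i j : Fin 6) : ∃ g : Bg, ∀ a, (g.1 (i, a)).1 = j := by
  by_cases hij : i = j
  · subst hij
    exact ⟨1, fun a => rfl⟩
  · obtain ⟨k, hk1, hk2⟩ : ∃ k : Fin 6, k ≠ i ∧ k ≠ j := by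
      revert i j
      decide
    have hc := Equiv.Perm.isThreeCycle_swap_mul_swap_same (a := i) (b := k) (c := j) hk1.symm hij hk2
    refine ⟨⟨pm _, pm_mem hc⟩, fun a => ?_⟩
    show (Equiv.swap i k * Equiv.swap i j) i = j
    rw [Equiv.Perm.mul_apply, Equiv.swap_apply_left]
    exact Equiv.swap_apply_of_ne_of_ne (Ne.symm hij) hk2.symm

private theorem U1b_pts : ∀ i k : Fin 6, i ≠ k →
    ∃ j l : Fin 6, j ≠ i ∧ j ≠ k ∧ l ≠ i ∧ l ≠ k ∧ l ≠ j := by decide

private theorem U1b_gen_eq {i j k : Fin 6} {s : Equiv.Perm (Fin 6)} (hk : s k = i) (hj : s j = j) :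
    gen i k = pm s * gen k j * (pm s)⁻¹ * (gen k j)⁻¹ := by
  rw [eq_mul_inv_iff_mul_eq, eq_mul_inv_iff_mul_eq]
  refine Equiv.ext fun x => ?_
  obtain ⟨x1, a⟩ := x
  have e1 : (s x1 = i) ↔ (x1 = k) := by rw [← hk]; exact s.injective.eq_iff
  have e2 : (s x1 = j) ↔ (x1 = j) := by
    constructor
    · intro h
      exact s.injective (h.trans hj.symm)
    · intro h
      rw [h, hj]
  show ((s x1, a + (if s x1 = k then 1 else 0) - (if s x1 = j then 1 else 0) +
      (if s x1 = i then 1 else 0) - (if s x1 = k then 1 else 0)) : Fin 6 × ZMod 3) =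
    ((s x1, a + (if x1 = k then 1 else 0) - (if x1 = j then 1 else 0)) : Fin 6 × ZMod 3)
  refine Prod.ext rfl ?_
  simp only [e1, e2]
  ring

open scoped commutatorElement in
/-- (U1.6) `gen i k` (`i ≠ k`) is the commutator of `pm s` and `gen k j`, `s` a 3-cycle with `s k = i`, `s j = j`.
Since `pm s * gen k j * (pm s)⁻¹ = gen (s k) (s j)`. -/
theorem gen_comm {i k : Fin 6} (h : i ≠ k) :
    (⟨gen i k, gen_mem h⟩ : Bg) ∈ commutator Bg := by
  obtain ⟨j, l, hji, hjk, hli, hlk, hlj⟩ := U1b_pts i k h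
  have hs : (Equiv.swap k l * Equiv.swap k i).IsThreeCycle :=
    Equiv.Perm.isThreeCycle_swap_mul_swap_same hlk.symm h.symm hli
  have hk : (Equiv.swap k l * Equiv.swap k i) k = i := by
    rw [Equiv.Perm.mul_apply, Equiv.swap_apply_left, Equiv.swap_apply_of_ne_of_ne h hli.symm]
  have hj : (Equiv.swap k l * Equiv.swap k i) j = j := by
    rw [Equiv.Perm.mul_apply, Equiv.swap_apply_of_ne_of_ne hjk hji,
      Equiv.swap_apply_of_ne_of_ne hjk hlj.symm]
  have e : (⟨gen i k, gen_mem h⟩ : Bg) =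
      ⁅(⟨pm _, pm_mem hs⟩ : Bg), (⟨gen k j, gen_mem hjk.symm⟩ : Bg)⁆ :=
    Subtype.ext (U1b_gen_eq hk hj)
  rw [e]
  exact Subgroup.commutator_mem_commutator (Subgroup.mem_top _) (Subgroup.mem_top _)

private theorem U1b_pm_mul (a b : Equiv.Perm (Fin 6)) : pm (a * b) = pm a * pm b :=
  Equiv.ext fun _ => rfl

private theorem U1b_pm_inv (a : Equiv.Perm (Fin 6)) : pm a⁻¹ = (pm a)⁻¹ :=
  Equiv.ext fun _ => rfl

private theorem U1b_s0 : ∃ x y : Equiv.Perm (Fin 6), x.IsThreeCycle ∧ y.IsThreeCycle ∧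
    (x * y * x⁻¹ * y⁻¹).IsThreeCycle := by
  refine ⟨Equiv.swap 0 1 * Equiv.swap 0 2, Equiv.swap 0 3 * Equiv.swap 0 4,
    Equiv.Perm.isThreeCycle_swap_mul_swap_same (by decide) (by decide) (by decide),
    Equiv.Perm.isThreeCycle_swap_mul_swap_same (by decide) (by decide) (by decide), ?_⟩
  have e : (Equiv.swap 0 1 * Equiv.swap 0 2) * (Equiv.swap 0 3 * Equiv.swap 0 4) *
      (Equiv.swap 0 1 * Equiv.swap 0 2)⁻¹ * (Equiv.swap 0 3 * Equiv.swap 0 4)⁻¹ =
      (Equiv.swap 0 4 * Equiv.swap 0 2 : Equiv.Perm (Fin 6)) := by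
    decide
  rw [e]
  exact Equiv.Perm.isThreeCycle_swap_mul_swap_same (by decide) (by decide) (by decide)

open scoped commutatorElement in
/-- (U1.7) `pm s`, `s` a 3-cycle, is a commutator: `s = c * s₀ * c⁻¹` with `s₀ = ⁅x₀, y₀⁆`, all three 3-cycles of `Fin 6`
(`Equiv.Perm.IsThreeCycle`, `isConj_iff_cycleType_eq`; `pm` is multiplicative). -/
theorem pm_comm {s : Equiv.Perm (Fin 6)} (h : s.IsThreeCycle) :
    (⟨pm s, pm_mem h⟩ : Bg) ∈ commutator Bg := by
  obtain ⟨x, y, hx, hy, h0⟩ := U1b_s0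
  have hc : IsConj (x * y * x⁻¹ * y⁻¹) s := by
    rw [Equiv.Perm.isConj_iff_cycleType_eq]
    exact h0.trans h.symm
  obtain ⟨c, hc⟩ := isConj_iff.1 hc
  have hx' : (c * x * c⁻¹).IsThreeCycle := by
    unfold Equiv.Perm.IsThreeCycle
    rw [Equiv.Perm.cycleType_conj]
    exact hx
  have hy' : (c * y * c⁻¹).IsThreeCycle := by
    unfold Equiv.Perm.IsThreeCycle
    rw [Equiv.Perm.cycleType_conj]
    exact hy
  have e : (⟨pm s, pm_mem h⟩ : Bg) =
      ⁅(⟨pm (c * x * c⁻¹), pm_mem hx'⟩ : Bg), (⟨pm (c * y * c⁻¹), pm_mem hy'⟩ : Bg)⁆ := by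
    refine Subtype.ext ?_
    show pm s = pm (c * x * c⁻¹) * pm (c * y * c⁻¹) * (pm (c * x * c⁻¹))⁻¹ *
      (pm (c * y * c⁻¹))⁻¹
    rw [← U1b_pm_inv, ← U1b_pm_inv, ← U1b_pm_mul, ← U1b_pm_mul, ← U1b_pm_mul, ← hc]
    congr 1
    group
  rw [e]
  exact Subgroup.commutator_mem_commutator (Subgroup.mem_top _) (Subgroup.mem_top _)

/-- (U1.8) `Bg` is perfect: every element is a product of generators
(`Subgroup.closure_induction` for the statement `∀ (h : g ∈ Bsub), ⟨g, h⟩ ∈ commutator Bg`). -/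
theorem Bg_perfect : commutator Bg = ⊤ := by
  rw [eq_top_iff]
  have key : ∀ (g : Equiv.Perm (Fin 6 × ZMod 3)) (h : g ∈ Bsub),
      (⟨g, h⟩ : Bg) ∈ commutator Bg := by
    intro g h
    refine Subgroup.closure_induction
      (p := fun g h => (⟨g, h⟩ : Bg) ∈ commutator Bg) ?_ ?_ ?_ ?_ h
    · rintro x (⟨i, j, hij, rfl⟩ | ⟨s, hs, rfl⟩)
      · exact gen_comm hij
      · exact pm_comm hs
    · exact Subgroup.one_mem _
    · intro x y hx hy h1 h2
      exact Subgroup.mul_mem _ h1 h2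
    · intro x hx h1
      exact Subgroup.inv_mem _ h1
  intro g _
  exact key g.1 g.2

end Crest.Agent.CPTL
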