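import Crest.Agent.CPT.UnivG

/-!
# Row 282: the laws of the actions (chunk R282-U2)
-/

set_option linter.unusedSectionVars false

noncomputable section
open Classical

namespace Crest.Agent.CPTL

variable {V E W : Type} [Fintype V] [Fintype E] [Fintype W] (K : Cplx V E W)

theorem ul_one_apply (v : V) (i : Fin 6) : (((1 : V → Bg) v).1 (i, 0)) = (i, 0) := rfl

theorem ul_mul_fst (g h : V → Bg) (v : V) (i : Fin 6) :
    (((g * h) v).1 (i, 0)).1 = ((g v).1 (((h v).1 (i, 0)).1, 0)).1 := by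
  have e : ((g * h) v).1 (i, 0) = (g v).1 ((h v).1 (i, 0)) := rfl
  rw [e]
  have h2 := congrArg Prod.fst (Bg_form (g v) ((h v).1 (i, 0)).1 ((h v).1 (i, 0)).2)
  exact h2

theorem ul_mul_snd (g h : V → Bg) (v : V) (i : Fin 6) :
    (((g * h) v).1 (i, 0)).2 =
      ((h v).1 (i, 0)).2 + ((g v).1 (((h v).1 (i, 0)).1, 0)).2 := by
  have e : ((g * h) v).1 (i, 0) = (g v).1 ((h v).1 (i, 0)) := rfl
  rw [e]
  exact congrArg Prod.snd (Bg_form (g v) ((h v).1 (i, 0)).1 ((h v).1 (i, 0)).2)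

theorem actE_one (x : EA K) : actE K 1 x = x := by
  refine congrArg (Sigma.mk x.1) (Prod.ext (funext fun v => ?_) ?_)
  · rfl
  · show x.2.2 + ∑ v : {v // K.kap v x.1 ≠ 0}, K.kap v.1 x.1 * (0 : ZMod 3) = x.2.2
    simp

theorem actC_one (x : CA K) : actC K 1 x = x := by
  refine congrArg (Sigma.mk x.1) (Prod.ext (funext fun v => ?_) (funext fun e => ?_))
  · rfl
  · show x.2.2 e + ∑ v : {v // K.At v x.1}, K.kap v.1 e.1 * (0 : ZMod 3) = x.2.2 e
    simp

theorem actB_one (x : Base K) : actB K 1 x = x := by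
  cases x with
  | ed x => exact congrArg Base.ed (actE_one K x)
  | cf x => exact congrArg Base.cf (actC_one K x)
  | om v i => rfl
  | st s => rfl
  | vt w => rfl
  | gp v h =>
    show Base.gp v ((1 : V → Bg) v * h * ((1 : V → Bg) v)⁻¹) = Base.gp v h
    simp

theorem actQ_one (q : V × Bg) : actQ 1 q = q := by
  refine Prod.ext rfl ?_
  show (1 : V → Bg) q.1 * q.2 * ((1 : V → Bg) q.1)⁻¹ = q.2
  simp

theorem actU_one (x : U K) : actU K 1 x = x := by
  rcases x with x | ⟨q, x⟩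
  · exact congrArg Sum.inl (actB_one K x)
  · exact congrArg Sum.inr (Prod.ext (actQ_one q) (actB_one K x))

theorem actE_mul (g h : V → Bg) (x : EA K) : actE K (g * h) x = actE K g (actE K h x) := by
  refine congrArg (Sigma.mk x.1) (Prod.ext (funext fun v => ?_) ?_)
  · exact ul_mul_fst g h v.1 (x.2.1 v)
  · show x.2.2 + ∑ v : {v // K.kap v x.1 ≠ 0}, K.kap v.1 x.1 * (((g * h) v.1).1 (x.2.1 v, 0)).2 =
      (x.2.2 + ∑ v : {v // K.kap v x.1 ≠ 0}, K.kap v.1 x.1 * ((h v.1).1 (x.2.1 v, 0)).2) +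
        ∑ v : {v // K.kap v x.1 ≠ 0}, K.kap v.1 x.1 *
          ((g v.1).1 (((h v.1).1 (x.2.1 v, 0)).1, 0)).2
    rw [add_assoc, ← Finset.sum_add_distrib]
    congr 1
    refine Finset.sum_congr rfl fun v _ => ?_
    rw [ul_mul_snd, mul_add]

theorem actC_mul (g h : V → Bg) (x : CA K) : actC K (g * h) x = actC K g (actC K h x) := by
  refine congrArg (Sigma.mk x.1) (Prod.ext (funext fun v => ?_) (funext fun e => ?_))
  · exact ul_mul_fst g h v.1 (x.2.1 v)
  · show x.2.2 e + ∑ v : {v // K.At v x.1}, K.kap v.1 e.1 * (((g * h) v.1).1 (x.2.1 v, 0)).2 =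
      (x.2.2 e + ∑ v : {v // K.At v x.1}, K.kap v.1 e.1 * ((h v.1).1 (x.2.1 v, 0)).2) +
        ∑ v : {v // K.At v x.1}, K.kap v.1 e.1 *
          ((g v.1).1 (((h v.1).1 (x.2.1 v, 0)).1, 0)).2
    rw [add_assoc, ← Finset.sum_add_distrib]
    congr 1
    refine Finset.sum_congr rfl fun v _ => ?_
    rw [ul_mul_snd, mul_add]

theorem actB_mul (g h : V → Bg) (x : Base K) : actB K (g * h) x = actB K g (actB K h x) := by
  cases x with
  | ed x => exact congrArg Base.ed (actE_mul K g h x)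
  | cf x => exact congrArg Base.cf (actC_mul K g h x)
  | om v i => exact congrArg (Base.om v) (ul_mul_fst g h v i)
  | st s => rfl
  | vt w => rfl
  | gp v k =>
    show Base.gp v ((g * h) v * k * ((g * h) v)⁻¹) = Base.gp v (g v * (h v * k * (h v)⁻¹) * (g v)⁻¹)
    rw [Pi.mul_apply, mul_inv_rev]
    simp only [mul_assoc]

theorem actQ_mul (g h : V → Bg) (q : V × Bg) : actQ (g * h) q = actQ g (actQ h q) := by
  refine Prod.ext rfl ?_
  show (g * h) q.1 * q.2 * ((g * h) q.1)⁻¹ = g q.1 * (h q.1 * q.2 * (h q.1)⁻¹) * (g q.1)⁻¹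
  rw [Pi.mul_apply, mul_inv_rev]
  simp only [mul_assoc]

/-- use `Bg_form` for `(g v * h v) (i, 0) = g v (h v (i, 0))` -/
theorem actU_mul (g h : V → Bg) (x : U K) : actU K (g * h) x = actU K g (actU K h x) := by
  rcases x with x | ⟨q, x⟩
  · exact congrArg Sum.inl (actB_mul K g h x)
  · exact congrArg Sum.inr (Prod.ext (actQ_mul g h q) (actB_mul K g h x))

theorem tauB_zero (x : Base K) : tauB K 0 x = x := by
  rcases x with ⟨e, i, a⟩ | ⟨w, i, a⟩ | _ | _ | _ | _
  · show Base.ed (⟨e, i, a + 0⟩ : EA K) = Base.ed ⟨e, i, a⟩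
    rw [add_zero]
  · show Base.cf (⟨w, i, fun e => a e + 0⟩ : CA K) = Base.cf ⟨w, i, a⟩
    simp only [add_zero]
  all_goals rfl

theorem tauU_zero (x : U K) : tauU K 0 x = x := by
  rcases x with x | ⟨q, x⟩
  · exact congrArg Sum.inl (tauB_zero K x)
  · exact congrArg Sum.inr (Prod.ext rfl (tauB_zero K x))

theorem tauB_add (f g : E → ZMod 3) (x : Base K) :
    tauB K (f + g) x = tauB K f (tauB K g x) := by
  rcases x with ⟨e, i, a⟩ | ⟨w, i, a⟩ | _ | _ | _ | _
  · show Base.ed (⟨e, i, a + (f e + g e)⟩ : EA K) = Base.ed ⟨e, i, a + g e + f e⟩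
    rw [add_assoc, add_comm (g e)]
  · show Base.cf (⟨w, i, fun e => a e + (f e.1 + g e.1)⟩ : CA K) =
      Base.cf ⟨w, i, fun e => a e + g e.1 + f e.1⟩
    simp only [add_assoc, add_comm (g _)]
  all_goals rfl

theorem tauU_add (f g : E → ZMod 3) (x : U K) : tauU K (f + g) x = tauU K f (tauU K g x) := by
  rcases x with x | ⟨q, x⟩
  · exact congrArg Sum.inl (tauB_add K f g x)
  · exact congrArg Sum.inr (Prod.ext rfl (tauB_add K f g x))

theorem actB_tauB (g : V → Bg) (f : E → ZMod 3) (x : Base K) :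
    actB K g (tauB K f x) = tauB K f (actB K g x) := by
  rcases x with ⟨e, i, a⟩ | ⟨w, i, a⟩ | _ | _ | _ | _
  · show Base.ed (⟨e, fun v => ((g v.1).1 (i v, 0)).1,
        a + f e + ∑ v : {v // K.kap v e ≠ 0}, K.kap v.1 e * ((g v.1).1 (i v, 0)).2⟩ : EA K) =
      Base.ed ⟨e, fun v => ((g v.1).1 (i v, 0)).1,
        a + ∑ v : {v // K.kap v e ≠ 0}, K.kap v.1 e * ((g v.1).1 (i v, 0)).2 + f e⟩
    rw [add_right_comm]
  · show Base.cf (⟨w, fun v => ((g v.1).1 (i v, 0)).1, fun e =>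
        a e + f e.1 + ∑ v : {v // K.At v w}, K.kap v.1 e.1 * ((g v.1).1 (i v, 0)).2⟩ : CA K) =
      Base.cf ⟨w, fun v => ((g v.1).1 (i v, 0)).1, fun e =>
        a e + ∑ v : {v // K.At v w}, K.kap v.1 e.1 * ((g v.1).1 (i v, 0)).2 + f e.1⟩
    simp only [add_right_comm]
  all_goals rfl

theorem actU_tauU (g : V → Bg) (f : E → ZMod 3) (x : U K) :
    actU K g (tauU K f x) = tauU K f (actU K g x) := by
  rcases x with x | ⟨q, x⟩
  · exact congrArg Sum.inl (actB_tauB K g f x)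
  · exact congrArg Sum.inr (Prod.ext rfl (actB_tauB K g f x))

end Crest.Agent.CPTL
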