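import Mathlib
import Crest.Prelude.Def_HF
import Crest.Prelude.Def_CPT
import Crest.Agent.CPT.HF
import Crest.Agent.CPT.EvalIso

/-!
# Row 282, S0426: a first-order language over the atoms with one set variable, compiled to `Formula`
-/

noncomputable section
open Classical

namespace Crest.Agent.CPTL
open Crest.LogicCS.HFSet Crest.LogicCS.CPT

/-- first-order formulas over the atoms with `n` variables and a monadic predicate `mem` -/
inductive FO (σ : Type) : ℕ → Type
  | tr {n : ℕ} : FO σ n
  | rel {n : ℕ} (r : σ) (i j : Fin n) : FO σ n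
  | eq {n : ℕ} (i j : Fin n) : FO σ n
  | mem {n : ℕ} (i : Fin n) : FO σ n
  | not {n : ℕ} (φ : FO σ n) : FO σ n
  | and {n : ℕ} (φ ψ : FO σ n) : FO σ n
  | or {n : ℕ} (φ ψ : FO σ n) : FO σ n
  | ex {n : ℕ} (φ : FO σ (n + 1)) : FO σ n

variable {σ : Type} {A : Type}

namespace FO

/-- semantics; `X` interprets `mem` -/
def sem (R : σ → A → A → Bool) (X : Set A) : {n : ℕ} → FO σ n → (Fin n → A) → Prop
  | _, .tr, _ => True
  | _, .rel r i j, v => R r (v i) (v j) = true
  | _, .eq i j, v => v i = v j
  | _, .mem i, v => v i ∈ X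
  | _, .not φ, v => ¬ sem R X φ v
  | _, .and φ ψ, v => sem R X φ v ∧ sem R X ψ v
  | _, .or φ ψ, v => sem R X φ v ∨ sem R X ψ v
  | _, .ex φ, v => ∃ a, sem R X φ (Fin.cons a v)

def imp {n : ℕ} (φ ψ : FO σ n) : FO σ n := .or (.not φ) ψ

def iff {n : ℕ} (φ ψ : FO σ n) : FO σ n := .and (imp φ ψ) (imp ψ φ)

def all {n : ℕ} (φ : FO σ (n + 1)) : FO σ n := .not (.ex (.not φ))

def conj {n : ℕ} : List (FO σ n) → FO σ n
  | [] => .tr
  | φ :: l => .and φ (conj l)

section semlemmas
variable (R : σ → A → A → Bool) (X : Set A) {n : ℕ} (v : Fin n → A)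

@[simp] theorem sem_tr : sem R X (.tr : FO σ n) v ↔ True := Iff.rfl
@[simp] theorem sem_rel (r : σ) (i j : Fin n) :
    sem R X (.rel r i j) v ↔ R r (v i) (v j) = true := Iff.rfl
@[simp] theorem sem_eq (i j : Fin n) : sem R X (.eq i j : FO σ n) v ↔ v i = v j := Iff.rfl
@[simp] theorem sem_mem (i : Fin n) : sem R X (.mem i : FO σ n) v ↔ v i ∈ X := Iff.rfl
@[simp] theorem sem_not (φ : FO σ n) : sem R X (.not φ) v ↔ ¬ sem R X φ v := Iff.rfl
@[simp] theorem sem_and (φ ψ : FO σ n) :
    sem R X (.and φ ψ) v ↔ sem R X φ v ∧ sem R X ψ v := Iff.rfl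
@[simp] theorem sem_or (φ ψ : FO σ n) :
    sem R X (.or φ ψ) v ↔ sem R X φ v ∨ sem R X ψ v := Iff.rfl
@[simp] theorem sem_ex (φ : FO σ (n + 1)) :
    sem R X (.ex φ) v ↔ ∃ a, sem R X φ (Fin.cons a v) := Iff.rfl
@[simp] theorem sem_imp (φ ψ : FO σ n) :
    sem R X (imp φ ψ) v ↔ (sem R X φ v → sem R X ψ v) := by
  unfold imp; simp only [sem_or, sem_not]; tauto
@[simp] theorem sem_iff (φ ψ : FO σ n) :
    sem R X (iff φ ψ) v ↔ (sem R X φ v ↔ sem R X ψ v) := by
  unfold iff; simp only [sem_and, sem_imp]; tauto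
@[simp] theorem sem_all (φ : FO σ (n + 1)) :
    sem R X (all φ) v ↔ ∀ a, sem R X φ (Fin.cons a v) := by
  unfold all; simp only [sem_not, sem_ex]; push Not; rfl
@[simp] theorem sem_conj (l : List (FO σ n)) :
    sem R X (conj l) v ↔ ∀ φ ∈ l, sem R X φ v := by
  induction l with
  | nil => simp [conj]
  | cons φ l ih => simp [conj, ih]

end semlemmas

/-- position of the `i`-th atom variable -/
def vi {m n : ℕ} (i : Fin n) : Fin (m + n) := ⟨i.1, by omega⟩

/-- position of the base variable `j` after `n` atom variables -/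
def bi {m : ℕ} (j : Fin m) (n : ℕ) : Fin (m + n) := ⟨j.1 + n, by omega⟩

/-- compilation; `j` is the base variable holding the state -/
def cmp {m : ℕ} (j : Fin m) : {n : ℕ} → FO σ n → Formula σ (m + n)
  | _, .tr => .eq .empty .empty
  | _, .rel r i k => .rel r (.var (vi i)) (.var (vi k))
  | _, .eq i k => .eq (.var (vi i)) (.var (vi k))
  | n, .mem i => .not (.eq (.compr (.var (bi j n))
      (.eq (.var 0) (.var (Fin.succ (vi i)))) .empty) .empty)
  | _, .not φ => .not (cmp j φ)
  | _, .and φ ψ => .and (cmp j φ) (cmp j ψ)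
  | _, .or φ ψ => .or (cmp j φ) (cmp j ψ)
  | _, .ex φ => .not (.eq (.compr .atoms (cmp j φ) .empty) .empty)

theorem cmp_count {m : ℕ} (j : Fin m) {n : ℕ} (φ : FO σ n) : (cmp j φ).wscCount = 0 := by
  induction φ with
  | tr => simp [cmp, Formula.wscCount, Term.wscCount]
  | rel r i k => simp [cmp, Formula.wscCount, Term.wscCount]
  | eq i k => simp [cmp, Formula.wscCount, Term.wscCount]
  | mem i => simp [cmp, Formula.wscCount, Term.wscCount]
  | not φ ih => simp [cmp, Formula.wscCount, ih]
  | and φ ψ ih1 ih2 => simp [cmp, Formula.wscCount, ih1, ih2]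
  | or φ ψ ih1 ih2 => simp [cmp, Formula.wscCount, ih1, ih2]
  | ex φ ih => simp [cmp, Formula.wscCount, Term.wscCount, ih]

/-- the environment: atom variables first, then the base environment -/
def env {m n : ℕ} (e : Fin m → HF A) (v : Fin n → A) : Fin (m + n) → HF A :=
  fun i => if h : i.1 < n then atom (v ⟨i.1, h⟩) else e ⟨i.1 - n, by omega⟩

theorem env_vi {m n : ℕ} (e : Fin m → HF A) (v : Fin n → A) (i : Fin n) :
    env e v (vi i) = atom (v i) := by
  simp [env, vi]

theorem env_bi {m n : ℕ} (e : Fin m → HF A) (v : Fin n → A) (j : Fin m) :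
    env e v (bi j n) = e j := by
  simp [env, bi]

theorem env_cons {m n : ℕ} (e : Fin m → HF A) (v : Fin n → A) (a : A) :
    env e (Fin.cons a v : Fin (n + 1) → A) =
      (Fin.cons (atom a) (env e v) : Fin (m + n + 1) → HF A) := by
  funext i
  refine Fin.cases ?_ (fun i => ?_) i
  · rw [Fin.cons_zero]
    show env e (Fin.cons a v : Fin (n + 1) → A) ⟨0, _⟩ = _
    unfold env
    rw [dif_pos (Nat.succ_pos n)]
    rfl
  · rw [Fin.cons_succ]
    unfold env
    by_cases h : i.1 < n
    · rw [dif_pos h, dif_pos (show (Fin.succ i).1 < n + 1 by simpa using h)]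
      rfl
    · rw [dif_neg h, dif_neg (show ¬ (Fin.succ i).1 < n + 1 by simpa using h)]
      congr 1
      apply Fin.ext
      simp

theorem env_zero {m : ℕ} (e : Fin m → HF A) (v : Fin 0 → A) : env e v = e := by
  funext i
  simp [env]

end FO

section evals
variable [Fintype A] (R : σ → A → A → Bool) (p : ℕ)

theorem members_atoms : members (ofFinset (Finset.univ.image (atom : A → HF A))) =
    Finset.univ.image (atom : A → HF A) := members_ofFinset _

/-- evaluation of a comprehension over all atoms -/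
theorem eval_compr_atoms {n : ℕ} (guard : Formula σ (n + 1)) (body : Term σ (n + 1))
    (e : Fin n → HF A) (P : A → Prop) (f : A → HF A)
    (hg : ∀ a, guard.eval R p (Fin.cons (atom a) e) = some (decide (P a)))
    (hb : ∀ a, P a → body.eval R p (Fin.cons (atom a) e) = some (f a)) :
    (Term.compr .atoms guard body).eval R p e =
      some (ofFinset ((Finset.univ.filter P).image f)) := by
  rw [Term.eval, Term.eval, Option.bind_some, comprValue, if_neg, members_atoms]
  · congr 2
    ext u
    simp only [Finset.mem_image, Finset.mem_filter, Finset.mem_univ, true_and]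
    constructor
    · rintro ⟨w, ⟨⟨a, rfl⟩, h⟩, rfl⟩
      rw [hg a, Option.some.injEq, decide_eq_true_iff] at h
      exact ⟨a, h, by rw [hb a h]; rfl⟩
    · rintro ⟨a, h, rfl⟩
      exact ⟨atom a, ⟨⟨a, rfl⟩, by rw [hg a]; simpa using h⟩, by rw [hb a h]; rfl⟩
  · rintro ⟨u, hu, h⟩
    rw [members_atoms, Finset.mem_image] at hu
    obtain ⟨a, -, rfl⟩ := hu
    rcases h with h | ⟨h1, h2⟩
    · rw [hg a] at h; cases h
    · rw [hg a, Option.some.injEq, decide_eq_true_iff] at h1
      rw [hb a h1] at h2; cases h2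

theorem eval_empty {n : ℕ} (e : Fin n → HF A) : (Term.empty : Term σ n).eval R p e = some empty := by
  rw [Term.eval]

theorem ofFinset_eq_empty_iff (s : Finset (HF A)) : ofFinset s = empty ↔ s = ∅ := by
  constructor
  · intro h; exact ofFinset_inj h
  · rintro rfl; rfl

/-- evaluation of `¬ (t = ∅)` -/
theorem eval_not_empty {n : ℕ} (t : Term σ n) (e : Fin n → HF A) (s : Finset (HF A))
    (h : t.eval R p e = some (ofFinset s)) (P : Prop) (hP : P ↔ s.Nonempty) :
    (Formula.not (.eq t .empty)).eval R p e = some (decide P) := by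
  rw [Formula.eval, Formula.eval, h, eval_empty, Option.bind_some, Option.map_some,
    Option.map_some, Option.some.injEq]
  by_cases hs : s = ∅
  · have h1 : ¬ P := by rw [hP, hs]; simp
    have h2 : ofFinset s = (empty : HF A) := (ofFinset_eq_empty_iff s).2 hs
    rw [decide_eq_true h2, decide_eq_false h1]
    rfl
  · have h1 : P := hP.2 (Finset.nonempty_iff_ne_empty.2 hs)
    have h2 : ¬ ofFinset s = (empty : HF A) := fun h => hs ((ofFinset_eq_empty_iff s).1 h)
    rw [decide_eq_false h2, decide_eq_true h1]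
    rfl

/-- semantics of compiled formulas -/
theorem cmp_eval {m : ℕ} (j : Fin m) (e : Fin m → HF A) {n : ℕ} (φ : FO σ n) (v : Fin n → A) :
    (FO.cmp j φ).eval R p (FO.env e v) =
      some (decide (φ.sem R {a | atom a ∈ members (e j)} v)) := by
  induction φ with
  | tr =>
    rw [FO.cmp, Formula.eval, eval_empty, Option.bind_some, Option.map_some, FO.sem]
    simp
  | rel r i k =>
    rw [FO.cmp, Formula.eval, Term.eval, Term.eval, Option.bind_some, Option.map_some,
      FO.env_vi, FO.env_vi, FO.sem, Option.some.injEq, decide_eq_decide]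
    constructor
    · rintro ⟨a, b, h1, h2, h3⟩
      rw [atom_inj h1, atom_inj h2]
      exact h3
    · intro h
      exact ⟨_, _, rfl, rfl, h⟩
  | eq i k =>
    rw [FO.cmp, Formula.eval, Term.eval, Term.eval, Option.bind_some, Option.map_some,
      FO.env_vi, FO.env_vi, FO.sem, Option.some.injEq, decide_eq_decide]
    exact ⟨fun h => atom_inj h, fun h => by rw [h]⟩
  | mem i =>
    rename_i n
    rw [FO.cmp, FO.sem]
    have hg : ∀ u : HF A, (Formula.eq (.var 0) (.var (Fin.succ (FO.vi i))) :
        Formula σ (m + n + 1)).eval R p (Fin.cons u (FO.env e v)) =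
          some (decide (u = atom (v i))) := by
      intro u
      rw [Formula.eval, Term.eval, Term.eval, Option.bind_some, Option.map_some, Fin.cons_zero,
        Fin.cons_succ, FO.env_vi]
    refine eval_not_empty R p _ _
      (((members (e j)).filter fun u => u = atom (v i)).image fun _ => (empty : HF A)) ?_ _ ?_
    · rw [Term.eval, Term.eval, Option.bind_some, FO.env_bi, comprValue, if_neg]
      · congr 2
        ext u
        simp only [Finset.mem_image, Finset.mem_filter]
        constructor
        · rintro ⟨w, ⟨hw, h⟩, rfl⟩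
          rw [hg w, Option.some.injEq, decide_eq_true_iff] at h
          exact ⟨w, ⟨hw, h⟩, by rw [eval_empty]; rfl⟩
        · rintro ⟨w, ⟨hw, h⟩, rfl⟩
          exact ⟨w, ⟨hw, by rw [hg w, Option.some.injEq, decide_eq_true_iff]; exact h⟩,
            by rw [eval_empty]; rfl⟩
      · rintro ⟨u, hu, h⟩
        rcases h with h | ⟨h1, h2⟩
        · rw [hg u] at h; cases h
        · rw [eval_empty] at h2; cases h2
    · rw [Finset.image_nonempty]
      constructor
      · intro h
        exact ⟨atom (v i), Finset.mem_filter.2 ⟨h, rfl⟩⟩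
      · rintro ⟨u, hu⟩
        obtain ⟨h1, h2⟩ := Finset.mem_filter.1 hu
        rw [h2] at h1
        exact h1
  | not φ ih =>
    rw [FO.cmp, Formula.eval, ih v, Option.map_some, FO.sem, Option.some.injEq]
    by_cases h : φ.sem R {a | atom a ∈ members (e j)} v
    · simp [h]
    · simp [h]
  | and φ ψ ih1 ih2 =>
    rw [FO.cmp, Formula.eval, ih1 v, ih2 v, Option.bind_some, Option.map_some, FO.sem,
      Option.some.injEq]
    by_cases h : φ.sem R {a | atom a ∈ members (e j)} v
    · by_cases h' : ψ.sem R {a | atom a ∈ members (e j)} v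
      · simp [h, h']
      · simp [h, h']
    · simp [h]
  | or φ ψ ih1 ih2 =>
    rw [FO.cmp, Formula.eval, ih1 v, ih2 v, Option.bind_some, Option.map_some, FO.sem,
      Option.some.injEq]
    by_cases h : φ.sem R {a | atom a ∈ members (e j)} v
    · simp [h]
    · by_cases h' : ψ.sem R {a | atom a ∈ members (e j)} v
      · simp [h, h']
      · simp [h, h']
  | ex φ ih =>
    rename_i n
    rw [FO.cmp, FO.sem]
    refine eval_not_empty R p _ _
      ((Finset.univ.filter fun a => φ.sem R {a | atom a ∈ members (e j)} (Fin.cons a v)).image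
        fun _ => (empty : HF A)) ?_ _ ?_
    · refine eval_compr_atoms R p _ _ _
        (fun a => φ.sem R {a | atom a ∈ members (e j)} (Fin.cons a v)) (fun _ => empty) ?_ ?_
      · intro a
        have h := ih (Fin.cons a v)
        rw [FO.env_cons] at h
        exact h
      · intro a _
        rw [eval_empty]
    · rw [Finset.image_nonempty]
      constructor
      · rintro ⟨a, ha⟩
        exact ⟨a, Finset.mem_filter.2 ⟨Finset.mem_univ _, ha⟩⟩
      · rintro ⟨a, ha⟩
        exact ⟨a, (Finset.mem_filter.1 ha).2⟩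

end evals

end Crest.Agent.CPTL
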