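import Mathlib
import Crest.Prelude.Def_HF
import Crest.Prelude.Def_CPT
import Crest.Agent.CPT.HF
import Crest.Agent.CPT.WscFO

/-!
# Row 282, S0426: the generic self-verifying sentence with one witnessed choice
-/

noncomputable section
open Classical

namespace Crest.Agent.CPTL
open Crest.LogicCS.HFSet Crest.LogicCS.CPT

/-- A program: `Act q a b` ("`q` maps `a` to `b`"), `Cand X a` ("`a` may be added to the state
`X`"), `Out X`; formulas (in arbitrary variable positions) with their meaning. -/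
structure Prog where
  ActF : ∀ {n : ℕ}, Fin n → Fin n → Fin n → FO (Fin 8) n
  CandF : ∀ {n : ℕ}, Fin n → FO (Fin 8) n
  OutF : ∀ {n : ℕ}, FO (Fin 8) n
  Act : ∀ {A : Type}, (Fin 8 → A → A → Bool) → A → A → A → Prop
  Cand : ∀ {A : Type}, (Fin 8 → A → A → Bool) → Set A → A → Prop
  Out : ∀ {A : Type}, (Fin 8 → A → A → Bool) → Set A → Prop
  hAct : ∀ {A : Type} (R : Fin 8 → A → A → Bool) (X : Set A) {n : ℕ} (v : Fin n → A) (q a b : Fin n),
    (ActF q a b).sem R X v ↔ Act R (v q) (v a) (v b)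
  hCand : ∀ {A : Type} (R : Fin 8 → A → A → Bool) (X : Set A) {n : ℕ} (v : Fin n → A) (a : Fin n),
    (CandF a).sem R X v ↔ Cand R X (v a)
  hOut : ∀ {A : Type} (R : Fin 8 → A → A → Bool) (X : Set A) {n : ℕ} (v : Fin n → A),
    (OutF (n := n)).sem R X v ↔ Out R X
  Cand_not_mem : ∀ {A : Type} (R : Fin 8 → A → A → Bool) (X : Set A) (a : A), Cand R X a → a ∉ X

namespace Prog

variable (P : Prog) {A : Type}

/-- `q` acts as an automorphism -/
def Aut (R : Fin 8 → A → A → Bool) (q : A) : Prop :=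
  (∀ a, ∃ b, P.Act R q a b) ∧ ∀ a b a' b', P.Act R q a b → P.Act R q a' b' →
    ((a = a' ↔ b = b') ∧ ∀ r, (R r a a' = true ↔ R r b b' = true))

/-- `q` acts as an automorphism fixing every element of `X` -/
def AutX (R : Fin 8 → A → A → Bool) (X : Set A) (q : A) : Prop :=
  P.Aut R q ∧ ∀ a, a ∈ X → P.Act R q a a

/-- the symmetry check of the state -/
def Chk (R : Fin 8 → A → A → Bool) (X : Set A) : Prop :=
  ∀ u u', P.Cand R X u → P.Cand R X u' → ∃ q, P.AutX R X q ∧ P.Act R q u u'

/-- candidates of a checked state -/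
def Go (R : Fin 8 → A → A → Bool) (X : Set A) (u : A) : Prop := P.Cand R X u ∧ P.Chk R X

def AutF {n : ℕ} (q : Fin n) : FO (Fin 8) n :=
  .and (.all (.ex (P.ActF q.succ.succ 1 0)))
    (.all (.all (.all (.all (.imp (P.ActF q.succ.succ.succ.succ 3 2)
      (.imp (P.ActF q.succ.succ.succ.succ 1 0)
        (.and (.iff (.eq 3 1) (.eq 2 0))
          (.conj ((List.finRange 8).map fun r => .iff (.rel r 3 1) (.rel r 2 0))))))))))

def AutXF {n : ℕ} (q : Fin n) : FO (Fin 8) n :=
  .and (P.AutF q) (.all (.imp (.mem 0) (P.ActF q.succ 0 0)))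

def ChkF {n : ℕ} : FO (Fin 8) n :=
  .all (.all (.imp (P.CandF 1) (.imp (P.CandF 0) (.ex (.and (P.AutXF 0) (P.ActF 0 2 1))))))

def GoF {n : ℕ} (u : Fin n) : FO (Fin 8) n := .and (P.CandF u) P.ChkF

variable (R : Fin 8 → A → A → Bool) (X : Set A) {n : ℕ} (v : Fin n → A)

theorem sem_AutF (q : Fin n) : (P.AutF q).sem R X v ↔ P.Aut R (v q) := by
  simp only [AutF, FO.sem_and, FO.sem_all, FO.sem_ex, FO.sem_imp, FO.sem_iff, FO.sem_eq,
    FO.sem_conj, P.hAct, Fin.cons_succ]
  constructor
  · rintro ⟨h1, h2⟩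
    refine ⟨h1, fun a b a' b' ha hb => ?_⟩
    obtain ⟨h3, h4⟩ := h2 a b a' b' ha hb
    refine ⟨h3, fun r => ?_⟩
    have h5 := h4 _ (List.mem_map.2 ⟨r, List.mem_finRange r, rfl⟩)
    rw [FO.sem_iff, FO.sem_rel, FO.sem_rel] at h5
    exact h5
  · rintro ⟨h1, h2⟩
    refine ⟨h1, fun a b a' b' ha hb => ?_⟩
    obtain ⟨h3, h4⟩ := h2 a b a' b' ha hb
    refine ⟨h3, fun φ hφ => ?_⟩
    obtain ⟨r, -, rfl⟩ := List.mem_map.1 hφ
    rw [FO.sem_iff, FO.sem_rel, FO.sem_rel]
    exact h4 r

theorem sem_AutXF (q : Fin n) : (P.AutXF q).sem R X v ↔ P.AutX R X (v q) := by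
  simp only [AutXF, AutX, FO.sem_and, FO.sem_all, FO.sem_imp, FO.sem_mem, P.hAct, Fin.cons_succ,
    Fin.cons_zero, P.sem_AutF]

theorem sem_ChkF : (P.ChkF (n := n)).sem R X v ↔ P.Chk R X := by
  simp only [ChkF, Chk, FO.sem_and, FO.sem_all, FO.sem_imp, FO.sem_ex, P.hAct, P.hCand,
    P.sem_AutXF]
  rfl

theorem sem_GoF (u : Fin n) : (P.GoF u).sem R X v ↔ P.Go R X (v u) := by
  simp only [GoF, Go, FO.sem_and, P.hCand, P.sem_ChkF]

/-- an automorphism element gives a permutation -/
theorem exists_perm [Fintype A] {R : Fin 8 → A → A → Bool} {q : A} (h : P.Aut R q) :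
    ∃ g : Equiv.Perm A, (∀ a b, P.Act R q a b ↔ b = g a) ∧ IsAut R g := by
  obtain ⟨h1, h2⟩ := h
  choose f hf using h1
  have hinj : Function.Injective f := fun a a' h => (h2 a (f a) a' (f a') (hf a) (hf a')).1.2 h
  refine ⟨Equiv.ofBijective f (Finite.injective_iff_bijective.1 hinj), fun a b => ⟨fun h => ?_, fun h => ?_⟩, ?_⟩
  · exact ((h2 a b a (f a) h (hf a)).1.1 rfl)
  · rw [h]; exact hf a
  · intro r a b
    have := (h2 a (f a) b (f b) (hf a) (hf b)).2 r
    exact (Bool.eq_iff_iff.2 this).symm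

/-! ## the terms -/

/-- `{s}` -/
def sing {n : ℕ} (s : Term (Fin 8) n) : Term (Fin 8) n := .pair s s

/-- Kuratowski pair -/
def kp {n : ℕ} (s t : Term (Fin 8) n) : Term (Fin 8) n := .pair (sing s) (.pair s t)

def tt {n : ℕ} : Formula (Fin 8) n := .eq .empty .empty

/-- the choice set: `{{u} | Go u}`, or `{∅}` if there is no such `u` -/
def choiceT : Term (Fin 8) 1 :=
  .union (.pair (.compr .atoms (FO.cmp (m := 1) 0 (P.GoF (n := 1) 0)) (sing (.var 0)))
    (.compr (sing .empty) (FO.cmp (m := 2) (n := 0) 1 (.not (.ex (P.GoF 0)))) .empty))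

/-- `x ∪ y` -/
def stepT : Term (Fin 8) 2 := .union (.pair (.var 1) (.var 0))

/-- graph of the map of the group element `var 0` (state `var 1`, `var 2` unused) -/
def graphT : Term (Fin 8) 3 :=
  .compr .atoms tt (kp (.var 0) (.theOnly
    (.compr .atoms (FO.cmp (m := 2) 0 (P.ActF (n := 3) 2 1 0)) (.var 0))))

/-- the witness set: all automorphism elements fixing the state, and the identity -/
def witT : Term (Fin 8) 2 :=
  .union (.pair (.compr .atoms (FO.cmp (m := 2) 0 (P.AutXF (n := 1) 0)) P.graphT)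
    (sing (.compr .atoms tt (kp (.var 0) (.var 0)))))

def outF : Formula (Fin 8) 1 := FO.cmp (m := 1) (n := 0) 0 P.OutF

/-- the sentence -/
def sent : Sentence (Fin 8) where
  formula := .wsc stepT P.choiceT P.witT P.outF
  bound := Polynomial.X

theorem sent_count : P.sent.formula.wscCount = 1 := by
  simp [sent, Formula.wscCount, stepT, choiceT, witT, outF, graphT, kp, sing, tt, Term.wscCount,
    FO.cmp_count]

/-! ## evaluation -/

/-- the set of atoms in an object -/
def St (x : HF A) : Set A := {a | atom a ∈ members x}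

/-- the object of a set of atoms -/
def obj (X : Finset A) : HF A := ofFinset (X.image atom)

theorem St_obj (X : Finset A) : St (obj X) = ↑X := by
  ext a
  simp only [St, obj, Set.mem_ofPred_eq, members_ofFinset, Finset.mem_image, Finset.mem_coe]
  constructor
  · rintro ⟨b, hb, h⟩
    rwa [← atom_inj h]
  · intro h; exact ⟨a, h, rfl⟩

theorem obj_inj {X Y : Finset A} (h : obj X = obj Y) : X = Y := by
  have := congrArg St h
  rw [St_obj, St_obj] at this
  exact_mod_cast this

theorem tc_atom (a : A) : tc (atom a) = ∅ := by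
  rw [tc_eq, members_atom]; rfl

theorem tcSize_obj (X : Finset A) : tcSize (obj X) = X.card := by
  rw [tcSize_eq, tc_eq, obj, members_ofFinset]
  rw [show ((X.image atom).biUnion fun y => insert y (tc y)) = X.image (atom : A → HF A) by
    ext u
    simp only [Finset.mem_biUnion, Finset.mem_image, Finset.mem_insert]
    constructor
    · rintro ⟨y, ⟨a, ha, rfl⟩, h⟩
      rw [tc_atom] at h
      rcases h with rfl | h
      · exact ⟨a, ha, rfl⟩
      · simp at h
    · rintro ⟨a, ha, rfl⟩
      exact ⟨_, ⟨a, ha, rfl⟩, Or.inl rfl⟩]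
  exact Finset.card_image_of_injective _ fun a b h => atom_inj h

/-- value of the step -/
def stp (x y : HF A) : HF A := ofFinset (members x ∪ members y)

section evals
variable [Fintype A]

/-- value of the choice set -/
def chS (x : HF A) : HF A :=
  ofFinset (((Finset.univ.filter fun a => P.Go R (St x) a).image fun a => ofFinset {atom a}) ∪
    (if ∃ a, P.Go R (St x) a then ∅ else {empty}))

/-- a run of the program -/
abbrev Run (b c : ℕ → HF A) (k : ℕ) : Prop :=
  IsRun (fun x y => some (stp x y)) (fun x => some (P.chS R x)) b c k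

end evals

end Prog

end Crest.Agent.CPTL
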