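import Mathlib
import Crest.Prelude.Def_HF
import Crest.Prelude.Def_CPT
import Crest.Agent.CPT.HF
import Crest.Agent.CPT.WscFO
import Crest.Agent.CPT.WscSent

/-!
# Row 282, S0426: evaluation of the terms of the sentence (chunk R282-W-EV)
-/

noncomputable section
open Classical

namespace Crest.Agent.CPTL
open Crest.LogicCS.HFSet Crest.LogicCS.CPT

namespace Prog

variable (P : Prog) {A : Type} [Fintype A] (R : Fin 8 → A → A → Bool)

theorem ev_pair {n : ℕ} (p : ℕ) (s t : Term (Fin 8) n) (e : Fin n → HF A) (x y : HF A)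
    (hs : s.eval R p e = some x) (ht : t.eval R p e = some y) :
    (Term.pair s t).eval R p e = some (ofFinset {x, y}) := by
  rw [Term.eval, hs, ht]
  rfl

theorem ev_sing {n : ℕ} (p : ℕ) (s : Term (Fin 8) n) (e : Fin n → HF A) (x : HF A)
    (hs : s.eval R p e = some x) : (sing s).eval R p e = some (ofFinset {x}) := by
  unfold sing
  rw [ev_pair R p s s e x x hs hs, Finset.pair_eq_singleton]

theorem ev_kp {n : ℕ} (p : ℕ) (s t : Term (Fin 8) n) (e : Fin n → HF A) (x y : HF A)
    (hs : s.eval R p e = some x) (ht : t.eval R p e = some y) :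
    (kp s t).eval R p e = some (kpair x y) := by
  unfold kp
  rw [ev_pair R p _ _ e _ _ (ev_sing R p s e x hs) (ev_pair R p s t e x y hs ht)]
  rfl

theorem ev_var {n : ℕ} (p : ℕ) (i : Fin n) (e : Fin n → HF A) :
    (Term.var i : Term (Fin 8) n).eval R p e = some (e i) := by
  rw [Term.eval]

theorem ev_union {n : ℕ} (p : ℕ) (s t : Term (Fin 8) n) (e : Fin n → HF A) (x y : HF A)
    (hs : s.eval R p e = some x) (ht : t.eval R p e = some y) :
    (Term.union (Term.pair s t)).eval R p e = some (ofFinset (members x ∪ members y)) := by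
  rw [Term.eval, ev_pair R p s t e x y hs ht, Option.map_some, members_ofFinset]
  congr 2
  ext z
  simp

theorem ev_tt {n : ℕ} (p : ℕ) (e : Fin n → HF A) :
    (tt : Formula (Fin 8) n).eval R p e = some (@decide True (Classical.propDecidable True)) := by
  unfold tt
  rw [Formula.eval, Term.eval]
  simp

/-- (R282-W-EV) -/
theorem step_eval (p : ℕ) (e : Fin 2 → HF A) : stepT.eval R p e = some (stp (e 1) (e 0)) := by
  unfold stepT
  rw [ev_union R p _ _ e _ _ (ev_var R p 1 e) (ev_var R p 0 e)]
  rfl

theorem env_one {m : ℕ} (e : Fin m → HF A) (v : Fin 1 → A) :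
    FO.env e v = (Fin.cons (atom (v 0)) e : Fin (m + 1) → HF A) := by
  have h : v = (Fin.cons (v 0) (fun i : Fin 0 => i.elim0) : Fin 1 → A) := by
    funext i
    refine Fin.cases ?_ (fun i => i.elim0) i
    rfl
  rw [h, FO.env_cons, FO.env_zero]
  rfl

/-- (R282-W-EV) -/
theorem choice_eval (p : ℕ) (e : Fin 1 → HF A) : P.choiceT.eval R p e = some (P.chS R (e 0)) := by
  unfold choiceT
  have h1 : (Term.compr .atoms (FO.cmp (m := 1) 0 (P.GoF (n := 1) 0)) (sing (.var 0)) :
      Term (Fin 8) 1).eval R p e =
      some (ofFinset ((Finset.univ.filter fun a => P.Go R (St (e 0)) a).image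
        fun a => ofFinset {atom a})) := by
    refine eval_compr_atoms R p _ _ e _ _ (fun a => ?_) (fun a _ => ?_)
    · have h := cmp_eval R p (0 : Fin 1) e (P.GoF (n := 1) 0) (fun _ => a)
      rw [env_one] at h
      refine h.trans ?_
      congr 1
      rw [decide_eq_decide]
      exact P.sem_GoF R _ _ 0
    · exact ev_sing R p _ _ _ (ev_var R p _ _)
  have h2 : (Term.compr (sing .empty) (FO.cmp (m := 2) (n := 0) 1 (.not (.ex (P.GoF 0)))) .empty :
      Term (Fin 8) 1).eval R p e =
      some (ofFinset (if ∃ a, P.Go R (St (e 0)) a then ∅ else {empty})) := by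
    rw [Term.eval, ev_sing R p _ e _ (eval_empty R p e), Option.bind_some]
    have hg : ∀ u : HF A, (FO.cmp (m := 2) (n := 0) 1 (.not (.ex (P.GoF 0)))).eval R p
        (Fin.cons u e : Fin 2 → HF A) = some (decide (¬ ∃ a, P.Go R (St (e 0)) a)) := by
      intro u
      have h := cmp_eval R p (1 : Fin 2) (Fin.cons u e : Fin 2 → HF A)
        (.not (.ex (P.GoF 0))) (fun i : Fin 0 => i.elim0)
      rw [FO.env_zero] at h
      refine h.trans ?_
      congr 1
      rw [decide_eq_decide, FO.sem_not, FO.sem_ex]
      refine not_congr (exists_congr fun a => ?_)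
      exact P.sem_GoF R _ _ 0
    unfold comprValue
    rw [if_neg, members_ofFinset]
    · by_cases hex : ∃ a, P.Go R (St (e 0)) a
      · rw [if_pos hex, Finset.filter_false_of_mem, Finset.image_empty]
        intro u _ hu
        beta_reduce at hu
        rw [hg u, Option.some.injEq, decide_eq_true_iff] at hu
        exact hu hex
      · rw [if_neg hex, Finset.filter_true_of_mem, Finset.image_singleton]
        · show some (ofFinset {((Term.empty : Term (Fin 8) 2).eval R p (Fin.cons empty e)).getD empty}) = _
          rw [eval_empty]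
          rfl
        · intro u _
          beta_reduce
          rw [hg u, Option.some.injEq, decide_eq_true_iff]
          exact hex
    · rintro ⟨u, -, h | ⟨-, h⟩⟩
      · have h' : (FO.cmp (m := 2) (n := 0) 1 (.not (.ex (P.GoF 0)))).eval R p
          (Fin.cons u e : Fin 2 → HF A) = none := h
        rw [hg u] at h'; cases h'
      · have h' : (Term.empty : Term (Fin 8) 2).eval R p (Fin.cons u e) = none := h
        rw [eval_empty] at h'; cases h'
  rw [ev_union R p _ _ e _ _ h1 h2, members_ofFinset, members_ofFinset]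
  rfl

/-- (R282-W-EV) -/
theorem out_eval (p : ℕ) (e : Fin 1 → HF A) : P.outF.eval R p e = some (decide (P.Out R (St (e 0)))) := by
  unfold outF
  have h := cmp_eval R p (0 : Fin 1) e (P.OutF (n := 0)) (fun i : Fin 0 => i.elim0)
  rw [FO.env_zero] at h
  refine h.trans ?_
  congr 1
  rw [decide_eq_decide]
  exact P.hOut R _ _

/-- value of `theOnly` -/
def ony (x : HF A) : HF A := if h : ∃ y, members x = {y} then Classical.choose h else empty

omit [Fintype A] in
theorem ony_single (y : HF A) : ony (ofFinset {y}) = y := by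
  have h : ∃ z, members (ofFinset {y} : HF A) = {z} := ⟨y, members_ofFinset _⟩
  unfold ony
  rw [dif_pos h]
  have h2 := Classical.choose_spec h
  exact (Finset.singleton_injective ((members_ofFinset _).symm.trans h2)).symm

theorem graph_eval (p : ℕ) (e : Fin 2 → HF A) (q : A) :
    P.graphT.eval R p (Fin.cons (atom q) e : Fin 3 → HF A) =
      some (ofFinset (Finset.univ.image fun a => kpair (atom a)
        (ony (ofFinset ((Finset.univ.filter fun b => P.Act R q a b).image atom))))) := by
  unfold graphT
  have key := eval_compr_atoms R p (tt : Formula (Fin 8) 4) (kp (.var 0) (.theOnly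
    (.compr .atoms (FO.cmp (m := 2) 0 (P.ActF (n := 3) 2 1 0)) (.var 0))))
    (Fin.cons (atom q) e : Fin 3 → HF A) (fun _ => True)
    (fun a => kpair (atom a)
        (ony (ofFinset ((Finset.univ.filter fun b => P.Act R q a b).image atom))))
    (fun a => ev_tt R p _) (fun a _ => ?_)
  · rw [key, Finset.filter_true]
  · refine ev_kp R p _ _ _ _ _ (ev_var R p _ _) ?_
    rw [Term.eval]
    have h3 := eval_compr_atoms R p (FO.cmp (m := 2) (n := 3) 0 (P.ActF (n := 3) 2 1 0))
      (.var 0 : Term (Fin 8) 5) (Fin.cons (atom a) (Fin.cons (atom q) e : Fin 3 → HF A) : Fin 4 → HF A)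
      (fun b => P.Act R q a b) (fun b => atom b) (fun b => ?_) (fun b _ => ev_var R p _ _)
    · rw [h3]
      rfl
    · have h := cmp_eval R p (0 : Fin 2) e (P.ActF (n := 3) 2 1 0)
        (Fin.cons b (Fin.cons a (fun _ => q)) : Fin 3 → A)
      rw [FO.env_cons, FO.env_cons, env_one] at h
      refine h.trans ?_
      congr 1
      rw [decide_eq_decide]
      exact P.hAct R _ _ 2 1 0

theorem graph_perm (q : A) (g : Equiv.Perm A) (hg : ∀ a b, P.Act R q a b ↔ b = g a) :
    (ofFinset (Finset.univ.image fun a => kpair (atom a)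
        (ony (ofFinset ((Finset.univ.filter fun b => P.Act R q a b).image atom)))) : HF A) =
      permGraph g := by
  unfold permGraph
  congr 2
  funext a
  have h : (Finset.univ.filter fun b => P.Act R q a b) = {g a} := by
    ext b
    simp [hg]
  rw [h, Finset.image_singleton, ony_single]

/-- (R282-W-EV) the witness set -/
theorem wit_eval (p : ℕ) (e : Fin 2 → HF A) : ∃ M, P.witT.eval R p e = some M ∧ ¬ IsAtom M ∧
    permGraph (1 : Equiv.Perm A) ∈ members M ∧
    (∀ q, P.AutX R (St (e 0)) q → ∀ g : Equiv.Perm A, (∀ a b, P.Act R q a b ↔ b = g a) →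
      permGraph g ∈ members M) ∧
    (∀ m ∈ members M, m = permGraph (1 : Equiv.Perm A) ∨
      ∃ q, P.AutX R (St (e 0)) q ∧ ∀ g : Equiv.Perm A, (∀ a b, P.Act R q a b ↔ b = g a) →
        m = permGraph g) := by
  have h1 : (Term.compr .atoms (FO.cmp (m := 2) 0 (P.AutXF (n := 1) 0)) P.graphT :
      Term (Fin 8) 2).eval R p e =
      some (ofFinset ((Finset.univ.filter fun q => P.AutX R (St (e 0)) q).image
        fun q => ofFinset (Finset.univ.image fun a => kpair (atom a)
          (ony (ofFinset ((Finset.univ.filter fun b => P.Act R q a b).image atom)))))) := by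
    refine eval_compr_atoms R p _ _ e _ _ (fun a => ?_) (fun a _ => ?_)
    · have h := cmp_eval R p (0 : Fin 2) e (P.AutXF (n := 1) 0) (fun _ => a)
      rw [env_one] at h
      refine h.trans ?_
      congr 1
      rw [decide_eq_decide]
      exact P.sem_AutXF R _ _ 0
    · exact P.graph_eval R p e a
  have h2 : (sing (.compr .atoms tt (kp (.var 0) (.var 0))) : Term (Fin 8) 2).eval R p e =
      some (ofFinset {permGraph (1 : Equiv.Perm A)}) := by
    refine ev_sing R p _ _ _ ?_
    have key := eval_compr_atoms R p (tt : Formula (Fin 8) 3) (kp (.var 0) (.var 0)) e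
      (fun _ => True) (fun a => kpair (atom a) (atom a)) (fun a => ev_tt R p _)
      (fun a _ => ev_kp R p _ _ _ _ _ (ev_var R p _ _) (ev_var R p _ _))
    rw [key, Finset.filter_true]
    rfl
  refine ⟨_, ev_union R p _ _ e _ _ h1 h2, not_isAtom_ofFinset _, ?_, ?_, ?_⟩
  · rw [members_ofFinset, members_ofFinset, members_ofFinset]
    exact Finset.mem_union_right _ (Finset.mem_singleton_self _)
  · intro q hq g hg
    rw [members_ofFinset, members_ofFinset, members_ofFinset]
    refine Finset.mem_union_left _ (Finset.mem_image.2 ⟨q, ?_, P.graph_perm R q g hg⟩)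
    exact Finset.mem_filter.2 ⟨Finset.mem_univ _, hq⟩
  · intro m hm
    rw [members_ofFinset, members_ofFinset, members_ofFinset] at hm
    rcases Finset.mem_union.1 hm with hm | hm
    · obtain ⟨q, hq, rfl⟩ := Finset.mem_image.1 hm
      exact Or.inr ⟨q, (Finset.mem_filter.1 hq).2, fun g hg => P.graph_perm R q g hg⟩
    · exact Or.inl (Finset.mem_singleton.1 hm)

end Prog

end Crest.Agent.CPTL
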