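import Mathlib
import Crest.Agent.CPT.UnivM
import Crest.Agent.CPT.UnivC
import Crest.Agent.CPT.FRel
import Crest.Agent.CPT.Main
import Crest.Agent.CPT.WscSent

/-!
# Row 282, S0426: the family of structures for the sentence with one witnessed choice
(chunks R282-W-STR, R282-W-ACT)
-/

noncomputable section
open Classical

namespace Crest.Agent.CPTL
open Crest.LogicCS.HFSet Crest.LogicCS.CPT

variable {V E W : Type} [Fintype V] [Fintype E] [Fintype W] {K : Cplx V E W}

/-- elimination order of the edges, injective -/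
def stE (T : Topo K) (e : E) : ℕ :=
  T.key e * (Fintype.card E + 1) + (Fintype.equivFin E e).1

theorem stE_inj (T : Topo K) {e e' : E} (h : stE T e = stE T e') : e = e' := by
  unfold stE at h
  have h1 := (Fintype.equivFin E e).isLt
  have h2 := (Fintype.equivFin E e').isLt
  have h3 : (Fintype.equivFin E e).1 = (Fintype.equivFin E e').1 := by
    have h4 := congrArg (· % (Fintype.card E + 1)) h
    simp only [Nat.mul_add_mod_self_right] at h4
    rwa [Nat.mod_eq_of_lt (by omega), Nat.mod_eq_of_lt (by omega)] at h4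
  exact (Fintype.equivFin E).injective (Fin.ext h3)

theorem stE_lt (T : Topo K) {e e' : E} (h : T.key e < T.key e') : stE T e < stE T e' := by
  unfold stE
  have h1 := (Fintype.equivFin E e).isLt
  have h2 : (T.key e + 1) * (Fintype.card E + 1) ≤ T.key e' * (Fintype.card E + 1) :=
    Nat.mul_le_mul_right _ h
  have h3 : (T.key e + 1) * (Fintype.card E + 1) =
      T.key e * (Fintype.card E + 1) + (Fintype.card E + 1) := by ring
  omega

/-- a real edge -/
def Real (K : Cplx V E W) (e : E) : Prop := ∃ w, K.d e w ≠ 0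

/-- the stage of an atom: first the sites, then the real edges -/
def stage (T : Topo K) : U K → Option ℕ
  | .inl (.om v _) => some (Fintype.equivFin V v).1
  | .inl (.ed x) => if Real K x.1 then some (Fintype.card V + stE T x.1) else none
  | _ => none

/-- the configuration `c` contradicts the chosen atom -/
def Confl (c : CA K) : Base K → Prop
  | .om v i => ∃ h : K.At v c.1, c.2.1 ⟨v, h⟩ ≠ i
  | .ed x => K.d x.1 c.1 ≠ 0 ∧ ¬ Restr K c x
  | _ => False

/-- the relations as propositions -/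
def WP (T : Topo K) (b : W → ZMod 3) : Fin 8 → U K → U K → Prop
  | 0, x, y => ∃ s t, stage T x = some s ∧ stage T y = some t ∧ s ≤ t
  | 1, x, y => ∃ c y', x = .inl (.cf c) ∧ y = .inl y' ∧ Confl c y'
  | 2, x, y => ∃ c, x = .inl (.cf c) ∧ y = .inl (.vt c.1) ∧ c.valid K b
  | 3, x, y => x = y ∧ ∃ w, x = .inl (.vt w)
  | 4, x, y => ∃ q y', x = .inr (q, y') ∧ y = .inl y'
  | 5, x, y => ∃ q y', x = .inr (q, y') ∧ y = .inl (actB K (Pi.mulSingle q.1 q.2) y')
  | 6, x, y => ∃ q y', x = .inr (q, y') ∧ y = .inl (.gp q.1 q.2)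
  | 7, _, _ => False

/-- the structure -/
def WR (T : Topo K) (b : W → ZMod 3) (r : Fin 8) (x y : U K) : Bool := decide (WP T b r x y)

theorem stage_act (T : Topo K) (z : V → Bg) (x : U K) : stage T (actU K z x) = stage T x := by
  rcases x with (x | x | x | x | x | x) | ⟨q, x⟩ <;> rfl

theorem stage_tau (T : Topo K) (f : E → ZMod 3) (x : U K) : stage T (tauU K f x) = stage T x := by
  rcases x with (x | x | x | x | x | x) | ⟨q, x⟩ <;> rfl

theorem ul_fst_inj (z : V → Bg) (v : V) {i j : Fin 6}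
    (h : ((z v).1 (i, 0)).1 = ((z v).1 (j, 0)).1) : i = j := by
  have h1 := ul_mul_fst z⁻¹ z v i
  have h2 := ul_mul_fst z⁻¹ z v j
  rw [inv_mul_cancel] at h1 h2
  rw [h, ← h2] at h1
  exact h1

theorem restr_act_iff (z : V → Bg) (c : CA K) (e : EA K) :
    Restr K (actC K z c) (actE K z e) ↔ Restr K c e := by
  refine ⟨fun h => ?_, Restr_act K z⟩
  have h1 := Restr_act K z⁻¹ h
  rwa [← actC_mul, ← actE_mul, inv_mul_cancel, actC_one, actE_one] at h1

theorem confl_act (z : V → Bg) (c : CA K) (y : Base K) (h : Confl c y) :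
    Confl (actC K z c) (actB K z y) := by
  cases y with
  | ed x =>
    obtain ⟨h1, h2⟩ := h
    exact ⟨h1, fun h3 => h2 ((restr_act_iff z c x).1 h3)⟩
  | cf x => exact h
  | om v i =>
    obtain ⟨h1, h2⟩ := h
    exact ⟨h1, fun h3 => h2 (ul_fst_inj z v h3)⟩
  | st t => exact h
  | vt w => exact h
  | gp v g => exact h

theorem confl_tau (f : E → ZMod 3) (c : CA K) (y : Base K) (h : Confl c y) :
    Confl (tauC K f c) (tauB K f y) := by
  cases y with
  | ed x =>
    obtain ⟨h1, h2⟩ := h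
    exact ⟨h1, fun h3 => h2 ((restr_tau K f c x).1 h3)⟩
  | cf x => exact h
  | om v i => exact h
  | st t => exact h
  | vt w => exact h
  | gp v g => exact h

theorem act_single (z : V → Bg) (v : V) (h : Bg) (y : Base K) :
    actB K z (actB K (Pi.mulSingle v h) y) =
      actB K (Pi.mulSingle v (z v * h * (z v)⁻¹)) (actB K z y) := by
  rw [← actB_mul, ← actB_mul]
  congr 1
  funext u
  rw [Pi.mul_apply, Pi.mul_apply]
  by_cases hu : u = v
  · subst hu
    rw [Pi.mulSingle_eq_same, Pi.mulSingle_eq_same, inv_mul_cancel_right]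
  · rw [Pi.mulSingle_eq_of_ne hu, Pi.mulSingle_eq_of_ne hu, mul_one, one_mul]

theorem WP_act_mp (T : Topo K) (b : W → ZMod 3) (z : V → Bg) (r : Fin 8) (x y : U K)
    (h : WP T b r x y) : WP T b r (actU K z x) (actU K z y) := by
  match r, h with
  | 0, h =>
    obtain ⟨s, t, h1, h2, h3⟩ := h
    exact ⟨s, t, (stage_act T z x).trans h1, (stage_act T z y).trans h2, h3⟩
  | 1, h =>
    obtain ⟨c, y', rfl, rfl, h3⟩ := h
    exact ⟨actC K z c, actB K z y', rfl, rfl, confl_act z c y' h3⟩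
  | 2, h =>
    obtain ⟨c, rfl, rfl, h3⟩ := h
    exact ⟨actC K z c, rfl, rfl, valid_act K b z c h3⟩
  | 3, h =>
    obtain ⟨rfl, w, rfl⟩ := h
    exact ⟨rfl, w, rfl⟩
  | 4, h =>
    obtain ⟨q, y', rfl, rfl⟩ := h
    exact ⟨actQ z q, actB K z y', rfl, rfl⟩
  | 5, h =>
    obtain ⟨q, y', rfl, rfl⟩ := h
    exact ⟨actQ z q, actB K z y', rfl, congrArg Sum.inl (act_single z q.1 q.2 y')⟩
  | 6, h =>
    obtain ⟨q, y', rfl, rfl⟩ := h
    exact ⟨actQ z q, actB K z y', rfl, rfl⟩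
  | 7, h => exact h

theorem WP_tau_mp (T : Topo K) (b : W → ZMod 3) (f : E → ZMod 3) (r : Fin 8) (x y : U K)
    (h : WP T b r x y) : WP T (b + K.bd f) r (tauU K f x) (tauU K f y) := by
  match r, h with
  | 0, h =>
    obtain ⟨s, t, h1, h2, h3⟩ := h
    exact ⟨s, t, (stage_tau T f x).trans h1, (stage_tau T f y).trans h2, h3⟩
  | 1, h =>
    obtain ⟨c, y', rfl, rfl, h3⟩ := h
    exact ⟨tauC K f c, tauB K f y', rfl, rfl, confl_tau f c y' h3⟩
  | 2, h =>
    obtain ⟨c, rfl, rfl, h3⟩ := h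
    exact ⟨tauC K f c, rfl, rfl, (valid_tau K b f c).2 h3⟩
  | 3, h =>
    obtain ⟨rfl, w, rfl⟩ := h
    exact ⟨rfl, w, rfl⟩
  | 4, h =>
    obtain ⟨q, y', rfl, rfl⟩ := h
    exact ⟨q, tauB K f y', rfl, rfl⟩
  | 5, h =>
    obtain ⟨q, y', rfl, rfl⟩ := h
    exact ⟨q, tauB K f y', rfl, congrArg Sum.inl (actB_tauB K _ f y').symm⟩
  | 6, h =>
    obtain ⟨q, y', rfl, rfl⟩ := h
    exact ⟨q, tauB K f y', rfl, rfl⟩
  | 7, h => exact h

/-- (R282-W-STR) invariance under the local groups. `Vd` and the edge case of `Confl` as in `FP_act`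
(cite `FP_act` for `Cf`, `I`); `Dst`: `z * mulSingle v h = mulSingle v (z v * h * (z v)⁻¹) * z`. -/
theorem WP_act (T : Topo K) (b : W → ZMod 3) (z : V → Bg) (r : Fin 8) (x y : U K) :
    WP T b r (actU K z x) (actU K z y) ↔ WP T b r x y := by
  refine ⟨fun h => ?_, WP_act_mp T b z r x y⟩
  have h1 := WP_act_mp T b z⁻¹ r _ _ h
  rwa [← actU_mul, ← actU_mul, inv_mul_cancel, actU_one, actU_one] at h1

/-- (R282-W-STR) a chain `f` moves the charge by its boundary (cite `FP_tau`) -/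
theorem WP_tau (T : Topo K) (b : W → ZMod 3) (f : E → ZMod 3) (r : Fin 8) (x y : U K) :
    WP T (b + K.bd f) r (tauU K f x) (tauU K f y) ↔ WP T b r x y := by
  refine ⟨fun h => ?_, WP_tau_mp T b f r x y⟩
  have h1 := WP_tau_mp T (b + K.bd f) (-f) r _ _ h
  rwa [← tauU_add, ← tauU_add, neg_add_cancel, tauU_zero, tauU_zero, map_neg, add_assoc,
    add_neg_cancel, add_zero] at h1

/-- (R282-W-STR) locality: only `Vd` changes (cite `FP_loc` for `Cf`) -/
theorem WP_loc (T : Topo K) (b : W → ZMod 3) (S : Finset V) (w : W) (r : Fin 8) (x y : U K)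
    (hw : w ∈ T.safe S)
    (hx : ∀ z : V → Bg, (∀ v ∈ S, z v = 1) → actU K z x = x) :
    WP T (b + Pi.single w 1) r x y ↔ WP T b r x y := by
  match r with
  | 0 => exact Iff.rfl
  | 1 => exact Iff.rfl
  | 2 =>
    show (∃ c, x = .inl (.cf c) ∧ y = .inl (.vt c.1) ∧ CA.valid K (b + Pi.single w 1) c) ↔
      (∃ c, x = .inl (.cf c) ∧ y = .inl (.vt c.1) ∧ CA.valid K b c)
    refine exists_congr fun c => and_congr_right fun hxc => and_congr_right fun _ => ?_
    have hcw : c.1 ≠ w := by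
      rintro rfl
      obtain ⟨v, hv⟩ := T.site_ne c.1
      refine T.safe_site S c.1 v hw ?_ hv
      refine cf_fix K S c (fun z hz => ?_) v hv
      have h1 := hx z hz
      rw [hxc] at h1
      exact Base.cf.inj (Sum.inl.inj h1)
    show (_ = b c.1 + (Pi.single w 1 : W → ZMod 3) c.1) ↔ (_ = b c.1)
    rw [Pi.single_eq_of_ne hcw, add_zero]
  | 3 => exact Iff.rfl
  | 4 => exact Iff.rfl
  | 5 => exact Iff.rfl
  | 6 => exact Iff.rfl
  | 7 => exact Iff.rfl

def relW (T : Topo K) : Rel (univSys K T) (Fin 8) where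
  R := WR T
  R_act b z r x y := by
    unfold WR; exact decide_eq_decide.2 (WP_act T b z r x y)
  R_tau b f r x y := by
    unfold WR; exact decide_eq_decide.2 (WP_tau T b f r x y)
  R_loc b S w r x y hw hx _ := by
    unfold WR; exact decide_eq_decide.2 (WP_loc T b S w r x y hw hx)

/-! ## the action of the group atoms, in the structure -/

section gen
variable {A : Type}

/-- `q` maps the base atom `a` to `b` -/
def BactP (R : Fin 8 → A → A → Bool) (q a b : A) : Prop :=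
  ∃ p, R 6 p q = true ∧ R 4 p a = true ∧ R 5 p b = true

/-- `q` maps `a` to `b` -/
def ActP (R : Fin 8 → A → A → Bool) (q a b : A) : Prop :=
  BactP R q a b ∨ ∃ q1 a1 q2 a2, R 6 a q1 = true ∧ R 4 a a1 = true ∧ R 6 b q2 = true ∧
    R 4 b a2 = true ∧ BactP R q q1 q2 ∧ BactP R q a1 a2

/-- `u` is a candidate in the state `X` -/
def CandP (R : Fin 8 → A → A → Bool) (X : Set A) (u : A) : Prop :=
  R 0 u u = true ∧ (∀ y, y ∈ X → ¬ (R 0 u y = true ∧ R 0 y u = true)) ∧
  (∀ y, (R 0 y u = true ∧ ¬ R 0 u y = true) → ∃ z, z ∈ X ∧ R 0 y z = true ∧ R 0 z y = true) ∧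
  (∀ w, R 3 w w = true → ∃ c, R 2 c w = true ∧ ¬ R 1 c u = true ∧ ∀ y, y ∈ X → ¬ R 1 c y = true)

/-- the output: all stages filled and locally consistent -/
def OutP (R : Fin 8 → A → A → Bool) (X : Set A) : Prop :=
  (∀ y, R 0 y y = true → ∃ z, z ∈ X ∧ R 0 y z = true ∧ R 0 z y = true) ∧
  (∀ w, R 3 w w = true → ∃ c, R 2 c w = true ∧ ∀ y, y ∈ X → ¬ R 1 c y = true)

def BactF {n : ℕ} (q a b : Fin n) : FO (Fin 8) n :=
  .ex (.and (.rel 6 0 q.succ) (.and (.rel 4 0 a.succ) (.rel 5 0 b.succ)))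

def ActF {n : ℕ} (q a b : Fin n) : FO (Fin 8) n :=
  .or (BactF q a b) (.ex (.ex (.ex (.ex
    (.and (.rel 6 a.succ.succ.succ.succ 3) (.and (.rel 4 a.succ.succ.succ.succ 2)
      (.and (.rel 6 b.succ.succ.succ.succ 1) (.and (.rel 4 b.succ.succ.succ.succ 0)
        (.and (BactF q.succ.succ.succ.succ 3 1) (BactF q.succ.succ.succ.succ 2 0))))))))))

def CandF {n : ℕ} (u : Fin n) : FO (Fin 8) n :=
  .and (.rel 0 u u) (.and (.all (.imp (.mem 0) (.not (.and (.rel 0 u.succ 0) (.rel 0 0 u.succ)))))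
    (.and (.all (.imp (.and (.rel 0 0 u.succ) (.not (.rel 0 u.succ 0)))
        (.ex (.and (.mem 0) (.and (.rel 0 1 0) (.rel 0 0 1))))))
      (.all (.imp (.rel 3 0 0) (.ex (.and (.rel 2 0 1) (.and (.not (.rel 1 0 u.succ.succ))
        (.all (.imp (.mem 0) (.not (.rel 1 1 0)))))))))))

def OutF {n : ℕ} : FO (Fin 8) n :=
  .and (.all (.imp (.rel 0 0 0) (.ex (.and (.mem 0) (.and (.rel 0 1 0) (.rel 0 0 1))))))
    (.all (.imp (.rel 3 0 0) (.ex (.and (.rel 2 0 1) (.all (.imp (.mem 0) (.not (.rel 1 1 0))))))))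

theorem sem_BactF (R : Fin 8 → A → A → Bool) (X : Set A) {n : ℕ} (v : Fin n → A) (q a b : Fin n) :
    (BactF q a b).sem R X v ↔ BactP R (v q) (v a) (v b) := by
  simp only [BactF, BactP, FO.sem_ex, FO.sem_and, FO.sem_rel, Fin.cons_succ, Fin.cons_zero]

theorem sem_ActF (R : Fin 8 → A → A → Bool) (X : Set A) {n : ℕ} (v : Fin n → A) (q a b : Fin n) :
    (ActF q a b).sem R X v ↔ ActP R (v q) (v a) (v b) := by
  simp only [ActF, ActP, FO.sem_or, FO.sem_ex, FO.sem_and, FO.sem_rel, sem_BactF, Fin.cons_succ]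
  rfl

theorem sem_CandF (R : Fin 8 → A → A → Bool) (X : Set A) {n : ℕ} (v : Fin n → A) (u : Fin n) :
    (CandF u).sem R X v ↔ CandP R X (v u) := by
  simp only [CandF, CandP, FO.sem_all, FO.sem_imp, FO.sem_not, FO.sem_mem, FO.sem_ex, FO.sem_and,
    FO.sem_rel, Fin.cons_succ, Fin.cons_zero]
  rfl

theorem sem_OutF (R : Fin 8 → A → A → Bool) (X : Set A) {n : ℕ} (v : Fin n → A) :
    (OutF (n := n)).sem R X v ↔ OutP R X := by
  simp only [OutF, OutP, FO.sem_all, FO.sem_imp, FO.sem_not, FO.sem_mem, FO.sem_ex, FO.sem_and,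
    FO.sem_rel, Fin.cons_succ, Fin.cons_zero]
  rfl

/-- the program -/
def wprog : Prog where
  ActF := ActF
  CandF := CandF
  OutF := OutF
  Act := ActP
  Cand := CandP
  Out := OutP
  hAct := sem_ActF
  hCand := sem_CandF
  hOut := sem_OutF
  Cand_not_mem R X a h hX := h.2.1 a hX ⟨h.1, h.1⟩

end gen

theorem bactP_gp (T : Topo K) (b : W → ZMod 3) (v : V) (h : Bg) (a c : U K) :
    BactP (WR T b) (.inl (.gp v h)) a c ↔
      ∃ a', a = .inl a' ∧ c = .inl (actB K (Pi.mulSingle v h) a') := by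
  constructor
  · rintro ⟨p, h1, h2, h3⟩
    obtain ⟨q, x, rfl, hq⟩ := of_decide_eq_true h1
    obtain ⟨q', x', hx, rfl⟩ := of_decide_eq_true h2
    obtain ⟨q'', x'', hx', rfl⟩ := of_decide_eq_true h3
    obtain ⟨rfl, rfl⟩ := Prod.mk.injEq _ _ _ _ ▸ Sum.inr.inj hx
    obtain ⟨rfl, rfl⟩ := Prod.mk.injEq _ _ _ _ ▸ Sum.inr.inj hx'
    injection Sum.inl.inj hq with f1 f2
    subst f1 f2
    exact ⟨x, rfl, rfl⟩
  · rintro ⟨a', rfl, rfl⟩
    refine ⟨.inr ((v, h), a'), ?_, ?_, ?_⟩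
    · exact decide_eq_true (⟨(v, h), a', rfl, rfl⟩ : WP T b 6 _ _)
    · exact decide_eq_true (⟨(v, h), a', rfl, rfl⟩ : WP T b 4 _ _)
    · exact decide_eq_true (⟨(v, h), a', rfl, rfl⟩ : WP T b 5 _ _)

/-- (R282-W-ACT) a group atom acts as its single-site element -/
theorem act_gp (T : Topo K) (b : W → ZMod 3) (v : V) (h : Bg) (x y : U K) :
    ActP (WR T b) (.inl (.gp v h)) x y ↔ y = actU K (Pi.mulSingle v h) x := by
  constructor
  · rintro (hB | ⟨q1, a1, q2, a2, h1, h2, h3, h4, h5, h6⟩)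
    · obtain ⟨a', rfl, rfl⟩ := (bactP_gp T b v h x y).1 hB
      rfl
    · obtain ⟨q, x', rfl, rfl⟩ := of_decide_eq_true h1
      obtain ⟨p, x'', hx, rfl⟩ := of_decide_eq_true h2
      obtain ⟨rfl, rfl⟩ := Prod.mk.injEq _ _ _ _ ▸ Sum.inr.inj hx
      obtain ⟨r, y', rfl, rfl⟩ := of_decide_eq_true h3
      obtain ⟨s, y'', hy, rfl⟩ := of_decide_eq_true h4
      obtain ⟨rfl, rfl⟩ := Prod.mk.injEq _ _ _ _ ▸ Sum.inr.inj hy
      obtain ⟨c, hc, hc'⟩ := (bactP_gp T b v h _ _).1 h5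
      obtain ⟨d, hd, hd'⟩ := (bactP_gp T b v h _ _).1 h6
      obtain rfl := Sum.inl.inj hc
      obtain rfl := Sum.inl.inj hd
      have e1 := Sum.inl.inj hc'
      have e2 := Sum.inl.inj hd'
      have e3 : r = actQ (Pi.mulSingle v h) q := by
        have e1' : Base.gp r.1 r.2 = (Base.gp q.1 ((Pi.mulSingle v h : V → Bg) q.1 * q.2 *
          ((Pi.mulSingle v h : V → Bg) q.1)⁻¹) : Base K) := e1
        injection e1' with f1 f2
        exact Prod.ext f1 f2
      rw [e3, e2]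
      rfl
  · rintro rfl
    rcases x with x | ⟨q, x⟩
    · exact Or.inl ((bactP_gp T b v h _ _).2 ⟨x, rfl, rfl⟩)
    · refine Or.inr ⟨.inl (.gp q.1 q.2), .inl x,
        .inl (.gp (actQ (Pi.mulSingle v h) q).1 (actQ (Pi.mulSingle v h) q).2),
        .inl (actB K (Pi.mulSingle v h) x), ?_, ?_, ?_, ?_, ?_, ?_⟩
      · exact decide_eq_true (⟨q, x, rfl, rfl⟩ : WP T b 6 _ _)
      · exact decide_eq_true (⟨q, x, rfl, rfl⟩ : WP T b 4 _ _)
      · exact decide_eq_true (⟨actQ (Pi.mulSingle v h) q, actB K (Pi.mulSingle v h) x, rfl, rfl⟩ :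
          WP T b 6 _ _)
      · exact decide_eq_true (⟨actQ (Pi.mulSingle v h) q, actB K (Pi.mulSingle v h) x, rfl, rfl⟩ :
          WP T b 4 _ _)
      · exact (bactP_gp T b v h _ _).2 ⟨.gp q.1 q.2, rfl, rfl⟩
      · exact (bactP_gp T b v h _ _).2 ⟨x, rfl, rfl⟩

/-- (R282-W-ACT) a group atom is an automorphism element (`act_gp`, `actU_mul`, `WP_act`) -/
theorem aut_gp (T : Topo K) (b : W → ZMod 3) (v : V) (h : Bg) :
    wprog.Aut (WR T b) (.inl (.gp v h) : U K) := by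
  refine ⟨fun a => ⟨_, (act_gp T b v h a _).2 rfl⟩, fun a c a' c' h1 h2 => ?_⟩
  obtain rfl := (act_gp T b v h a c).1 h1
  obtain rfl := (act_gp T b v h a' c').1 h2
  refine ⟨⟨fun e => by rw [e], fun e => ?_⟩, fun r => ?_⟩
  · have e2 := congrArg (actU K (Pi.mulSingle v h)⁻¹) e
    rwa [← actU_mul, ← actU_mul, inv_mul_cancel, actU_one, actU_one] at e2
  · have := WP_act T b (Pi.mulSingle v h) r a a'
    unfold WR
    rw [decide_eq_true_iff, decide_eq_true_iff]
    exact this.symm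

end Crest.Agent.CPTL
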