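import Mathlib
import Crest.Agent.CPT.WscStr

/-!
# Row 282, S0426: global solutions and the orbit lemma (chunks R282-W-SOL, R282-W-ORB)
-/

noncomputable section
open Classical

namespace Crest.Agent.CPTL
open Crest.LogicCS.HFSet Crest.LogicCS.CPT

variable {V E W : Type} [Fintype V] [Fintype E] [Fintype W] {K : Cplx V E W}

/-- the site atom of the global section `ι` -/
def omA (K : Cplx V E W) (ι : V → Fin 6) (v : V) : U K := .inl (.om v (ι v))

/-- the edge atom of the global section -/
def edA (K : Cplx V E W) (ι : V → Fin 6) (a : E → ZMod 3) (e : E) : U K :=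
  .inl (.ed ⟨e, fun v => ι v.1, a e⟩)

/-- the configuration of the global section -/
def cfA (K : Cplx V E W) (ι : V → Fin 6) (a : E → ZMod 3) (w : W) : CA K :=
  ⟨w, fun v => ι v.1, fun e => a e.1⟩

/-- `y` is a choosable atom of the global section `(ι, a)` -/
def OfSol (K : Cplx V E W) (ι : V → Fin 6) (a : E → ZMod 3) (y : U K) : Prop :=
  (∃ v, y = omA K ι v) ∨ (∃ e, Real K e ∧ y = edA K ι a e)

/-- action on global sections -/
def actI (g : V → Bg) (ι : V → Fin 6) : V → Fin 6 := fun v => ((g v).1 (ι v, 0)).1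

def actA (K : Cplx V E W) (g : V → Bg) (ι : V → Fin 6) (a : E → ZMod 3) : E → ZMod 3 :=
  fun e => a e + ∑ v, K.kap v e * ((g v).1 (ι v, 0)).2

/-- (W-SOL 1) -/
theorem bd_actA (g : V → Bg) (ι : V → Fin 6) (a : E → ZMod 3) :
    K.bd (actA K g ι a) = K.bd a := by
  funext w
  show ∑ e, K.d e w * (a e + ∑ v, K.kap v e * ((g v).1 (ι v, 0)).2) = ∑ e, K.d e w * a e
  simp only [mul_add, Finset.sum_add_distrib, Finset.mul_sum]
  rw [add_eq_left, Finset.sum_comm]
  refine Finset.sum_eq_zero fun v _ => ?_
  have h := K.dkap v w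
  calc ∑ e, K.d e w * (K.kap v e * ((g v).1 (ι v, 0)).2)
      = (∑ e, K.d e w * K.kap v e) * ((g v).1 (ι v, 0)).2 := by
        rw [Finset.sum_mul]
        exact Finset.sum_congr rfl fun e _ => by rw [mul_assoc]
    _ = 0 := by rw [h, zero_mul]

/-- (W-SOL 2) the sum over the sites of the edge is the sum over all sites -/
theorem ofSol_act (g : V → Bg) (ι : V → Fin 6) (a : E → ZMod 3) (y : U K)
    (h : OfSol K ι a y) : OfSol K (actI g ι) (actA K g ι a) (actU K g y) := by
  rcases h with ⟨v, rfl⟩ | ⟨e, he, rfl⟩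
  · exact Or.inl ⟨v, rfl⟩
  · refine Or.inr ⟨e, he, ?_⟩
    have h1 : a e + ∑ v : {v // K.kap v e ≠ 0}, K.kap v.1 e * ((g v.1).1 (ι v.1, 0)).2 =
        actA K g ι a e := by
      unfold actA
      rw [sum_sub_eq (fun v => K.kap v e ≠ 0) (fun v => K.kap v e * ((g v).1 (ι v, 0)).2)]
      intro v hv
      rw [not_ne_iff.1 hv, zero_mul]
    show (Sum.inl (.ed ⟨e, fun v => ((g v.1).1 (ι v.1, 0)).1,
      a e + ∑ v : {v // K.kap v e ≠ 0}, K.kap v.1 e * ((g v.1).1 (ι v.1, 0)).2⟩) : U K) =
      edA K (actI g ι) (actA K g ι a) e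
    rw [h1]
    rfl

/-- (W-SOL 3) two atoms of the same solution and the same stage are equal -/
theorem ofSol_unique (T : Topo K) {ι : V → Fin 6} {a : E → ZMod 3} {y y' : U K}
    (h : OfSol K ι a y) (h' : OfSol K ι a y') (hs : stage T y = stage T y') : y = y' := by
  rcases h with ⟨v, rfl⟩ | ⟨e, he, rfl⟩ <;> rcases h' with ⟨v', rfl⟩ | ⟨e', he', rfl⟩
  · simp only [omA, stage, Option.some.injEq] at hs
    have : v = v' := (Fintype.equivFin V).injective (Fin.ext hs)
    rw [this]
  · simp only [omA, edA, stage, if_pos he', Option.some.injEq] at hs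
    have := (Fintype.equivFin V v).2
    omega
  · simp only [omA, edA, stage, if_pos he, Option.some.injEq] at hs
    have := (Fintype.equivFin V v').2
    omega
  · simp only [edA, stage, if_pos he, if_pos he', Option.some.injEq] at hs
    have : e = e' := stE_inj T (by omega)
    rw [this]

/-- (W-SOL 4) every stage has an atom of the solution -/
theorem exists_ofSol (T : Topo K) (ι : V → Fin 6) (a : E → ZMod 3) {y : U K} {s : ℕ}
    (h : stage T y = some s) : ∃ y', OfSol K ι a y' ∧ stage T y' = some s := by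
  rcases y with (x | x | ⟨v, i⟩ | x | x | x) | ⟨q, x⟩
  · simp only [stage] at h
    split_ifs at h with hx
    exact ⟨edA K ι a x.1, Or.inr ⟨x.1, hx, rfl⟩, by simp only [edA, stage, if_pos hx]; exact h⟩
  · simp [stage] at h
  · exact ⟨omA K ι v, Or.inl ⟨v, rfl⟩, h⟩
  all_goals simp [stage] at h

/-- (W-SOL 5) atoms of a solution have a stage -/
theorem ofSol_stage (T : Topo K) {ι : V → Fin 6} {a : E → ZMod 3} {y : U K}
    (h : OfSol K ι a y) : ∃ s, stage T y = some s := by
  rcases h with ⟨v, rfl⟩ | ⟨e, he, rfl⟩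
  · exact ⟨_, rfl⟩
  · exact ⟨Fintype.card V + stE T e, by simp only [edA, stage, if_pos he]⟩

/-- (W-SOL 6) the configuration of a solution does not conflict with its atoms -/
theorem cfA_no_confl (ι : V → Fin 6) (a : E → ZMod 3) (w : W) (y' : Base K)
    (h : OfSol K ι a (.inl y')) : ¬ Confl (cfA K ι a w) y' := by
  rcases h with ⟨v, h⟩ | ⟨e, he, h⟩
  · have h1 : y' = .om v (ι v) := Sum.inl_injective h
    subst h1
    rintro ⟨h2, h3⟩
    exact h3 rfl
  · have h1 : y' = .ed ⟨e, fun v => ι v.1, a e⟩ := Sum.inl_injective h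
    subst h1
    rintro ⟨h2, h3⟩
    exact h3 ⟨h2, fun v => rfl, rfl⟩

/-- (W-SOL 7) -/
theorem cfA_valid (ι : V → Fin 6) (a : E → ZMod 3) (w : W) (h : K.bd a = 0) :
    (cfA K ι a w).valid K (0 : W → ZMod 3) := by
  show ∑ e : {e // K.d e w ≠ 0}, K.d e.1 w * a e.1 = 0
  rw [sum_sub_eq (fun e => K.d e w ≠ 0) (fun e => K.d e w * a e)]
  · exact congrFun h w
  · intro e he
    rw [not_ne_iff.1 he, zero_mul]

/-- the states of the run on `R 0`: the atoms of a solution of stage `< k` -/
def Pre (T : Topo K) (ι : V → Fin 6) (a : E → ZMod 3) (k : ℕ) : Set (U K) :=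
  {y | OfSol K ι a y ∧ ∃ s, stage T y = some s ∧ s < k}

theorem WR_iff (T : Topo K) (b : W → ZMod 3) (r : Fin 8) (x y : U K) :
    WR T b r x y = true ↔ WP T b r x y := by
  unfold WR; exact decide_eq_true_iff

theorem stage_site (T : Topo K) {u : U K} {v : V}
    (h : stage T u = some (Fintype.equivFin V v).1) : ∃ i, u = .inl (.om v i) := by
  rcases u with (x | x | ⟨v', i⟩ | x | x | x) | ⟨q, x⟩
  · exfalso
    simp only [stage] at h
    split_ifs at h
    · have := (Fintype.equivFin V v).2
      rw [Option.some.injEq] at h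
      omega
  · simp [stage] at h
  · simp only [stage, Option.some.injEq] at h
    have : v' = v := (Fintype.equivFin V).injective (Fin.ext h)
    subst this
    exact ⟨i, rfl⟩
  · simp [stage] at h
  · simp [stage] at h
  · simp [stage] at h
  · simp [stage] at h

theorem stage_edge (T : Topo K) {u : U K} {e : E}
    (h : stage T u = some (Fintype.card V + stE T e)) :
    ∃ (ι' : {v // K.kap v e ≠ 0} → Fin 6) (c : ZMod 3), u = .inl (.ed ⟨e, ι', c⟩) := by
  rcases u with (⟨e', x⟩ | x | ⟨v', i⟩ | x | x | x) | ⟨q, x⟩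
  · simp only [stage] at h
    split_ifs at h
    · rw [Option.some.injEq] at h
      have : e' = e := stE_inj T (by omega)
      subst this
      exact ⟨x.1, x.2, rfl⟩
  · simp [stage] at h
  · exfalso
    simp only [stage, Option.some.injEq] at h
    have := (Fintype.equivFin V v').2
    omega
  · simp [stage] at h
  · simp [stage] at h
  · simp [stage] at h
  · simp [stage] at h

theorem single_sh (v : V) (n : ℕ) (v' : V) (i : Fin 6) :
    ((Pi.mulSingle v (shB ^ n) : V → Bg) v').1 (i, 0) = (i, if v' = v then (n : ZMod 3) else 0) := by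
  by_cases h : v' = v
  · subst h
    rw [Pi.mulSingle_eq_same, shB_pow_apply, if_pos rfl, zero_add]
  · rw [Pi.mulSingle_eq_of_ne h, if_neg h]
    rfl

theorem actE_sh (v : V) (n : ℕ) (x : EA K) :
    actE K (Pi.mulSingle v (shB ^ n)) x = ⟨x.1, x.2.1, x.2.2 + K.kap v x.1 * n⟩ := by
  unfold actE
  simp only [single_sh]
  congr 2
  congr 1
  by_cases hv : K.kap v x.1 = 0
  · rw [hv, zero_mul]
    apply Finset.sum_eq_zero
    intro v' _
    rw [if_neg, mul_zero]
    rintro rfl
    exact v'.2 hv
  · rw [Finset.sum_eq_single ⟨v, hv⟩]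
    · simp
    · intro v' _ hne
      rw [if_neg, mul_zero]
      intro h
      exact hne (Subtype.ext h)
    · intro h; exact absurd (Finset.mem_univ _) h

/-- (W-ORB) THE ORBIT LEMMA: every candidate of stage `k` is the image of the atom `u0` of the
solution under one single-site element fixing the state.
Stage of a site `v`: `u0 = om v (ι v)`, `u = om v i`, `Bg_trans`; the atoms of the state are sites
`v' ≠ v`. Stage of an edge `e`: `u0 = edA e`, `u = ed ⟨e, ι', a'⟩`. Take `w` with `d e w ≠ 0` and
the configuration `c` of `CandP` at `vt w`: for `v` at `e`, `omA v` is in the state, so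
`c.2.1 v = ι v`, and `¬ Confl c u` gives `ι' = ι|e`. `T.key_prop e`: (A) a site `v` with
`kap v e ≠ 0` all whose other edges have larger key: `h = shB ^ ((a' - a e) * kap v e).val`
(`kap v e ^ 2 = 1`), it fixes the state; (B) a vertex `w` all whose other edges have smaller key:
the valid configuration `c` at `w` has `c e' = a e'` for `e' ≠ e`, `c e = a'`, and `bd a = 0`
gives `a' = a e`: `u = u0`, take `h = 1` (some site exists by `T.site_ne`). -/
theorem orbit (T : Topo K) (ι : V → Fin 6) (a : E → ZMod 3) (ha : K.bd a = 0) (k : ℕ) (u0 u : U K)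
    (h0 : OfSol K ι a u0) (hk0 : stage T u0 = some k) (hk : stage T u = some k)
    (hc : CandP (WR T 0) (Pre T ι a k) u) :
    ∃ v h, (∀ y ∈ Pre T ι a k, actU K (Pi.mulSingle v h) y = y) ∧
      actU K (Pi.mulSingle v h) u0 = u := by
  rcases h0 with ⟨v, rfl⟩ | ⟨e, he, rfl⟩
  · -- a site
    have hk1 : k = (Fintype.equivFin V v).1 := by
      simpa [stage, omA] using hk0.symm
    rw [hk1] at hk
    obtain ⟨i, rfl⟩ := stage_site T hk
    obtain ⟨h, hh⟩ := Bg_trans (ι v) i
    refine ⟨v, h, ?_, ?_⟩
    · rintro y ⟨hy, s, hs, hsk⟩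
      rcases hy with ⟨v', rfl⟩ | ⟨e', he', rfl⟩
      · have hne : v' ≠ v := by
          rintro rfl
          have : s = (Fintype.equivFin V v').1 := by simpa [stage, omA] using hs.symm
          omega
        show (Sum.inl (Base.om v' (((Pi.mulSingle v h : V → Bg) v').1 (ι v', 0)).1) : U K) = _
        rw [Pi.mulSingle_eq_of_ne hne]
        rfl
      · exfalso
        have h2 : s = Fintype.card V + stE T e' := by
          have : stage T (edA K ι a e') = some (Fintype.card V + stE T e') := by
            simp only [stage, edA]; rw [if_pos he']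
          rw [this] at hs
          exact (Option.some.inj hs).symm
        have := (Fintype.equivFin V v).2
        omega
    · show (Sum.inl (Base.om v (((Pi.mulSingle v h : V → Bg) v).1 (ι v, 0)).1) : U K) = _
      rw [Pi.mulSingle_eq_same, hh]
  · -- an edge
    have hst : ∀ e', Real K e' → stage T (edA K ι a e') = some (Fintype.card V + stE T e') := by
      intro e' he'
      simp only [stage, edA]; rw [if_pos he']
    have hk1 : k = Fintype.card V + stE T e := by
      rw [hst e he] at hk0
      exact (Option.some.inj hk0).symm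
    subst hk1
    obtain ⟨ι', c, rfl⟩ := stage_edge T hk
    -- atoms of the state
    have hom : ∀ v, omA K ι v ∈ Pre T ι a (Fintype.card V + stE T e) := by
      intro v
      refine ⟨Or.inl ⟨v, rfl⟩, _, rfl, ?_⟩
      have := (Fintype.equivFin V v).2
      omega
    -- local configurations
    have hloc : ∀ w, ∃ c' : CA K, c'.1 = w ∧ c'.valid K (0 : W → ZMod 3) ∧
        ¬ Confl c' (.ed ⟨e, ι', c⟩) ∧
        ∀ y' : Base K, (Sum.inl y' : U K) ∈ Pre T ι a (Fintype.card V + stE T e) → ¬ Confl c' y' := by
      intro w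
      obtain ⟨x, hx1, hx2, hx3⟩ := hc.2.2.2 (.inl (.vt w))
        ((WR_iff _ _ _ _ _).2 ⟨rfl, w, rfl⟩)
      rw [WR_iff] at hx1 hx2
      obtain ⟨c', rfl, hc2, hc3⟩ := hx1
      have hw : w = c'.1 := by
        have := Sum.inl.inj hc2
        injection this
      refine ⟨c', hw.symm, hc3, fun h => hx2 ⟨c', _, rfl, rfl, h⟩, fun y' hy' h => ?_⟩
      exact hx3 _ hy' ((WR_iff _ _ _ _ _).2 ⟨c', _, rfl, rfl, h⟩)
    -- the sites of the edge
    have hι : ι' = fun v => ι v.1 := by
      funext v
      obtain ⟨w, hw⟩ := he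
      obtain ⟨c', hc1, -, hc3, hc4⟩ := hloc w
      subst hc1
      have h1 := hc4 _ (hom v.1)
      have h2 : Restr K c' ⟨e, ι', c⟩ := by
        by_contra h
        exact hc3 ⟨hw, h⟩
      obtain ⟨he', h3, -⟩ := h2
      have h4 := h3 v
      have h5 : c'.2.1 ⟨v.1, ⟨e, he', v.2⟩⟩ = ι v.1 := by
        by_contra h
        exact h1 ⟨⟨e, he', v.2⟩, h⟩
      exact h4.trans h5
    subst hι
    rcases T.key_prop e he with ⟨v, hv, hv2⟩ | ⟨w, hw, hw2⟩
    · refine ⟨v, shB ^ ((c - a e) * K.kap v e).val, ?_, ?_⟩
      · rintro y ⟨hy, s, hs, hsk⟩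
        rcases hy with ⟨v', rfl⟩ | ⟨e', he', rfl⟩
        · show (Sum.inl (Base.om v' (((Pi.mulSingle v _ : V → Bg) v').1 (ι v', 0)).1) : U K) = _
          rw [single_sh]
          rfl
        · show (Sum.inl (Base.ed (actE K _ _)) : U K) = _
          rw [actE_sh]
          have h1 : K.kap v e' = 0 := by
            by_contra h1
            rw [hst e' he'] at hs
            have hs' := Option.some.inj hs
            have hne : e' ≠ e := by rintro rfl; omega
            have := stE_lt T (hv2 e' h1 hne)
            omega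
          simp only [h1, zero_mul, add_zero]
          rfl
      · show (Sum.inl (Base.ed (actE K _ _)) : U K) = _
        rw [actE_sh, ZMod.natCast_zmod_val]
        have h1 : K.kap v e * ((c - a e) * K.kap v e) = c - a e := by
          have h2 : ∀ x : ZMod 3, x ≠ 0 → x * x = 1 := by decide
          calc K.kap v e * ((c - a e) * K.kap v e) = (c - a e) * (K.kap v e * K.kap v e) := by ring
            _ = c - a e := by rw [h2 _ hv, mul_one]
        simp only [h1, add_sub_cancel]
    · obtain ⟨c', hc1, hc2, hc3, hc4⟩ := hloc w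
      subst hc1
      have hval : ∀ e' (he' : K.d e' c'.1 ≠ 0), c'.2.2 ⟨e', he'⟩ = if e' = e then c else a e' := by
        intro e' he'
        split_ifs with h
        · subst h
          have h2 : Restr K c' ⟨e', fun v => ι v.1, c⟩ := by
            by_contra h
            exact hc3 ⟨hw, h⟩
          obtain ⟨_, -, h3⟩ := h2
          exact h3.symm
        · have hre : Real K e' := ⟨_, he'⟩
          have hmem : edA K ι a e' ∈ Pre T ι a (Fintype.card V + stE T e) := by
            refine ⟨Or.inr ⟨e', hre, rfl⟩, _, hst e' hre, ?_⟩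
            have := stE_lt T (hw2 e' he' h)
            omega
          have h1 := hc4 _ hmem
          have h2 : Restr K c' ⟨e', fun v => ι v.1, a e'⟩ := by
            by_contra h
            exact h1 ⟨he', h⟩
          obtain ⟨_, -, h3⟩ := h2
          exact h3.symm
      have hsum1 : ∑ e' : {e' // K.d e' c'.1 ≠ 0}, K.d e'.1 c'.1 *
          (if e'.1 = e then c else a e'.1) = 0 := by
        have : c'.valid K (0 : W → ZMod 3) := hc2
        unfold CA.valid at this
        rw [Pi.zero_apply] at this
        refine Eq.trans ?_ this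
        apply Finset.sum_congr rfl
        intro e' _
        rw [hval e'.1 e'.2]
      have hsum2 : ∑ e' : {e' // K.d e' c'.1 ≠ 0}, K.d e'.1 c'.1 * a e'.1 = 0 := by
        have h1 : K.bd a c'.1 = 0 := by rw [ha]; rfl
        have h2 : K.bd a c'.1 = ∑ e, K.d e c'.1 * a e := rfl
        rw [h2] at h1
        refine Eq.trans ?_ h1
        symm
        rw [← Finset.sum_filter_add_sum_filter_not Finset.univ (fun e' => K.d e' c'.1 ≠ 0)]
        rw [Finset.sum_eq_zero (s := Finset.univ.filter fun e' => ¬ K.d e' c'.1 ≠ 0), add_zero]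
        · rw [Finset.sum_subtype]
          intro x; simp
        · intro x hx
          rw [Finset.mem_filter] at hx
          rw [not_not.1 hx.2, zero_mul]
      have hdiff : K.d e c'.1 * (c - a e) = 0 := by
        have h1 : ∑ e' : {e' // K.d e' c'.1 ≠ 0}, (K.d e'.1 c'.1 *
          (if e'.1 = e then c else a e'.1) - K.d e'.1 c'.1 * a e'.1) = 0 := by
          rw [Finset.sum_sub_distrib, hsum1, hsum2, sub_zero]
        rw [Finset.sum_eq_single ⟨e, hw⟩] at h1
        · simpa [mul_sub] using h1
        · intro e' _ hne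
          rw [if_neg (fun h => hne (Subtype.ext h)), sub_self]
        · intro h; exact absurd (Finset.mem_univ _) h
      have hce : c = a e := by
        rcases mul_eq_zero.1 hdiff with h | h
        · exact absurd h hw
        · exact sub_eq_zero.1 h
      subst hce
      obtain ⟨v, -⟩ := T.site_ne c'.1
      refine ⟨v, 1, ?_, ?_⟩
      · intro y _
        rw [Pi.mulSingle_one]
        exact actU_one K y
      · rw [Pi.mulSingle_one]
        exact actU_one K _

end Crest.Agent.CPTL
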