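import Mathlib
import Crest.Prelude.Def_HF
import Crest.Prelude.Def_CPT
import Crest.Agent.CPT.HF
import Crest.Agent.CPT.WscFO
import Crest.Agent.CPT.WscSent

/-!
# Row 282, S0426: runs of the program (chunk R282-W-RUN)
-/

noncomputable section
open Classical

namespace Crest.Agent.CPTL
open Crest.LogicCS.HFSet Crest.LogicCS.CPT

namespace Prog

variable (P : Prog) {A : Type} [Fintype A] (R : Fin 8 → A → A → Bool)

omit [Fintype A] in
theorem members_stp (x y : HF A) : members (stp x y) = members x ∪ members y := by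
  rw [stp, members_ofFinset]

omit [Fintype A] in
theorem obj_empty : (obj (∅ : Finset A) : HF A) = empty := by
  rw [obj, Finset.image_empty]; rfl

omit [Fintype A] in
theorem stp_single (X : Finset A) (a : A) :
    stp (obj X) (ofFinset {atom a}) = obj (insert a X) := by
  rw [stp, obj, obj, members_ofFinset, members_ofFinset, Finset.image_insert]
  congr 1
  ext u
  simp only [Finset.mem_union, Finset.mem_image, Finset.mem_singleton, Finset.mem_insert]
  exact or_comm

omit [Fintype A] in
theorem stp_empty (X : Finset A) : stp (obj X) empty = obj X := by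
  rw [stp, obj, members_ofFinset, empty, members_ofFinset, Finset.union_empty]

/-- the members of the choice set -/
theorem mem_chS (X : Finset A) (c : HF A) : c ∈ members (P.chS R (obj X)) ↔
    (∃ a, P.Go R ↑X a ∧ c = ofFinset {atom a}) ∨ ((¬ ∃ a, P.Go R ↑X a) ∧ c = empty) := by
  rw [chS, members_ofFinset, St_obj, Finset.mem_union, Finset.mem_image]
  constructor
  · rintro (⟨a, ha, rfl⟩ | h)
    · exact Or.inl ⟨a, (Finset.mem_filter.1 ha).2, rfl⟩
    · split_ifs at h with h1
      · simp at h
      · exact Or.inr ⟨h1, Finset.mem_singleton.1 h⟩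
  · rintro (⟨a, ha, rfl⟩ | ⟨h1, rfl⟩)
    · exact Or.inl ⟨a, Finset.mem_filter.2 ⟨Finset.mem_univ _, ha⟩, rfl⟩
    · right
      rw [if_neg h1]
      exact Finset.mem_singleton_self _

/-- one step of a run from a state -/
theorem step_cases {X : Finset A} {x y c : HF A} (hx : x = obj X)
    (hD : ∃ D, (fun x => some (P.chS R x)) x = some D ∧ c ∈ members D)
    (hy : (fun x y => some (stp x y)) x c = some y) :
    (∃ a, P.Go R ↑X a ∧ a ∉ X ∧ y = obj (insert a X)) ∨ ((¬ ∃ a, P.Go R ↑X a) ∧ y = obj X) := by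
  subst hx
  obtain ⟨D, hD1, hD2⟩ := hD
  have e1 : P.chS R (obj X) = D := Option.some_injective _ hD1
  have e2 : stp (obj X) c = y := Option.some_injective _ hy
  rw [← e1] at hD2
  rcases (P.mem_chS R X c).1 hD2 with ⟨a, ha, rfl⟩ | ⟨h1, rfl⟩
  · left
    refine ⟨a, ha, fun h => P.Cand_not_mem R ↑X a ha.1 (Finset.mem_coe.2 h), ?_⟩
    rw [← e2, stp_single]
  · right
    exact ⟨h1, by rw [← e2, stp_empty]⟩

theorem run_mono {b c : ℕ → HF A} {k l : ℕ} (h : P.Run R b c k) (hl : l ≤ k) :
    P.Run R b c l := ⟨h.1, fun i hi => h.2 i (lt_of_lt_of_le hi hl)⟩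

omit [Fintype A] in
theorem fresh_mono {b : ℕ → HF A} {k l : ℕ} (h : Fresh b k) (hl : l ≤ k) : Fresh b l :=
  fun i hi => h i (lt_of_lt_of_le hi hl)

/-- (R282-W-RUN) invariants of fresh runs. Induction on `k`. -/
theorem run_inv {b c : ℕ → HF A} {k : ℕ} (h : P.Run R b c k) (hf : Fresh b k)
    (Inv : Set A → Prop) (h0 : Inv ∅) (hs : ∀ X a, Inv X → P.Go R X a → Inv (insert a X)) :
    ∃ X : Finset A, b k = obj X ∧ X.card = k ∧ Inv ↑X := by
  induction k with
  | zero =>
    refine ⟨∅, ?_, rfl, by simpa using h0⟩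
    rw [h.1, obj_empty]
  | succ k ih =>
    obtain ⟨X, hX, hc, hI⟩ := ih (P.run_mono R h (Nat.le_succ k)) (fresh_mono hf (Nat.le_succ k))
    obtain ⟨hD, hy⟩ := h.2 k (Nat.lt_succ_self k)
    rcases P.step_cases R hX hD hy with ⟨a, ha, haX, hb⟩ | ⟨-, hb⟩
    · refine ⟨insert a X, hb, by rw [Finset.card_insert_of_notMem haX, hc], ?_⟩
      rw [Finset.coe_insert]
      exact hs _ _ hI ha
    · exact absurd (hb.trans hX.symm) (hf k (Nat.lt_succ_self k))

theorem run_St_mono {b c : ℕ → HF A} {k : ℕ} (h : P.Run R b c k) {i j : ℕ} (hji : j ≤ i)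
    (hi : i ≤ k) : St (b j) ⊆ St (b i) := by
  induction i with
  | zero => rw [Nat.le_zero.1 hji]
  | succ i ih =>
    rcases Nat.lt_or_ge j (i + 1) with hlt | hge
    · have h1 := ih (Nat.lt_succ_iff.1 hlt) (Nat.le_of_succ_le hi)
      refine h1.trans ?_
      have h2 : stp (b i) (c i) = b (i + 1) := Option.some_injective _ (h.2 i hi).2
      intro a ha
      show atom a ∈ members (b (i + 1))
      rw [← h2, members_stp]
      exact Finset.mem_union_left _ ha
    · rw [le_antisymm hji hge]

/-- (R282-W-RUN) along a run the states increase: a permutation fixing the atoms of `b i` fixes all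
earlier states -/
theorem run_fix {b c : ℕ → HF A} {k : ℕ} (h : P.Run R b c k) (hf : Fresh b k)
    (g : Equiv.Perm A) {i : ℕ} (hi : i ≤ k) (hg : ∀ a ∈ St (b i), g a = a) :
    ∀ j ≤ i, rename g (b j) = b j := by
  intro j hj
  obtain ⟨X, hX, -, -⟩ := P.run_inv R (P.run_mono R h (hj.trans hi)) (fresh_mono hf (hj.trans hi))
    (fun _ => True) trivial (fun _ _ _ _ => trivial)
  have hsub := P.run_St_mono R h hj hi
  rw [hX, St_obj] at hsub
  rw [hX, obj, rename_ofFinset, Finset.image_image]
  congr 1
  refine Finset.image_congr fun a ha => ?_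
  rw [Function.comp_apply, rename_atom, hg a (hsub ha)]

/-- (R282-W-RUN) a terminal path exists: take a maximal fresh run (`k ≤ card A` by `run_inv`) -/
theorem exists_terminal : ∃ b c t,
    IsTerminalPath (fun x y => some (stp x y)) (fun x => some (P.chS R x)) b c t := by
  by_contra hno
  have key : ∀ k : ℕ, ∃ b c : ℕ → HF A, P.Run R b c k ∧ Fresh b k := by
    intro k
    induction k with
    | zero =>
      exact ⟨fun _ => empty, fun _ => empty, ⟨rfl, fun i hi => absurd hi (Nat.not_lt_zero i)⟩,
        fun i hi => absurd hi (Nat.not_lt_zero i)⟩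
    | succ k ih =>
      obtain ⟨b, c, h, hf⟩ := ih
      obtain ⟨X, hX, -, -⟩ := P.run_inv R h hf (fun _ => True) trivial (fun _ _ _ _ => trivial)
      obtain ⟨u, hu⟩ : ∃ u, u ∈ members (P.chS R (b k)) := by
        rw [hX]
        by_cases hg : ∃ a, P.Go R (↑X : Set A) a
        · obtain ⟨a, ha⟩ := hg
          exact ⟨_, (P.mem_chS R X _).2 (Or.inl ⟨a, ha, rfl⟩)⟩
        · exact ⟨_, (P.mem_chS R X _).2 (Or.inr ⟨hg, rfl⟩)⟩
      set b' : ℕ → HF A := Function.update b (k + 1) (stp (b k) u) with hb'
      set c' : ℕ → HF A := Function.update c k u with hc'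
      have eb : ∀ i, i ≤ k → b' i = b i := fun i hi => by
        rw [hb', Function.update_of_ne (by omega)]
      have eb1 : b' (k + 1) = stp (b k) u := by rw [hb', Function.update_self]
      have ec : ∀ i, i < k → c' i = c i := fun i hi => by
        rw [hc', Function.update_of_ne (by omega)]
      have ec1 : c' k = u := by rw [hc', Function.update_self]
      have hrun : P.Run R b' c' (k + 1) := by
        refine ⟨by rw [eb 0 (Nat.zero_le k)]; exact h.1, fun i hi => ?_⟩
        rcases Nat.lt_or_ge i k with hlt | hge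
        · rw [eb i hlt.le, ec i hlt, eb (i + 1) hlt]
          exact h.2 i hlt
        · have : i = k := by omega
          subst this
          rw [eb i le_rfl, ec1, eb1]
          exact ⟨⟨_, rfl, hu⟩, rfl⟩
      have hfr : Fresh b' k := fun i hi => by
        rw [eb i hi.le, eb (i + 1) hi]; exact hf i hi
      refine ⟨b', c', hrun, fun i hi => ?_⟩
      rcases Nat.lt_or_ge i k with hlt | hge
      · exact hfr i hlt
      · have : i = k := by omega
        subst this
        intro he
        exact hno ⟨b', c', i, hrun, hfr, he⟩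
  obtain ⟨b, c, h, hf⟩ := key (Fintype.card A + 1)
  obtain ⟨X, -, hc, -⟩ := P.run_inv R h hf (fun _ => True) trivial (fun _ _ _ _ => trivial)
  have := X.card_le_univ
  omega

/-- (R282-W-RUN) at a terminal state no candidate is left -/
theorem terminal_no_go {b c : ℕ → HF A} {t : ℕ}
    (h : IsTerminalPath (fun x y => some (stp x y)) (fun x => some (P.chS R x)) b c t) :
    ¬ ∃ a, P.Go R (St (b t)) a := by
  obtain ⟨hrun, hf, he⟩ := h
  obtain ⟨X, hX, -, -⟩ := P.run_inv R (P.run_mono R hrun (Nat.le_succ t)) hf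
    (fun _ => True) trivial (fun _ _ _ _ => trivial)
  obtain ⟨hD, hy⟩ := hrun.2 t (Nat.lt_succ_self t)
  rw [hX, St_obj]
  rcases P.step_cases R hX hD hy with ⟨a, ha, haX, hb⟩ | ⟨h1, -⟩
  · exfalso
    have h2 : obj (insert a X) = obj X := by rw [← hb, he, hX]
    exact haX (obj_inj h2 ▸ Finset.mem_insert_self a X)
  · exact h1

end Prog

end Crest.Agent.CPTL
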