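import Mathlib
import Crest.Prelude.Def_HF
import Crest.Prelude.Def_CPT
import Crest.Agent.CPT.HF
import Crest.Agent.CPT.WscFO
import Crest.Agent.CPT.WscSent
import Crest.Agent.CPT.WscEv
import Crest.Agent.CPT.WscRuns

/-!
# Row 282, S0426: the value of the sentence (chunk R282-W-DEF)
-/

noncomputable section
open Classical

namespace Crest.Agent.CPTL
open Crest.LogicCS.HFSet Crest.LogicCS.CPT

namespace Prog

variable (P : Prog) {A : Type} [Fintype A] (R : Fin 8 → A → A → Bool)

theorem chS_members (x : HF A) : members (P.chS R x) =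
    ((Finset.univ.filter fun a => P.Go R (St x) a).image fun a => ofFinset {atom a}) ∪
    (if ∃ a, P.Go R (St x) a then ∅ else {empty}) := members_ofFinset _

theorem chS_nonempty (x : HF A) : (members (P.chS R x)).Nonempty := by
  rw [chS_members]
  by_cases h : ∃ a, P.Go R (St x) a
  · obtain ⟨a, ha⟩ := h
    exact ⟨ofFinset {atom a}, Finset.mem_union_left _
      (Finset.mem_image.2 ⟨a, Finset.mem_filter.2 ⟨Finset.mem_univ _, ha⟩, rfl⟩)⟩
  · rw [if_neg h]
    exact ⟨empty, Finset.mem_union_right _ (Finset.mem_singleton_self _)⟩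

/-- (R282-W-DEF) the operator is always defined -/
theorem defined (wit : HF A → HF A → Option (HF A)) (out : HF A → Option Bool)
    (hw : ∀ z x, ∃ M, wit z x = some M ∧ ¬ IsAtom M ∧
      permGraph (1 : Equiv.Perm A) ∈ members M ∧
      (∀ q, P.AutX R (St x) q → ∀ g : Equiv.Perm A, (∀ a b, P.Act R q a b ↔ b = g a) →
        permGraph g ∈ members M) ∧
      (∀ m ∈ members M, m = permGraph (1 : Equiv.Perm A) ∨
        ∃ q, P.AutX R (St x) q ∧ ∀ g : Equiv.Perm A, (∀ a b, P.Act R q a b ↔ b = g a) →
          m = permGraph g))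
    (ho : ∀ x, out x = some (decide (P.Out R (St x)))) :
    WscDefined R (Fintype.card A) ∅ (fun x y => some (stp x y)) (fun x => some (P.chS R x))
      wit out := by
  refine ⟨?_, ?_⟩
  · intro b c k hr hf
    obtain ⟨X, hX, hc, -⟩ := P.run_inv R hr hf (fun _ => True) trivial (fun _ _ _ _ => trivial)
    have hk : k ≤ Fintype.card A := by rw [← hc]; exact Finset.card_le_univ X
    refine ⟨hk, ?_, P.chS R (b k), rfl, not_isAtom_ofFinset _, P.chS_nonempty R _, ?_⟩
    · rw [hX, tcSize_obj, hc]; exact hk
    · intro u _ h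
      cases h
  · intro b c t ht
    have hrun : P.Run R b c t := ⟨ht.1.1, fun i hi => ht.1.2 i (by omega)⟩
    refine ⟨?_, ?_⟩
    · intro i hi
      obtain ⟨M, hM, hMa, hM1, hMq, hMm⟩ := hw (b t) (b i)
      have hid : ∀ x : HF A, rename (1 : Equiv.Perm A) x = x := fun x => rename_id x
      refine ⟨P.chS R (b i), M, rfl, hM, hMa, ?_, ?_⟩
      · intro m hm
        rcases hMm m hm with h | ⟨q, hq, hqg⟩
        · exact ⟨1, h, fun _ _ _ => rfl, fun x hx => by simp at hx, fun j _ => hid _⟩
        · obtain ⟨g, hg, hga⟩ := P.exists_perm hq.1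
          refine ⟨g, hqg g hg, hga, fun x hx => by simp at hx, ?_⟩
          exact P.run_fix R hrun ht.2.1 g hi fun a ha => ((hg a a).1 (hq.2 a ha)).symm
      · intro u hu v hv
        rw [chS_members] at hu hv
        by_cases h : ∃ a, P.Go R (St (b i)) a
        · rw [if_pos h, Finset.union_empty] at hu hv
          obtain ⟨a, ha, rfl⟩ := Finset.mem_image.1 hu
          obtain ⟨a', ha', rfl⟩ := Finset.mem_image.1 hv
          have h1 := (Finset.mem_filter.1 ha).2
          have h2 := (Finset.mem_filter.1 ha').2
          obtain ⟨q, hq, hqa⟩ := h1.2 a a' h1.1 h2.1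
          obtain ⟨g, hg, hga⟩ := P.exists_perm hq.1
          refine ⟨g, hMq q hq g hg, ?_⟩
          rw [rename_ofFinset, Finset.image_singleton, rename_atom, (hg a a').1 hqa]
        · have hno : (Finset.univ.filter fun a => P.Go R (St (b i)) a) = ∅ := by
            ext a
            simp only [Finset.mem_filter, Finset.mem_univ, true_and, Finset.notMem_empty, iff_false]
            exact fun ha => h ⟨a, ha⟩
          rw [if_neg h, hno, Finset.image_empty, Finset.empty_union, Finset.mem_singleton] at hu hv
          subst hu hv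
          exact ⟨1, hM1, hid _⟩
    · rw [ho]; simp

/-- (R282-W-VAL) the value of the sentence -/
theorem value_eq : P.sent.value A R = some (decide (∀ b c t,
    IsTerminalPath (fun x y => some (stp x y)) (fun x => some (P.chS R x)) b c t →
      P.Out R (St (b t)))) := by
  have hp : (P.sent.bound.eval (Fintype.card A)) = Fintype.card A := by
    simp [sent]
  unfold Sentence.value
  rw [hp]
  have hform : P.sent.formula = .wsc stepT P.choiceT P.witT P.outF := rfl
  rw [hform, Formula.eval]
  have hpar : ∀ s : Finset (Fin 0), s.image (Fin.elim0 : Fin 0 → HF A) = ∅ := by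
    intro s
    rw [Finset.eq_empty_of_isEmpty s, Finset.image_empty]
  rw [hpar]
  have h1 : (fun x y : HF A => (stepT : Term (Fin 8) 2).eval R (Fintype.card A)
      (Fin.cons y (Fin.cons x (Fin.elim0 : Fin 0 → HF A)))) = fun x y => some (stp x y) := by
    funext x y
    rw [step_eval]
    rfl
  have h2 : (fun x : HF A => P.choiceT.eval R (Fintype.card A)
      (Fin.cons x (Fin.elim0 : Fin 0 → HF A))) = fun x => some (P.chS R x) := by
    funext x
    rw [choice_eval]
    rfl
  have h3 : (fun x : HF A => P.outF.eval R (Fintype.card A)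
      (Fin.cons x (Fin.elim0 : Fin 0 → HF A))) = fun x => some (decide (P.Out R (St x))) := by
    funext x
    rw [out_eval]
    rfl
  rw [h1, h2, h3]
  unfold wscValue
  rw [if_pos]
  · congr 1
    apply decide_eq_decide.2
    constructor
    · intro h b c t hb
      have := h b c t hb
      rwa [Option.some.injEq, decide_eq_true_iff] at this
    · intro h b c t hb
      have := h b c t hb
      rwa [Option.some.injEq, decide_eq_true_iff]
  · apply P.defined R
    · intro z x
      exact P.wit_eval R (Fintype.card A) (Fin.cons x (Fin.cons z (Fin.elim0 : Fin 0 → HF A)))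
    · intro x
      rfl

/-- the sentence never fails -/
theorem value_ne_none : P.sent.value A R ≠ none := by
  rw [value_eq]; simp

/-- an invariant proves truth -/
theorem value_true (Inv : Set A → Prop) (h0 : Inv ∅)
    (hs : ∀ X a, Inv X → P.Go R X a → Inv (insert a X))
    (ho : ∀ X, Inv X → (¬ ∃ a, P.Go R X a) → P.Out R X) : P.sent.value A R = some true := by
  rw [value_eq]
  congr 1
  rw [decide_eq_true_iff]
  intro b c t h
  obtain ⟨X, hX, -, hI⟩ := P.run_inv R (b := b) (c := c) (k := t)
    ⟨h.1.1, fun i hi => h.1.2 i (by omega)⟩ h.2.1 Inv h0 hs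
  have h1 := P.terminal_no_go R h
  rw [hX, St_obj] at h1 ⊢
  exact ho _ hI h1

/-- no output, no truth -/
theorem value_false (ho : ∀ X, ¬ P.Out R X) : P.sent.value A R ≠ some true := by
  rw [value_eq]
  intro h
  rw [Option.some.injEq, decide_eq_true_iff] at h
  obtain ⟨b, c, t, hb⟩ := P.exists_terminal R
  exact ho _ (h b c t hb)

end Prog

end Crest.Agent.CPTL
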