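import Mathlib
import Crest.Agent.CPT.WscOrb
import Crest.Agent.CPT.WscVal

/-!
# Row 282, S0426: the sentence is true at charge `0` and not true at total charge `1`
(chunks R282-W-INV, R282-W-FALSE)
-/

noncomputable section
open Classical

namespace Crest.Agent.CPTL
open Crest.LogicCS.HFSet Crest.LogicCS.CPT

variable {V E W : Type} [Fintype V] [Fintype E] [Fintype W] {K : Cplx V E W}

/-- the invariant of the run on `R 0` -/
def WInv (T : Topo K) (X : Set (U K)) : Prop :=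
  ∃ ι a, K.bd a = 0 ∧ ∃ k, X = Pre T ι a k

/-- the relation `0` in terms of stages -/
theorem winv_R0 (T : Topo K) (b : W → ZMod 3) (x y : U K) :
    WR T b 0 x y = true ↔ ∃ s t, stage T x = some s ∧ stage T y = some t ∧ s ≤ t := by
  unfold WR
  rw [decide_eq_true_iff]
  exact Iff.rfl

theorem winv_same (T : Topo K) (b : W → ZMod 3) {x y : U K} {s : ℕ} (hx : stage T x = some s)
    (hy : stage T y = some s) : WR T b 0 x y = true ∧ WR T b 0 y x = true :=
  ⟨(winv_R0 T b x y).2 ⟨s, s, hx, hy, le_rfl⟩, (winv_R0 T b y x).2 ⟨s, s, hy, hx, le_rfl⟩⟩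

/-- the configuration of the solution is consistent with all atoms of the solution -/
theorem winv_R1 (T : Topo K) (b : W → ZMod 3) (ι : V → Fin 6) (a : E → ZMod 3) (w : W) (y : U K)
    (h : OfSol K ι a y) : ¬ WR T b 1 (.inl (.cf (cfA K ι a w))) y = true := by
  unfold WR
  rw [decide_eq_true_iff]
  rintro ⟨c, y', hc, rfl, hcf⟩
  have h1 : cfA K ι a w = c := Base.cf.inj (Sum.inl.inj hc)
  rw [← h1] at hcf
  exact cfA_no_confl ι a w y' h hcf

theorem winv_R3 (T : Topo K) (b : W → ZMod 3) (x : U K) (h : WR T b 3 x x = true) :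
    ∃ w, x = .inl (.vt w) := by
  unfold WR at h
  rw [decide_eq_true_iff] at h
  exact h.2

theorem winv_R2 (T : Topo K) (ι : V → Fin 6) (a : E → ZMod 3) (ha : K.bd a = 0) (w : W) :
    WR T 0 2 (.inl (.cf (cfA K ι a w))) (.inl (.vt w)) = true := by
  unfold WR
  rw [decide_eq_true_iff]
  exact ⟨cfA K ι a w, rfl, rfl, cfA_valid ι a w ha⟩

/-- (W-INV 1) a candidate of the state `Pre T ι a k` has the least stage `s` which is not below
`k`; then `Pre T ι a k = Pre T ι a s` -/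
theorem cand_stage (T : Topo K) (ι : V → Fin 6) (a : E → ZMod 3) (k : ℕ) (u : U K)
    (hc : CandP (WR T 0) (Pre T ι a k) u) :
    ∃ s, stage T u = some s ∧ k ≤ s ∧ Pre T ι a k = Pre T ι a s ∧
      ∀ y s', stage T y = some s' → k ≤ s' → s ≤ s' := by
  obtain ⟨h1, h2, h3, -⟩ := hc
  obtain ⟨s, -, hs, -, -⟩ := (winv_R0 T 0 u u).1 h1
  have hks : k ≤ s := by
    by_contra hlt
    obtain ⟨y', hy', hst⟩ := exists_ofSol T ι a hs
    exact h2 y' ⟨hy', s, hst, not_le.1 hlt⟩ (winv_same T 0 hs hst)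
  have hmin : ∀ y s', stage T y = some s' → k ≤ s' → s ≤ s' := by
    intro y s' hy hk'
    by_contra hlt
    have hlt' : s' < s := not_le.1 hlt
    obtain ⟨z, hz, hz1, -⟩ := h3 y ⟨(winv_R0 T 0 y u).2 ⟨s', s, hy, hs, hlt'.le⟩, fun hr => by
      obtain ⟨p, q, hp, hq, hpq⟩ := (winv_R0 T 0 u y).1 hr
      rw [hs] at hp
      rw [hy] at hq
      obtain rfl := Option.some.inj hp
      obtain rfl := Option.some.inj hq
      omega⟩
    obtain ⟨-, s2, hs2, hs2k⟩ := hz
    obtain ⟨p, q, hp, hq, hpq⟩ := (winv_R0 T 0 y z).1 hz1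
    rw [hy] at hp
    rw [hs2] at hq
    obtain rfl := Option.some.inj hp
    obtain rfl := Option.some.inj hq
    omega
  refine ⟨s, hs, hks, ?_, hmin⟩
  ext y
  constructor
  · rintro ⟨hy, t, ht, htk⟩
    exact ⟨hy, t, ht, by omega⟩
  · rintro ⟨hy, t, ht, hts⟩
    refine ⟨hy, t, ht, ?_⟩
    by_contra hlt
    have := hmin y t ht (not_lt.1 hlt)
    omega

/-- the solution through the state and the candidate -/
theorem winv_move (T : Topo K) (ι : V → Fin 6) (a : E → ZMod 3) (ha : K.bd a = 0) (s : ℕ)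
    (u : U K) (hs : stage T u = some s) (hc : CandP (WR T 0) (Pre T ι a s) u) :
    ∃ ι' a', K.bd a' = 0 ∧ OfSol K ι' a' u ∧ Pre T ι a s = Pre T ι' a' s := by
  obtain ⟨u0, h0, hk0⟩ := exists_ofSol T ι a hs
  obtain ⟨v, h, hfix, hact⟩ := orbit T ι a ha s u0 u h0 hk0 hs hc
  refine ⟨actI (Pi.mulSingle v h) ι, actA K (Pi.mulSingle v h) ι a, ?_, ?_, ?_⟩
  · rw [bd_actA, ha]
  · rw [← hact]
    exact ofSol_act _ ι a u0 h0
  · ext y
    constructor
    · intro hy
      have h1 := ofSol_act (Pi.mulSingle v h) ι a y hy.1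
      rw [hfix y hy] at h1
      exact ⟨h1, hy.2⟩
    · rintro ⟨hy, t, ht, hts⟩
      obtain ⟨y', hy', hst⟩ := exists_ofSol T ι a ht
      have hmem : y' ∈ Pre T ι a s := ⟨hy', t, hst, hts⟩
      have h1 := ofSol_act (Pi.mulSingle v h) ι a y' hy'
      rw [hfix y' hmem] at h1
      have h2 : y = y' := ofSol_unique T hy h1 (by rw [ht, hst])
      rw [h2]
      exact hmem

/-- (W-INV 2) the check holds in every state of the invariant. For candidates `u, u'`:
`cand_stage`, `orbit` for `u` gives `g` and the new solution `g (ι, a)` (`ofSol_act`, `bd_actA`)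
through the state and `u`; `orbit` again for this solution and `u'`; `aut_gp`, `act_gp`. -/
theorem chk_of_inv (T : Topo K) (X : Set (U K)) (h : WInv T X) : wprog.Chk (WR T 0) X := by
  obtain ⟨ι, a, ha, k, rfl⟩ := h
  intro u u' hu hu'
  obtain ⟨s, hs, hks, hpre, hmin⟩ := cand_stage T ι a k u hu
  obtain ⟨s', hs', hks', -, hmin'⟩ := cand_stage T ι a k u' hu'
  have hss : s' = s := le_antisymm (hmin' u s hs hks) (hmin u' s' hs' hks')
  subst hss
  have hu1 : CandP (WR T 0) (Pre T ι a s') u := by rw [← hpre]; exact hu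
  have hu2 : CandP (WR T 0) (Pre T ι a s') u' := by rw [← hpre]; exact hu'
  obtain ⟨ι', a', ha', hof, hpre'⟩ := winv_move T ι a ha s' u hs hu1
  rw [hpre'] at hu2
  obtain ⟨v, h, hfix, hact⟩ := orbit T ι' a' ha' s' u u' hof hs hs' hu2
  refine ⟨.inl (.gp v h), ⟨aut_gp T 0 v h, fun y hy => ?_⟩, ?_⟩
  · rw [hpre, hpre'] at hy
    exact (act_gp T 0 v h y y).2 (hfix y hy).symm
  · exact (act_gp T 0 v h u u').2 hact.symm

/-- (W-INV 3) the invariant is preserved (`cand_stage`, `orbit`, `ofSol_act`, `bd_actA`) -/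
theorem inv_step (T : Topo K) (X : Set (U K)) (u : U K) (h : WInv T X)
    (hg : wprog.Go (WR T 0) X u) : WInv T (insert u X) := by
  obtain ⟨ι, a, ha, k, rfl⟩ := h
  have hu : CandP (WR T 0) (Pre T ι a k) u := hg.1
  obtain ⟨s, hs, hks, hpre, hmin⟩ := cand_stage T ι a k u hu
  have hu1 : CandP (WR T 0) (Pre T ι a s) u := by rw [← hpre]; exact hu
  obtain ⟨ι', a', ha', hof, hpre'⟩ := winv_move T ι a ha s u hs hu1
  refine ⟨ι', a', ha', s + 1, ?_⟩
  rw [hpre, hpre']
  ext y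
  constructor
  · rintro (rfl | ⟨hy, t, ht, hts⟩)
    · exact ⟨hof, s, hs, Nat.lt_succ_self s⟩
    · exact ⟨hy, t, ht, by omega⟩
  · rintro ⟨hy, t, ht, hts⟩
    rcases Nat.lt_or_ge t s with hlt | hge
    · exact Or.inr ⟨hy, t, ht, hlt⟩
    · have hts' : t = s := by omega
      subst hts'
      exact Or.inl (ofSol_unique T hy hof (by rw [ht, hs]))

/-- (W-INV 4) if there is a stage not below `k`, the atom of the least such stage is a
candidate -/
theorem exists_cand (T : Topo K) (ι : V → Fin 6) (a : E → ZMod 3) (ha : K.bd a = 0) (k : ℕ)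
    (y : U K) (s : ℕ) (hy : stage T y = some s) (hs : k ≤ s) :
    ∃ u, CandP (WR T 0) (Pre T ι a k) u := by
  have hex : ∃ s', k ≤ s' ∧ ∃ y : U K, stage T y = some s' := ⟨s, hs, y, hy⟩
  obtain ⟨hk0, y0, hy0⟩ := Nat.find_spec hex
  have hmin : ∀ s', k ≤ s' → (∃ y : U K, stage T y = some s') → Nat.find hex ≤ s' :=
    fun s' h1 h2 => Nat.find_min' hex ⟨h1, h2⟩
  set s0 := Nat.find hex with hs0
  obtain ⟨u, hu, hus⟩ := exists_ofSol T ι a hy0
  refine ⟨u, (winv_same T 0 hus hus).1, ?_, ?_, ?_⟩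
  · rintro y1 ⟨-, t, ht, htk⟩ ⟨h1, -⟩
    obtain ⟨p, q, hp, hq, hpq⟩ := (winv_R0 T 0 u y1).1 h1
    rw [hus] at hp
    rw [ht] at hq
    have e1 := Option.some.inj hp
    have e2 := Option.some.inj hq
    omega
  · rintro y1 ⟨h1, h2⟩
    obtain ⟨p, q, hp, hq, hpq⟩ := (winv_R0 T 0 y1 u).1 h1
    rw [hus] at hq
    have e2 := Option.some.inj hq
    have hlt : p < s0 := by
      by_contra hge
      exact h2 ((winv_R0 T 0 u y1).2 ⟨s0, p, hus, hp, not_lt.1 hge⟩)
    have hpk : p < k := by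
      by_contra hge
      have := hmin p (not_lt.1 hge) ⟨y1, hp⟩
      omega
    obtain ⟨z, hz, hzs⟩ := exists_ofSol T ι a hp
    exact ⟨z, ⟨hz, p, hzs, hpk⟩, winv_same T 0 hp hzs⟩
  · intro w hw
    obtain ⟨w', rfl⟩ := winv_R3 T 0 w hw
    exact ⟨_, winv_R2 T ι a ha w', winv_R1 T 0 ι a w' u hu,
      fun y1 hy1 => winv_R1 T 0 ι a w' y1 hy1.1⟩

/-- (W-INV 5) all stages filled: output -/
theorem out_full (T : Topo K) (ι : V → Fin 6) (a : E → ZMod 3) (ha : K.bd a = 0) (k : ℕ)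
    (h : ∀ y s, stage T y = some s → s < k) : OutP (WR T 0) (Pre T ι a k) := by
  refine ⟨?_, ?_⟩
  · intro y hy
    obtain ⟨s, -, hs, -, -⟩ := (winv_R0 T 0 y y).1 hy
    obtain ⟨z, hz, hzs⟩ := exists_ofSol T ι a hs
    exact ⟨z, ⟨hz, s, hzs, h y s hs⟩, winv_same T 0 hs hzs⟩
  · intro w hw
    obtain ⟨w', rfl⟩ := winv_R3 T 0 w hw
    exact ⟨_, winv_R2 T ι a ha w', fun y1 hy1 => winv_R1 T 0 ι a w' y1 hy1.1⟩

/-- the sentence is true at charge `0` -/
theorem wsent_true [Fintype (U K)] (T : Topo K) : wprog.sent.value (U K) (WR T 0) = some true := by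
  apply Prog.value_true wprog (WR T 0) (WInv T)
  · refine ⟨fun _ => 0, 0, map_zero _, 0, ?_⟩
    ext y
    simp [Pre]
  · intro X u h hg
    exact inv_step T X u h hg
  · rintro X hX hno
    have hchk := chk_of_inv T X hX
    obtain ⟨ι, a, ha, k, rfl⟩ := hX
    refine out_full T ι a ha k fun y s hy => ?_
    by_contra hs
    obtain ⟨u, hu⟩ := exists_cand T ι a ha k y s hy (not_lt.1 hs)
    exact hno ⟨u, hu, hchk⟩

/-- (W-FALSE) an output state gives a chain with boundary `b` -/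
theorem out_bd (T : Topo K) (b : W → ZMod 3) (X : Set (U K)) (h : OutP (WR T b) X) :
    ∃ m : E → ZMod 3, K.bd m = b := by
  obtain ⟨h1, h2⟩ := h
  have key : ∀ e : E, ∃ a : ZMod 3, Real K e →
      ∃ ι : {v // K.kap v e ≠ 0} → Fin 6, (.inl (.ed ⟨e, ι, a⟩) : U K) ∈ X := by
    intro e
    by_cases he : Real K e
    swap
    · exact ⟨0, fun h => absurd h he⟩
    have hst : stage T (.inl (.ed ⟨e, fun _ => 0, 0⟩) : U K) =
        some (Fintype.card V + stE T e) := by
      simp only [stage]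
      rw [if_pos he]
    obtain ⟨z, hz, hz1, hz2⟩ := h1 (.inl (.ed ⟨e, fun _ => 0, 0⟩))
      (decide_eq_true ⟨_, _, hst, hst, le_rfl⟩)
    obtain ⟨s1, t1, hs1, ht1, hle1⟩ := of_decide_eq_true hz1
    obtain ⟨s2, t2, hs2, ht2, hle2⟩ := of_decide_eq_true hz2
    have e1 : s1 = Fintype.card V + stE T e := Option.some_injective _ (hs1.symm.trans hst)
    have e2 : t2 = Fintype.card V + stE T e := Option.some_injective _ (ht2.symm.trans hst)
    have e3 : t1 = s2 := Option.some_injective _ (ht1.symm.trans hs2)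
    have e4 : t1 = Fintype.card V + stE T e := by omega
    rw [e4] at ht1
    rcases z with (⟨e', ι, a⟩ | x | ⟨v, i⟩ | x | x | x) | ⟨q, x⟩
    · simp only [stage] at ht1
      split_ifs at ht1 with hr
      have e5 := Option.some_injective _ ht1
      have e6 : e' = e := stE_inj T (by omega)
      subst e6
      exact ⟨a, fun _ => ⟨ι, hz⟩⟩
    · simp [stage] at ht1
    · simp only [stage, Option.some.injEq] at ht1
      have := (Fintype.equivFin V v).2
      omega
    · simp [stage] at ht1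
    · simp [stage] at ht1
    · simp [stage] at ht1
    · simp [stage] at ht1
  choose m hm using key
  refine ⟨m, ?_⟩
  funext w
  obtain ⟨c0, hc0, hc1⟩ := h2 (.inl (.vt w)) (decide_eq_true ⟨rfl, w, rfl⟩)
  obtain ⟨c, rfl, hcw, hv⟩ := of_decide_eq_true hc0
  have hw : w = c.1 := by
    have := Sum.inl_injective hcw
    injection this
  subst hw
  have hval : ∀ e : {e // K.d e c.1 ≠ 0}, c.2.2 e = m e.1 := by
    intro e
    obtain ⟨ι, hX⟩ := hm e.1 ⟨c.1, e.2⟩
    have h3 := hc1 _ hX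
    have h4 : ¬ Confl c (.ed ⟨e.1, ι, m e.1⟩) := fun hcf =>
      h3 (decide_eq_true ⟨c, _, rfl, rfl, hcf⟩)
    have h5 : Restr K c ⟨e.1, ι, m e.1⟩ := by
      by_contra hr
      exact h4 ⟨e.2, hr⟩
    obtain ⟨_, _, h6⟩ := h5
    exact h6.symm
  have hv' : ∑ e : {e // K.d e c.1 ≠ 0}, K.d e.1 c.1 * c.2.2 e = b c.1 := hv
  show ∑ e, K.d e c.1 * m e = b c.1
  rw [← hv', ← sum_sub_eq (fun e => K.d e c.1 ≠ 0) (fun e => K.d e c.1 * m e)]
  · exact Finset.sum_congr rfl fun e _ => by rw [hval e]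
  · intro e he
    rw [not_ne_iff.1 he, zero_mul]

/-- (W-FALSE) the total charge of a boundary is 0 (`K.dsum`) -/
theorem sum_bd (m : E → ZMod 3) : ∑ w, K.bd m w = 0 := by
  show ∑ w, ∑ e, K.d e w * m e = 0
  rw [Finset.sum_comm]
  refine Finset.sum_eq_zero fun e _ => ?_
  rw [← Finset.sum_mul, K.dsum, zero_mul]

/-- the sentence is not true at total charge `1` -/
theorem wsent_false [Fintype (U K)] (T : Topo K) (w : W) :
    wprog.sent.value (U K) (WR T (0 + Pi.single w 1)) ≠ some true := by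
  apply Prog.value_false wprog
  intro X hX
  obtain ⟨m, hm⟩ := out_bd T _ X hX
  have h := sum_bd (K := K) m
  rw [hm] at h
  simp at h

end Crest.Agent.CPTL
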