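import Mathlib
import Crest.Agent.CPT.WscInv
import Crest.Agent.CPT.FGrid

/-!
# Row 282, S0426: assembly
-/

noncomputable section
open Classical

namespace Crest.Agent.CPTL
open Crest.LogicCS.HFSet Crest.LogicCS.CPT

theorem s0426_final : ∃ S : Sentence (Fin 8), S.formula.wscCount = 1 ∧
    (∀ (A : Type) [Fintype A] (R : Fin 8 → A → A → Bool), S.value A R ≠ none) ∧
    ∀ T : Sentence (Fin 8), T.IsPlain →
      ¬ ∀ (A : Type) [Fintype A] (R : Fin 8 → A → A → Bool), S.Holds A R ↔ T.Holds A R := by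
  refine ⟨wprog.sent, wprog.sent_count, fun A _ R => wprog.value_ne_none R, ?_⟩
  intro S hS hdef
  obtain ⟨c, hc⟩ := no_plain S hS
  obtain ⟨c', hc'⟩ := card_U_le
  obtain ⟨M, hM2, hM⟩ := exists_big c c'
  obtain ⟨V, E, W, _, _, _, K, T, hTM, hL, hcard⟩ := gridFam M hM2
  have hcU := hc' V E W K hL
  have hn : Fintype.card (U K) ≤ c' * (7 * M ^ 3 + 1) ^ 2 :=
    le_trans hcU (Nat.mul_le_mul_left _ (Nat.pow_le_pow_left (by omega) 2))
  have hlt := hM _ hn
  obtain ⟨w, hw⟩ := T.safe_ne ∅ (by rw [Finset.card_empty, hTM]; omega)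
  have hval := hc (U K) V W Bg (E → ZMod 3) (univSys K T) (relW T) 0 w hw
    (by show _ < T.M; rw [hTM]; exact hlt)
  have h4 : S.value (U K) (WR T 0) = S.value (U K) (WR T (0 + Pi.single w 1)) := hval
  have h0 : wprog.sent.Holds (U K) (WR T 0) := wsent_true T
  have h1 := (hdef (U K) (WR T 0)).1 h0
  unfold Sentence.Holds at h1
  rw [h4] at h1
  exact wsent_false T w ((hdef (U K) (WR T (0 + Pi.single w 1))).2 h1)

end Crest.Agent.CPTL
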